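import Vale.Agent.P317.MathlibUsed

section

namespace Vale.Agent.P317

/-- A finite computation tree; the inner nodes are fair coin flips. -/
inductive Rnd (α : Type) : Type
  | leaf : α → Rnd α
  | flip : Rnd α → Rnd α → Rnd α

namespace Rnd

/-- Run a second randomised computation on the outcome of the first. -/
def bind {α β : Type} : Rnd α → (α → Rnd β) → Rnd β
  | leaf a, g => g a
  | flip t u, g => flip (t.bind g) (u.bind g)

open Classical in
/-- The probability that the outcome satisfies `p`. -/
noncomputable def prob {α : Type} (p : α → Prop) : Rnd α → ℝ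
  | leaf a => if p a then 1 else 0
  | flip t u => (prob p t + prob p u) / 2

/-- Every possible outcome satisfies `p`. -/
def All {α : Type} (p : α → Prop) : Rnd α → Prop
  | leaf a => p a
  | flip t u => All p t ∧ All p u

end Rnd

/-- Programs. Registers `0, 1, 2, …` hold natural numbers and, separately, finite sets. -/
inductive Cmd : Type
  /-- number register `x` := the literal `c` -/
  | const (x c : ℕ)
  /-- number register `x` := `y + z` (registers) -/
  | add (x y z : ℕ)
  /-- number register `x` := `y - z`, truncated at zero (registers) -/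
  | sub (x y z : ℕ)
  /-- number register `x` := a fair coin in `{0, 1}` -/
  | coin (x : ℕ)
  /-- set register `S` := the empty set -/
  | clear (S : ℕ)
  /-- set register `S` := set register `T` -/
  | copy (S T : ℕ)
  /-- insert the number in register `x` into set register `S` -/
  | insert (S x : ℕ)
  /-- remove the number in register `x` from set register `S` -/
  | erase (S x : ℕ)
  /-- number register `x` := 1 if the number in register `y` lies in set register `S`, else 0 -/
  | mem (x y S : ℕ)
  /-- number register `x` := 1 if oracle `i` accepts set register `S`, else 0 -/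
  | ask (i : Bool) (x S : ℕ)
  /-- first `c`, then `d` -/
  | seq (c d : Cmd)
  /-- if register `x` is smaller than register `y` then `c` else `d` -/
  | cond (x y : ℕ) (c d : Cmd)
  /-- repeat `c`; the number of repetitions is the value of register `x` at entry -/
  | loop (x : ℕ) (c : Cmd)

/-- Contents of the registers and the number of steps made so far. -/
structure State where
  num : ℕ → ℕ
  set : ℕ → Finset ℕ
  time : ℕ

namespace State

/-- one step of time -/
def tick (s : State) : State := { s with time := s.time + 1 }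

/-- write a number register; one step -/
def putNum (s : State) (x v : ℕ) : State :=
  { s with num := Function.update s.num x v, time := s.time + 1 }

/-- write a set register; one step -/
def putSet (s : State) (S : ℕ) (v : Finset ℕ) : State :=
  { s with set := Function.update s.set S v, time := s.time + 1 }

end State

/-- iterate a randomised computation; each round costs one extra step -/
def iter (g : State → Rnd State) : ℕ → State → Rnd State
  | 0, s => .leaf s
  | m + 1, s => (g s.tick).bind (iter g m)

/-- Semantics of programs, given two oracles. -/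
def run (o : Bool → Finset ℕ → Bool) : Cmd → State → Rnd State
  | .const x c, s => .leaf (s.putNum x c)
  | .add x y z, s => .leaf (s.putNum x (s.num y + s.num z))
  | .sub x y z, s => .leaf (s.putNum x (s.num y - s.num z))
  | .coin x, s => .flip (.leaf (s.putNum x 0)) (.leaf (s.putNum x 1))
  | .clear S, s => .leaf (s.putSet S ∅)
  | .copy S T, s => .leaf (s.putSet S (s.set T))
  | .insert S x, s => .leaf (s.putSet S (Insert.insert (s.num x) (s.set S)))
  | .erase S x, s => .leaf (s.putSet S ((s.set S).erase (s.num x)))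
  | .mem x y S, s => .leaf (s.putNum x (if s.num y ∈ s.set S then 1 else 0))
  | .ask i x S, s => .leaf (s.putNum x (if o i (s.set S) then 1 else 0))
  | .seq c d, s => (run o c s).bind (run o d)
  | .cond x y c d, s => if s.num x < s.num y then run o c s.tick else run o d s.tick
  | .loop x c, s => iter (run o c) (s.num x) s.tick

open Classical in
/-- The independence oracles of two matroids on `{0, …, n - 1}`. -/
noncomputable def oracles {n : ℕ} (M₁ M₂ : Matroid (Fin n)) (i : Bool) (S : Finset ℕ) : Bool :=
  decide ((if i then M₂ else M₁).Indep {x : Fin n | (x : ℕ) ∈ S})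

/-- The input: `n`, `e`, `l` in the number registers `0, 1, 2`; all else is empty. -/
def input (n e l : ℕ) : State where
  num := fun x => if x = 0 then n else if x = 1 then e else if x = 2 then l else 0
  set := fun _ => ∅
  time := 0

end Vale.Agent.P317
end

section

/-!
Case distinctions of `Lang` in their own module (so that no other module has to repeat them).
-/

namespace Vale.Agent.P317

theorem run_cases (o : Bool → Finset ℕ → Bool) (c : Cmd) (s : State) :
    run o c s = run o c s := by
  unfold run
  split <;> rfl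

theorem prob_cases {α : Type} (p : α → Prop) (t : Rnd α) : t.prob p = t.prob p := by
  unfold Rnd.prob
  split <;> rfl

theorem all_cases {α : Type} (p : α → Prop) (t : Rnd α) : t.All p ↔ t.All p := by
  unfold Rnd.All
  split <;> rfl

theorem bind_cases {α β : Type} (g : α → Rnd β) (t : Rnd α) : t.bind g = t.bind g := by
  unfold Rnd.bind
  split <;> rfl

theorem iter_cases (g : State → Rnd State) (m : ℕ) (s : State) : iter g m s = iter g m s := by
  unfold iter
  split <;> rfl

theorem run_const' (o : Bool → Finset ℕ → Bool) (x c : ℕ) (s : State) :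
    run o (.const x c) s = .leaf (s.putNum x c) := by simp only [run]

theorem prob_leaf_true {α : Type} (a : α) : (Rnd.leaf a).prob (fun _ => True) = 1 := by
  simp only [Rnd.prob, if_true]

theorem all_leaf' {α : Type} (p : α → Prop) (a : α) : (Rnd.leaf a).All p ↔ p a := by
  simp only [Rnd.All]

theorem bind_leaf' {α β : Type} (g : α → Rnd β) (a : α) : (Rnd.leaf a).bind g = g a := by
  simp only [Rnd.bind]

theorem iter_zero' (g : State → Rnd State) (s : State) : iter g 0 s = .leaf s := by
  simp only [iter]

end Vale.Agent.P317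
end

section

namespace Vale.Agent.P317

namespace Rnd

variable {α β γ : Type}

@[simp] theorem bind_leaf (a : α) (g : α → Rnd β) : (leaf a).bind g = g a := rfl

@[simp] theorem bind_flip (t u : Rnd α) (g : α → Rnd β) :
    (flip t u).bind g = flip (t.bind g) (u.bind g) := rfl

theorem bind_assoc (t : Rnd α) (g : α → Rnd β) (h : β → Rnd γ) :
    (t.bind g).bind h = t.bind (fun a => (g a).bind h) := by
  induction t with
  | leaf a => rfl
  | flip t u iht ihu => simp [iht, ihu]

/-- expectation -/
noncomputable def ex (f : α → ℝ) : Rnd α → ℝ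
  | leaf a => f a
  | flip t u => (ex f t + ex f u) / 2

@[simp] theorem ex_leaf (f : α → ℝ) (a : α) : ex f (leaf a) = f a := rfl

@[simp] theorem ex_flip (f : α → ℝ) (t u : Rnd α) : ex f (flip t u) = (ex f t + ex f u) / 2 := rfl

theorem ex_bind (f : β → ℝ) (t : Rnd α) (g : α → Rnd β) :
    ex f (t.bind g) = ex (fun a => ex f (g a)) t := by
  induction t with
  | leaf a => rfl
  | flip t u iht ihu => simp [iht, ihu]

open Classical in
theorem prob_eq_ex (p : α → Prop) (t : Rnd α) : prob p t = ex (fun a => if p a then 1 else 0) t := by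
  induction t with
  | leaf a => rfl
  | flip t u iht ihu => simp only [prob, iht, ihu, ex]

theorem All.mono {p q : α → Prop} {t : Rnd α} (h : All p t) (hpq : ∀ a, p a → q a) : All q t := by
  induction t with
  | leaf a => exact hpq a h
  | flip t u iht ihu => exact ⟨iht h.1, ihu h.2⟩

theorem all_bind {p : β → Prop} {t : Rnd α} {g : α → Rnd β} :
    All p (t.bind g) ↔ All (fun a => All p (g a)) t := by
  induction t with
  | leaf a => exact Iff.rfl
  | flip t u iht ihu => exact and_congr iht ihu

theorem All.bind {p : β → Prop} {q : α → Prop} {t : Rnd α} {g : α → Rnd β} (h : All q t)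
    (hg : ∀ a, q a → All p (g a)) : All p (t.bind g) :=
  all_bind.2 (h.mono hg)

theorem all_true {p : α → Prop} (h : ∀ a, p a) (t : Rnd α) : All p t := by
  induction t with
  | leaf a => exact h a
  | flip t u iht ihu => exact ⟨iht, ihu⟩

theorem All.and {p q : α → Prop} {t : Rnd α} (h : All p t) (h' : All q t) :
    All (fun a => p a ∧ q a) t := by
  induction t with
  | leaf a => exact ⟨h, h'⟩
  | flip t u iht ihu => exact ⟨iht h.1 h'.1, ihu h.2 h'.2⟩

theorem ex_mono_all {f g : α → ℝ} {t : Rnd α} (h : All (fun a => f a ≤ g a) t) :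
    ex f t ≤ ex g t := by
  induction t with
  | leaf a => exact h
  | flip t u iht ihu =>
    have h1 := iht h.1
    have h2 := ihu h.2
    simp only [ex_flip]
    linarith only [h1, h2]

theorem ex_mono {f g : α → ℝ} (h : ∀ a, f a ≤ g a) (t : Rnd α) : ex f t ≤ ex g t :=
  ex_mono_all (all_true h t)

theorem ex_congr_all {f g : α → ℝ} {t : Rnd α} (h : All (fun a => f a = g a) t) :
    ex f t = ex g t :=
  le_antisymm (ex_mono_all (h.mono fun _ h => h.le)) (ex_mono_all (h.mono fun _ h => h.ge))

theorem ex_const (c : ℝ) (t : Rnd α) : ex (fun _ => c) t = c := by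
  induction t with
  | leaf a => rfl
  | flip t u iht ihu => simp [iht, ihu]

theorem ex_add (f g : α → ℝ) (t : Rnd α) : ex (fun a => f a + g a) t = ex f t + ex g t := by
  induction t with
  | leaf a => rfl
  | flip t u iht ihu => simp only [ex_flip, iht, ihu]; ring

theorem ex_mul_left (c : ℝ) (f : α → ℝ) (t : Rnd α) : ex (fun a => c * f a) t = c * ex f t := by
  induction t with
  | leaf a => rfl
  | flip t u iht ihu => simp only [ex_flip, iht, ihu]; ring

theorem ex_sub (f g : α → ℝ) (t : Rnd α) : ex (fun a => f a - g a) t = ex f t - ex g t := by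
  induction t with
  | leaf a => rfl
  | flip t u iht ihu => simp only [ex_flip, iht, ihu]; ring

/-- same coins, related outcomes -/
def Sim (R : α → β → Prop) : Rnd α → Rnd β → Prop
  | leaf a, leaf b => R a b
  | flip t u, flip t' u' => Sim R t t' ∧ Sim R u u'
  | _, _ => False

theorem Sim.mono {R R' : α → β → Prop} {t : Rnd α} {u : Rnd β} (h : Sim R t u)
    (hR : ∀ a b, R a b → R' a b) : Sim R' t u := by
  induction t generalizing u with
  | leaf a => cases u with
    | leaf b => exact hR a b h
    | flip _ _ => exact h.elim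
  | flip t u iht ihu => cases u with
    | leaf b => exact h.elim
    | flip t' u' => exact ⟨iht h.1, ihu h.2⟩

theorem Sim.bind {δ : Type} {R : α → β → Prop} {R' : γ → δ → Prop} {t : Rnd α} {u : Rnd β}
    {g : α → Rnd γ} {g' : β → Rnd δ} (h : Sim R t u)
    (hg : ∀ a b, R a b → Sim R' (g a) (g' b)) : Sim R' (t.bind g) (u.bind g') := by
  induction t generalizing u with
  | leaf a => cases u with
    | leaf b => exact hg a b h
    | flip _ _ => exact h.elim
  | flip t u iht ihu => cases u with
    | leaf b => exact h.elim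
    | flip t' u' => exact ⟨iht h.1, ihu h.2⟩

theorem Sim.ex_eq {R : α → β → Prop} {t : Rnd α} {u : Rnd β} (h : Sim R t u) {f : α → ℝ}
    {g : β → ℝ} (hfg : ∀ a b, R a b → f a = g b) : ex f t = ex g u := by
  induction t generalizing u with
  | leaf a => cases u with
    | leaf b => exact hfg a b h
    | flip _ _ => exact h.elim
  | flip t u iht ihu => cases u with
    | leaf b => exact h.elim
    | flip t' u' => simp only [ex_flip, iht h.1, ihu h.2]

theorem Sim.all {R : α → β → Prop} {t : Rnd α} {u : Rnd β} (h : Sim R t u) {p : α → Prop}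
    {q : β → Prop} (hu : All q u) (hpq : ∀ a b, R a b → q b → p a) : All p t := by
  induction t generalizing u with
  | leaf a => cases u with
    | leaf b => exact hpq a b h hu
    | flip _ _ => exact h.elim
  | flip t u iht ihu => cases u with
    | leaf b => exact h.elim
    | flip t' u' => exact ⟨iht h.1 hu.1, ihu h.2 hu.2⟩

end Rnd

theorem iter_zero (g : State → Rnd State) (s : State) : iter g 0 s = .leaf s := rfl

theorem iter_succ (g : State → Rnd State) (m : ℕ) (s : State) :
    iter g (m + 1) s = (g s.tick).bind (iter g m) := rfl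

/-- repeated abstract kernel -/
def rep {A : Type} (g : A → Rnd A) : ℕ → A → Rnd A
  | 0, a => .leaf a
  | m + 1, a => (g a).bind (rep g m)

theorem sim_iter {A : Type} {R : State → A → Prop} {g : State → Rnd State} {g' : A → Rnd A}
    (h : ∀ s a, R s a → Rnd.Sim R (g s.tick) (g' a)) (m : ℕ) :
    ∀ s a, R s a → Rnd.Sim R (iter g m s) (rep g' m a) := by
  induction m with
  | zero => intro s a hR; exact hR
  | succ m ih =>
    intro s a hR
    rw [iter_succ]
    exact (h s a hR).bind ih

end Vale.Agent.P317
end

section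

/-!
# The counting algorithm as a (time-free) randomised computation

States are finite sets of codes; the element `(i, b)` of `Fin n × Bool` has code `2 * i + b`.
-/

namespace Vale.Agent.P317.Alg

open Rnd

/-- parameters: oracles, `n`, rank `r`, number of random bits `a` (`2n ≤ 2^a`), length `L` -/
structure Par where
  o : Bool → Finset ℕ → Bool
  n : ℕ
  r : ℕ
  a : ℕ
  L : ℕ

/-- number of `i < m` with `P i` -/
def cnt (P : ℕ → Bool) : ℕ → ℕ
  | 0 => 0
  | m + 1 => cnt P m + if P m then 1 else 0

/-- last `i < m` with `P i` (or `0`) -/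
def lst (P : ℕ → Bool) : ℕ → ℕ
  | 0 => 0
  | m + 1 => if P m then m else lst P m

/-- greedy: set and its size -/
def greedy (q : Finset ℕ → Bool) (P : ℕ → Bool) : ℕ → Finset ℕ × ℕ
  | 0 => (∅, 0)
  | m + 1 =>
    if P m = true ∧ q (insert m (greedy q P m).1) = true
    then (insert m (greedy q P m).1, (greedy q P m).2 + 1) else greedy q P m

/-- cell `i` is contained in `S` -/
def isD (S : Finset ℕ) (i : ℕ) : Bool := decide (i + i ∈ S ∧ i + i + 1 ∈ S)

/-- cell `i` is disjoint from `S` -/
def isE (S : Finset ℕ) (i : ℕ) : Bool := decide (i + i ∉ S ∧ i + i + 1 ∉ S)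

/-- code of the triple `(l, i, j)` -/
def code (n l i j : ℕ) : ℕ := (l * n + i) * n + j

/-- number of `l < k` whose triple `(l, i, j)` is recorded in `H` -/
def hist (H : Finset ℕ) (n k i j : ℕ) : ℕ := cnt (fun l => decide (code n l i j ∈ H)) k

namespace Par

variable (P : Par)

/-- number of double cells -/
def nD (S : Finset ℕ) : ℕ := cnt (isD S) P.n

/-- the (last) double cell -/
def dI (S : Finset ℕ) : ℕ := lst (isD S) P.n

/-- the (last) empty cell -/
def eI (S : Finset ℕ) : ℕ := lst (isE S) P.n

/-- deficiency -/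
def dfc (S : Finset ℕ) : ℕ :=
  (cnt (fun i => decide (i + i ∈ S)) P.n -
    (greedy (P.o false) (fun i => decide (i + i ∈ S)) P.n).2) +
  (P.r - (greedy (P.o true) (fun i => decide (i + i + 1 ∉ S)) P.n).2)

/-- positive part of the exponent of the weight -/
def pe (I : Finset ℕ) (k : ℕ) (S : Finset ℕ) : ℕ :=
  if P.nD S = 0 then 0 else 2 + hist I P.n k (P.dI S) (P.eI S)

/-- negative part of the exponent of the weight -/
def qe (D : Finset ℕ) (k : ℕ) (S : Finset ℕ) : ℕ :=
  k * P.dfc S / P.n + if P.nD S = 0 then 0 else hist D P.n k (P.dI S) (P.eI S)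

/-- number of coins that must all show `1` for the move `S → S'` -/
def gap (I D : Finset ℕ) (k : ℕ) (S S' : Finset ℕ) : ℕ :=
  (P.pe I k S + P.qe D k S') - (P.pe I k S' + P.qe D k S)

end Par

/-- `m` further random bits -/
def bits : ℕ → ℕ → Rnd ℕ
  | 0, v => .leaf v
  | m + 1, v => .flip (bits m (v + v)) (bits m (v + v + 1))

/-- `m` coins must all show `1` -/
def flips : ℕ → Bool → Rnd Bool
  | 0, b => .leaf b
  | m + 1, b => .flip (flips m false) (flips m b)

namespace Par

variable (P : Par)

/-- exchange proposal `x → y` with Metropolis acceptance -/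
def move (I D : Finset ℕ) (k : ℕ) (S : Finset ℕ) (x y : ℕ) : Rnd (Finset ℕ) :=
  if x ∈ S ∧ y ∉ S ∧ y < P.n + P.n ∧ P.nD (insert y (S.erase x)) ≤ 1 then
    (flips (P.gap I D k S (insert y (S.erase x))) true).bind fun b =>
      .leaf (if b then insert y (S.erase x) else S)
  else .leaf S

/-- one step of the chain of stage `k` -/
def step (I D : Finset ℕ) (k : ℕ) (S : Finset ℕ) : Rnd (Finset ℕ) :=
  (bits P.a 0).bind fun x => (bits P.a 0).bind fun y => P.move I D k S x y

/-- uniformly random choice from the cells `i, …, i + m - 1` -/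
def start : ℕ → ℕ → Finset ℕ → Rnd (Finset ℕ)
  | 0, _, S => .leaf S
  | m + 1, i, S => .flip (start m (i + 1) (insert (i + i) S)) (start m (i + 1) (insert (i + i + 1) S))

/-- stages `κ, …, κ + m - 1` of a thread -/
def stages (I D : Finset ℕ) : ℕ → ℕ → Finset ℕ → Rnd (Finset ℕ)
  | 0, _, S => .leaf S
  | m + 1, κ, S => (rep (P.step I D κ) P.L S).bind (stages I D m (κ + 1))

/-- a fresh thread run through the stages `0, …, k` -/
def thread (I D : Finset ℕ) (k : ℕ) : Rnd (Finset ℕ) :=
  (start P.n 0 ∅).bind (P.stages I D (k + 1) 0)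

/-- `m` fresh threads; count two events -/
def expt (t : Rnd (Finset ℕ)) (p q : Finset ℕ → Bool) (m : ℕ) (c : ℕ × ℕ) : Rnd (ℕ × ℕ) :=
  rep (fun c => t.bind fun S =>
    .leaf (c.1 + (if p S then 1 else 0), c.2 + (if q S then 1 else 0))) m c

/-- `S` is colourful -/
def col (S : Finset ℕ) : Bool := decide (P.nD S = 0)

/-- `S` has type `(i, j)` -/
def typ (i j : ℕ) (S : Finset ℕ) : Bool :=
  decide (P.nD S ≠ 0 ∧ P.dI S = i ∧ P.eI S = j)

/-- `S` is colourful and its weight drops between the stages `k` and `k + 1` -/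
def drop (k : ℕ) (S : Finset ℕ) : Bool :=
  decide (P.nD S = 0 ∧ k * P.dfc S / P.n < (k + 1) * P.dfc S / P.n)

/-- update of the history after the counts `c = (x, y)` for the triple `(k, i, j)` -/
def upd (k i j : ℕ) (H : Finset ℕ × Finset ℕ) (c : ℕ × ℕ) : Finset ℕ × Finset ℕ :=
  (if 3 * c.1 < c.2 then insert (code P.n k i j) H.1 else H.1,
    if 3 * c.2 < c.1 then insert (code P.n k i j) H.2 else H.2)

/-- experiment for the ordered pair `(i, j)` at stage `k`; `H = (I, D)` is the history -/
def pair (k i j : ℕ) (H : Finset ℕ × Finset ℕ) : Rnd (Finset ℕ × Finset ℕ) :=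
  if i = j then .leaf H else
    (expt (P.thread H.1 H.2 k) (P.typ i j) P.col P.L (0, 0)).bind fun c => .leaf (P.upd k i j H c)

/-- all `j` from `j` on, `m` of them -/
def row (k i : ℕ) : ℕ → ℕ → Finset ℕ × Finset ℕ → Rnd (Finset ℕ × Finset ℕ)
  | 0, _, H => .leaf H
  | m + 1, j, H => (P.pair k i j H).bind (row k i m (j + 1))

/-- all `i` from `i` on, `m` of them -/
def rows (k : ℕ) : ℕ → ℕ → Finset ℕ × Finset ℕ → Rnd (Finset ℕ × Finset ℕ)
  | 0, _, H => .leaf H
  | m + 1, i, H => (P.row k i P.n 0 H).bind (rows k m (i + 1))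

/-- full stage `k`: new history, new fraction -/
def stage (k : ℕ) (H : Finset ℕ × Finset ℕ) (f : ℕ × ℕ) :
    Rnd ((Finset ℕ × Finset ℕ) × (ℕ × ℕ)) :=
  (P.rows k P.n 0 H).bind fun H' =>
    (expt (P.thread H'.1 H'.2 k) (P.drop k) P.col P.L (0, 0)).bind fun c =>
      .leaf (H', (f.1 * (2 * c.2 - c.1), f.2 * (2 * c.2)))

/-- stages `k, …, k + m - 1` -/
def main : ℕ → ℕ → (Finset ℕ × Finset ℕ) → (ℕ × ℕ) →
    Rnd ((Finset ℕ × Finset ℕ) × (ℕ × ℕ))
  | 0, _, H, f => .leaf (H, f)
  | m + 1, k, H, f => (P.stage k H f).bind fun r => main m (k + 1) r.1 r.2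

/-- the output fraction; `K` = number of stages -/
def output (K : ℕ) : Rnd (ℕ × ℕ) :=
  (P.main K 0 (∅, ∅) (2 ^ P.n, 1)).bind fun r =>
    .leaf (if 2 * r.2.1 < r.2.2 then 0 else r.2.1, r.2.2)

end Par

/-! Case distinctions of the definitions above in their own module (so that no other module has to
repeat them). -/

theorem cnt_cases (P : ℕ → Bool) (m : ℕ) : cnt P m = cnt P m := by
  unfold cnt
  split <;> rfl

theorem lst_cases (P : ℕ → Bool) (m : ℕ) : lst P m = lst P m := by
  unfold lst
  split <;> rfl

theorem greedy_cases (q : Finset ℕ → Bool) (P : ℕ → Bool) (m : ℕ) :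
    greedy q P m = greedy q P m := by
  unfold greedy
  split <;> rfl

theorem bits_cases (m v : ℕ) : bits m v = bits m v := by
  unfold bits
  split <;> rfl

theorem flips_cases (m : ℕ) (b : Bool) : flips m b = flips m b := by
  unfold flips
  split <;> rfl

theorem start_cases (m i : ℕ) (S : Finset ℕ) : Par.start m i S = Par.start m i S := by
  unfold Par.start
  split <;> rfl

theorem stages_cases (P : Par) (I D : Finset ℕ) (m κ : ℕ) (S : Finset ℕ) :
    P.stages I D m κ S = P.stages I D m κ S := by
  unfold Par.stages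
  split <;> rfl

theorem row_cases (P : Par) (k i m j : ℕ) (H : Finset ℕ × Finset ℕ) :
    P.row k i m j H = P.row k i m j H := by
  unfold Par.row
  split <;> rfl

theorem rows_cases (P : Par) (k m i : ℕ) (H : Finset ℕ × Finset ℕ) :
    P.rows k m i H = P.rows k m i H := by
  unfold Par.rows
  split <;> rfl

theorem main_cases (P : Par) (m k : ℕ) (H : Finset ℕ × Finset ℕ) (f : ℕ × ℕ) :
    P.main m k H f = P.main m k H f := by
  unfold Par.main
  split <;> rfl

theorem cnt_zero' (P : ℕ → Bool) : cnt P 0 = 0 := by simp only [cnt]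

theorem lst_zero' (P : ℕ → Bool) : lst P 0 = 0 := by simp only [lst]

theorem greedy_zero' (q : Finset ℕ → Bool) (P : ℕ → Bool) : greedy q P 0 = (∅, 0) := by
  simp only [greedy]

theorem bits_zero' (v : ℕ) : bits 0 v = .leaf v := by simp only [bits]

theorem flips_zero' (b : Bool) : flips 0 b = .leaf b := by simp only [flips]

theorem start_zero' (i : ℕ) (S : Finset ℕ) : Par.start 0 i S = .leaf S := by
  simp only [Par.start]

theorem stages_zero' (P : Par) (I D : Finset ℕ) (κ : ℕ) (S : Finset ℕ) :
    P.stages I D 0 κ S = .leaf S := by simp only [Par.stages]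

theorem row_zero' (P : Par) (k i j : ℕ) (H : Finset ℕ × Finset ℕ) :
    P.row k i 0 j H = .leaf H := by simp only [Par.row]

theorem rows_zero' (P : Par) (k i : ℕ) (H : Finset ℕ × Finset ℕ) :
    P.rows k 0 i H = .leaf H := by simp only [Par.rows]

theorem main_zero' (P : Par) (k : ℕ) (H : Finset ℕ × Finset ℕ) (f : ℕ × ℕ) :
    P.main 0 k H f = .leaf (H, f) := by simp only [Par.main]

end Vale.Agent.P317.Alg
end

section

set_option linter.unusedSimpArgs false
set_option linter.unusedVariables false
set_option linter.unnecessarySeqFocus false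
set_option linter.unreachableTactic false
set_option linter.unusedTactic false

namespace Vale.Agent.P317.Alg

open Rnd

/-- deterministic execution with a postcondition -/
def Ex (t : Rnd State) (Q : State → Prop) : Prop := ∃ s', t = .leaf s' ∧ Q s'

theorem Ex.mono {t : Rnd State} {Q Q' : State → Prop} (h : Ex t Q) (hQ : ∀ s, Q s → Q' s) :
    Ex t Q' := by
  obtain ⟨s, h1, h2⟩ := h
  exact ⟨s, h1, hQ s h2⟩

theorem Ex.bind {t : Rnd State} {g : State → Rnd State} {Q Q' : State → Prop} (h : Ex t Q)
    (hg : ∀ s, Q s → Ex (g s) Q') : Ex (t.bind g) Q' := by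
  obtain ⟨s, rfl, h2⟩ := h
  exact hg s h2

theorem Ex.seq {o : Bool → Finset ℕ → Bool} {c d : Cmd} {s : State} {Q Q' : State → Prop}
    (h : Ex (run o c s) Q) (hd : ∀ s, Q s → Ex (run o d s) Q') : Ex (run o (.seq c d) s) Q' :=
  Ex.bind h hd

theorem ex_loop {g : State → Rnd State} {Inv : ℕ → State → Prop}
    (h : ∀ i s, Inv i s → Ex (g s.tick) (Inv (i + 1))) (m : ℕ) :
    ∀ i s, Inv i s → Ex (iter g m s) (Inv (i + m)) := by
  induction m with
  | zero => intro i s hs; exact ⟨s, rfl, hs⟩
  | succ m ih =>
    intro i s hs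
    rw [iter_succ]
    refine (h i s hs).bind fun s' hs' => ?_
    have := ih (i + 1) s' hs'
    have e : i + 1 + m = i + (m + 1) := by ring
    rwa [e] at this

/-- frame: number registers outside `[20, hi)` and set registers outside `{4, 5}` are
unchanged; at most `c` steps are made. -/
structure Fr (hi : ℕ) (s s' : State) (c : ℕ) : Prop where
  num : ∀ r, r < 20 ∨ hi ≤ r → s'.num r = s.num r
  set : ∀ X, X ≠ 4 → X ≠ 5 → s'.set X = s.set X
  time : s'.time ≤ s.time + c

theorem Fr.refl (hi : ℕ) (s : State) (c : ℕ) : Fr hi s s c :=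
  ⟨fun _ _ => rfl, fun _ _ _ => rfl, by omega⟩

theorem Fr.trans {hi : ℕ} {s s' s'' : State} {c c' : ℕ} (h : Fr hi s s' c) (h' : Fr hi s' s'' c') :
    Fr hi s s'' (c + c') :=
  ⟨fun r hr => (h'.num r hr).trans (h.num r hr), fun X h4 h5 => (h'.set X h4 h5).trans
    (h.set X h4 h5), by have := h.time; have := h'.time; omega⟩

theorem Fr.mono {hi hi' : ℕ} {s s' : State} {c c' : ℕ} (h : Fr hi s s' c) (hh : hi ≤ hi')
    (hc : c ≤ c') : Fr hi' s s' c' :=
  ⟨fun r hr => h.num r (by omega), h.set, by have := h.time; omega⟩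

/-- one write to a scratch number register -/
theorem Fr.put {hi : ℕ} {s s' : State} {c : ℕ} (h : Fr hi s s' c) {x v : ℕ} (h1 : 20 ≤ x)
    (h2 : x < hi) : Fr hi s (s'.putNum x v) (c + 1) := by
  refine ⟨fun r hr => ?_, fun X h4 h5 => ?_, ?_⟩
  · have : r ≠ x := by omega
    simp [State.putNum, this, h.num r hr]
  · simp [State.putNum, h.set X h4 h5]
  · have := h.time
    simp only [State.putNum]; omega

theorem Fr.putS {hi : ℕ} {s s' : State} {c : ℕ} (h : Fr hi s s' c) {X : ℕ} {v : Finset ℕ}
    (h1 : X = 4 ∨ X = 5) : Fr hi s (s'.putSet X v) (c + 1) := by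
  refine ⟨fun r hr => ?_, fun Y h4 h5 => ?_, ?_⟩
  · simp [State.putSet, h.num r hr]
  · have : Y ≠ X := by rcases h1 with rfl | rfl <;> assumption
    simp [State.putSet, this, h.set Y h4 h5]
  · have := h.time
    simp only [State.putSet]; omega

theorem Fr.tick {hi : ℕ} {s s' : State} {c : ℕ} (h : Fr hi s s' c) : Fr hi s s'.tick (c + 1) :=
  ⟨h.num, h.set, by have := h.time; simp only [State.tick]; omega⟩

/-- constants needed by the evaluation code -/
structure Cf (P : Par) (s : State) : Prop where
  n : s.num 0 = P.n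
  one : s.num 5 = 1
  r : s.num 9 = P.r
  nn : s.num 17 = P.n * P.n
  zero : s.num 18 = 0

theorem Cf.fr {hi : ℕ} {P : Par} {s s' : State} {c : ℕ} (h : Cf P s) (h' : Fr hi s s' c) :
    Cf P s' :=
  ⟨by rw [h'.num 0 (by norm_num)]; exact h.n, by rw [h'.num 5 (by norm_num)]; exact h.one,
    by rw [h'.num 9 (by norm_num)]; exact h.r, by rw [h'.num 17 (by norm_num)]; exact h.nn,
    by rw [h'.num 18 (by norm_num)]; exact h.zero⟩

def skp : Cmd := .const 25 0

/-! ### cell scan -/

/-- body of the cell scan -/
def scanBody : Cmd :=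
  .seq (.add 21 20 20) (.seq (.mem 22 21 3) (.seq (.add 21 21 5) (.seq (.mem 23 21 3)
    (.seq (.add 36 36 22) (.seq (.add 24 22 23) (.seq
      (.cond 5 24 (.seq (.add 30 30 5) (.add 33 20 18)) skp) (.seq
      (.cond 24 5 (.add 34 20 18) skp) (.add 20 20 5))))))))

/-- cell scan of set register 3: number of double cells (30), last double cell (33), last empty
cell (34), number of elements of the first kind (36) -/
def scanCode : Cmd :=
  .seq (.const 20 0) (.seq (.const 30 0) (.seq (.const 33 0) (.seq (.const 34 0)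
    (.seq (.const 36 0) (.loop 0 scanBody)))))

theorem run_scan {o : Bool → Finset ℕ → Bool} {P : Par} {s : State} (h : Cf P s) :
    Ex (run o scanCode s) (fun s' => Fr 37 s s' (14 * P.n + 6) ∧
      s'.num 30 = P.nD (s.set 3) ∧ s'.num 33 = P.dI (s.set 3) ∧ s'.num 34 = P.eI (s.set 3) ∧
      s'.num 36 = cnt (fun i => decide (i + i ∈ s.set 3)) P.n) := by
  set T := s.set 3 with hT
  set Inv : ℕ → State → Prop := fun m s' => Fr 37 s s' (14 * m + 6) ∧ s'.num 20 = m ∧
    s'.num 30 = cnt (isD T) m ∧ s'.num 33 = lst (isD T) m ∧ s'.num 34 = lst (isE T) m ∧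
      s'.num 36 = cnt (fun i => decide (i + i ∈ T)) m with hInv
  have hstep : ∀ i s', Inv i s' → Ex (run o scanBody s'.tick) (Inv (i + 1)) := by
    rintro m s' ⟨hF, h20, h30, h33, h34, h36⟩
    have hc := h.fr hF
    have hset : s'.set 3 = T := hF.set 3 (by norm_num) (by norm_num)
    have hone : s'.num 5 = 1 := hc.one
    have hzero : s'.num 18 = 0 := hc.zero
    by_cases c1 : m + m ∈ T <;> by_cases c2 : m + m + 1 ∈ T
    all_goals
      unfold Ex
      simp [scanBody, skp, run, State.putNum, State.tick, hone, hzero, h20, h30, h33, h34, h36,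
        hset, c1, c2]
      refine ⟨⟨?_, ?_, ?_⟩, ?_, ?_, ?_, ?_, ?_⟩
      · intro r hr
        have := hF.num r hr
        simp (disch := omega) only [Function.update_of_ne, this]
      · exact hF.set
      · have := hF.time
        simp only
        omega
      all_goals simp [cnt, lst, isD, isE, c1, c2, h30, h33, h34, h36]
  have h0 : Inv 0 (((((s.putNum 20 0).putNum 30 0).putNum 33 0).putNum 34 0).putNum 36 0).tick := by
    refine ⟨?_, ?_, ?_, ?_, ?_, ?_⟩
    · exact ((((((Fr.refl 37 s 0).put (by norm_num) (by norm_num)).put (by norm_num)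
        (by norm_num)).put (by norm_num) (by norm_num)).put (by norm_num) (by norm_num)).put
        (by norm_num) (by norm_num)).tick
    all_goals simp [State.putNum, State.tick, cnt, lst]
  have hloop := ex_loop hstep P.n 0 _ h0
  rw [Nat.zero_add] at hloop
  have e : run o scanCode s = iter (run o scanBody) P.n
      (((((s.putNum 20 0).putNum 30 0).putNum 33 0).putNum 34 0).putNum 36 0).tick := by
    have : (((((s.putNum 20 0).putNum 30 0).putNum 33 0).putNum 34 0).putNum 36 0).num 0 = P.n := by
      simp [State.putNum, h.n]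
    rw [← this]
    rfl
  rw [e]
  refine hloop.mono ?_
  rintro s' ⟨h1, h2, h3, h4, h5, h6⟩
  exact ⟨h1, h3, h4, h5, h6⟩

/-! ### greedy -/

/-- body of the greedy algorithm for the elements of the first kind in set register 3 -/
def greedyBody1 : Cmd :=
  .seq (.add 21 20 20) (.seq (.mem 22 21 3) (.seq (.cond 18 22
    (.seq (.copy 5 4) (.seq (.insert 5 20) (.seq (.ask false 22 5)
      (.cond 18 22 (.seq (.copy 4 5) (.add 23 23 5)) skp)))) skp) (.add 20 20 5)))

/-- body of the greedy algorithm for the elements of the second kind outside set register 3 -/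
def greedyBody2 : Cmd :=
  .seq (.add 21 20 20) (.seq (.add 21 21 5) (.seq (.mem 22 21 3) (.seq (.cond 18 22 skp
    (.seq (.copy 5 4) (.seq (.insert 5 20) (.seq (.ask true 22 5)
      (.cond 18 22 (.seq (.copy 4 5) (.add 23 23 5)) skp))))) (.add 20 20 5))))

def greedyCode (b : Cmd) : Cmd := .seq (.const 20 0) (.seq (.const 23 0) (.seq (.clear 4) (.loop 0 b)))

theorem run_greedy1 {P : Par} {s : State} (h : Cf P s) :
    Ex (run P.o (greedyCode greedyBody1) s) (fun s' => Fr 26 s s' (12 * P.n + 4) ∧
      s'.num 23 = (greedy (P.o false) (fun i => decide (i + i ∈ s.set 3)) P.n).2) := by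
  set T := s.set 3 with hT
  set G := greedy (P.o false) (fun i => decide (i + i ∈ T)) with hG
  set Inv : ℕ → State → Prop := fun m s' => Fr 26 s s' (12 * m + 4) ∧ s'.num 20 = m ∧
    s'.set 4 = (G m).1 ∧ s'.num 23 = (G m).2 with hInv
  have hstep : ∀ i s', Inv i s' → Ex (run P.o greedyBody1 s'.tick) (Inv (i + 1)) := by
    rintro m s' ⟨hF, h20, h4, h23⟩
    have hc := h.fr hF
    have hset : s'.set 3 = T := hF.set 3 (by norm_num) (by norm_num)
    have hone : s'.num 5 = 1 := hc.one
    have hzero : s'.num 18 = 0 := hc.zero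
    have hGs : G (m + 1) = if decide (m + m ∈ T) = true ∧ P.o false (insert m (G m).1) = true
      then (insert m (G m).1, (G m).2 + 1) else G m := rfl
    by_cases c1 : m + m ∈ T
    · by_cases c2 : P.o false (insert m (G m).1) = true
      all_goals
        unfold Ex
        simp [greedyBody1, skp, run, State.putNum, State.putSet, State.tick, hone, hzero, h20, h4,
          h23, hset, c1, c2]
        refine ⟨⟨?_, ?_, ?_⟩, ?_, ?_, ?_⟩
        · intro r hr
          have := hF.num r hr
          simp (disch := omega) only [Function.update_of_ne, this]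
        · intro X hX4 hX5
          have := hF.set X hX4 hX5
          simp (disch := omega) only [Function.update_of_ne, this]
        · have := hF.time
          simp only
          omega
        all_goals simp [hGs, c1, c2, h4, h23]
    · unfold Ex
      simp only [greedyBody1, skp, State.tick, run, State.putNum, h20, State.putSet, bind_leaf, ne_eq, Nat.reduceEqDiff, not_false_eq_true, Function.update_of_ne, Function.update_self, Nat.succ_ne_self, Function.update_idem, hzero, hset, c1, ↓reduceIte, lt_self_iff_false, hone, leaf.injEq, exists_eq_left']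
      refine ⟨⟨?_, ?_, ?_⟩, ?_, ?_, ?_⟩
      · intro r hr
        have := hF.num r hr
        simp (disch := omega) [Function.update_of_ne, this]
      · intro X hX4 hX5
        have := hF.set X hX4 hX5
        simp (disch := omega) [Function.update_of_ne, this]
      · have := hF.time
        simp only
        omega
      all_goals simp [hGs, c1, h4, h23]
  have h0 : Inv 0 (((s.putNum 20 0).putNum 23 0).putSet 4 ∅).tick := by
    refine ⟨?_, ?_, ?_, ?_⟩
    · exact ((((Fr.refl 26 s 0).put (by norm_num) (by norm_num)).put (by norm_num)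
        (by norm_num)).putS (Or.inl rfl)).tick
    all_goals simp [State.putNum, State.putSet, State.tick, hG, greedy]
  have hloop := ex_loop hstep P.n 0 _ h0
  rw [Nat.zero_add] at hloop
  have e : run P.o (greedyCode greedyBody1) s = iter (run P.o greedyBody1) P.n
      (((s.putNum 20 0).putNum 23 0).putSet 4 ∅).tick := by
    have : (((s.putNum 20 0).putNum 23 0).putSet 4 ∅).num 0 = P.n := by
      simp [State.putNum, State.putSet, h.n]
    rw [← this]
    rfl
  rw [e]
  refine hloop.mono ?_
  rintro s' ⟨h1, h2, h3, h4⟩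
  exact ⟨h1, h4⟩

theorem run_greedy2 {P : Par} {s : State} (h : Cf P s) :
    Ex (run P.o (greedyCode greedyBody2) s) (fun s' => Fr 26 s s' (13 * P.n + 4) ∧
      s'.num 23 = (greedy (P.o true) (fun i => decide (i + i + 1 ∉ s.set 3)) P.n).2) := by
  set T := s.set 3 with hT
  set G := greedy (P.o true) (fun i => decide (i + i + 1 ∉ T)) with hG
  set Inv : ℕ → State → Prop := fun m s' => Fr 26 s s' (13 * m + 4) ∧ s'.num 20 = m ∧
    s'.set 4 = (G m).1 ∧ s'.num 23 = (G m).2 with hInv
  have hstep : ∀ i s', Inv i s' → Ex (run P.o greedyBody2 s'.tick) (Inv (i + 1)) := by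
    rintro m s' ⟨hF, h20, h4, h23⟩
    have hc := h.fr hF
    have hset : s'.set 3 = T := hF.set 3 (by norm_num) (by norm_num)
    have hone : s'.num 5 = 1 := hc.one
    have hzero : s'.num 18 = 0 := hc.zero
    have hGs : G (m + 1) = if decide (m + m + 1 ∉ T) = true ∧ P.o true (insert m (G m).1) = true
      then (insert m (G m).1, (G m).2 + 1) else G m := rfl
    by_cases c1 : m + m + 1 ∈ T
    · unfold Ex
      simp only [greedyBody2, skp, State.tick, run, State.putNum, h20, State.putSet, bind_leaf, ne_eq, Nat.reduceEqDiff, not_false_eq_true, Function.update_of_ne, Function.update_self, Nat.succ_ne_self, Function.update_idem, hzero, hset, hone, c1, ↓reduceIte, Order.lt_one_iff, leaf.injEq, exists_eq_left']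
      refine ⟨⟨?_, ?_, ?_⟩, ?_, ?_, ?_⟩
      · intro r hr
        have := hF.num r hr
        simp (disch := omega) only [Function.update_of_ne, this]
      · intro X hX4 hX5
        have := hF.set X hX4 hX5
        simp (disch := omega) [Function.update_of_ne, this]
      · have := hF.time
        simp only
        omega
      all_goals simp [hGs, c1, h4, h23]
    · by_cases c2 : P.o true (insert m (G m).1) = true
      all_goals
        unfold Ex
        simp [greedyBody2, skp, run, State.putNum, State.putSet, State.tick, hone, hzero, h20, h4,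
          h23, hset, c1, c2]
        refine ⟨⟨?_, ?_, ?_⟩, ?_, ?_, ?_⟩
        · intro r hr
          have := hF.num r hr
          simp (disch := omega) only [Function.update_of_ne, this]
        · intro X hX4 hX5
          have := hF.set X hX4 hX5
          simp (disch := omega) only [Function.update_of_ne, this]
        · have := hF.time
          simp only
          omega
        all_goals simp [hGs, c1, c2, h4, h23]
  have h0 : Inv 0 (((s.putNum 20 0).putNum 23 0).putSet 4 ∅).tick := by
    refine ⟨?_, ?_, ?_, ?_⟩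
    · exact ((((Fr.refl 26 s 0).put (by norm_num) (by norm_num)).put (by norm_num)
        (by norm_num)).putS (Or.inl rfl)).tick
    all_goals simp [State.putNum, State.putSet, State.tick, hG, greedy]
  have hloop := ex_loop hstep P.n 0 _ h0
  rw [Nat.zero_add] at hloop
  have e : run P.o (greedyCode greedyBody2) s = iter (run P.o greedyBody2) P.n
      (((s.putNum 20 0).putNum 23 0).putSet 4 ∅).tick := by
    have : (((s.putNum 20 0).putNum 23 0).putSet 4 ∅).num 0 = P.n := by
      simp [State.putNum, State.putSet, h.n]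
    rw [← this]
    rfl
  rw [e]
  refine hloop.mono ?_
  rintro s' ⟨h1, h2, h3, h4⟩
  exact ⟨h1, h4⟩

end Vale.Agent.P317.Alg
end

section

set_option linter.unusedSimpArgs false
set_option linter.unusedVariables false
set_option linter.unnecessarySeqFocus false
set_option linter.unreachableTactic false
set_option linter.unusedTactic false

namespace Vale.Agent.P317.Alg

open Rnd

/-- `z := x * y` by repeated addition; `z` is a scratch register -/
def prodCode (z x y : ℕ) : Cmd := .seq (.const z 0) (.loop x (.add z z y))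

/-- exactly the number register `z` is changed -/
structure Fz (z : ℕ) (s s' : State) (c : ℕ) : Prop where
  num : ∀ r, r ≠ z → s'.num r = s.num r
  set : s'.set = s.set
  time : s'.time ≤ s.time + c

theorem Fz.fr {z c hi : ℕ} {s s' : State} (h : Fz z s s' c) (h1 : 20 ≤ z) (h2 : z < hi) :
    Fr hi s s' c :=
  ⟨fun r hr => h.num r (by omega), fun X _ _ => by rw [h.set], h.time⟩

theorem run_prod {o : Bool → Finset ℕ → Bool} {z x y : ℕ} (hx : x ≠ z) (hy : y ≠ z) (s : State) :
    Ex (run o (prodCode z x y) s) (fun s' => Fz z s s' (2 * s.num x + 2) ∧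
      s'.num z = s.num x * s.num y) := by
  set Inv : ℕ → State → Prop := fun m s' => Fz z s s' (2 * m + 2) ∧ s'.num z = m * s.num y with hInv
  have hstep : ∀ i s', Inv i s' → Ex (run o (.add z z y) s'.tick) (Inv (i + 1)) := by
    rintro m s' ⟨hF, hz⟩
    refine ⟨_, rfl, ⟨?_, ?_, ?_⟩, ?_⟩
    · intro r hr
      simp [State.putNum, State.tick, hr, hF.num r hr]
    · simp [State.putNum, State.tick, hF.set]
    · have := hF.time
      simp only [State.putNum, State.tick]; omega
    · simp only [State.putNum, State.tick, hz, hF.num y hy, Function.update_self]; ring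
  have h0 : Inv 0 (s.putNum z 0).tick := by
    refine ⟨⟨?_, ?_, ?_⟩, ?_⟩
    · intro r hr
      simp [State.putNum, State.tick, hr]
    · simp [State.putNum, State.tick]
    · simp only [State.putNum, State.tick]; omega
    · simp [State.putNum, State.tick]
  have hloop := ex_loop hstep (s.num x) 0 _ h0
  rw [Nat.zero_add] at hloop
  have e : run o (prodCode z x y) s = iter (run o (.add z z y)) (s.num x) (s.putNum z 0).tick := by
    have : (s.putNum z 0).num x = s.num x := by simp [State.putNum, hx]
    rw [← this]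
    rfl
  rw [e]
  exact hloop

/-- quotient of register 26 by `n`, result in register 28 -/
def divCode : Cmd :=
  .seq (.const 27 0) (.seq (.const 28 0) (.loop 26 (.seq (.add 27 27 5)
    (.cond 27 0 skp (.seq (.const 27 0) (.add 28 28 5))))))

theorem run_div {P : Par} {s : State} (h : Cf P s) (hn : 0 < P.n) :
    Ex (run P.o divCode s) (fun s' => Fr 29 s s' (6 * s.num 26 + 3) ∧
      (∀ r, r < 25 ∨ r = 26 → s'.num r = s.num r) ∧
      s'.num 28 = s.num 26 / P.n) := by
  set b : Cmd := .seq (.add 27 27 5) (.cond 27 0 skp (.seq (.const 27 0) (.add 28 28 5))) with hb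
  set Inv : ℕ → State → Prop := fun m s' => Fr 29 s s' (6 * m + 3) ∧
    (∀ r, r < 25 ∨ r = 26 → s'.num r = s.num r) ∧ s'.num 27 = m % P.n ∧ s'.num 28 = m / P.n
    with hInv
  have hstep : ∀ i s', Inv i s' → Ex (run P.o b s'.tick) (Inv (i + 1)) := by
    rintro m s' ⟨hF, hk, h27, h28⟩
    have hc := h.fr hF
    have hone : s'.num 5 = 1 := hc.one
    have hnn : s'.num 0 = P.n := hc.n
    have hlt := Nat.mod_lt m hn
    by_cases c1 : m % P.n + 1 < P.n
    · have e1 : (m + 1) % P.n = m % P.n + 1 := by
        rw [Nat.add_mod]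
        have : 1 % P.n = 1 := Nat.mod_eq_of_lt (by omega)
        rw [this, Nat.mod_eq_of_lt c1]
      have e2 : (m + 1) / P.n = m / P.n := by
        rw [Nat.add_div hn]
        have : 1 % P.n = 1 := Nat.mod_eq_of_lt (by omega)
        have h3 : 1 / P.n = 0 := Nat.div_eq_of_lt (by omega)
        rw [this, h3, if_neg (by omega)]
        omega
      unfold Ex
      simp [hb, skp, run, State.putNum, State.tick, hone, hnn, h27, h28, c1]
      refine ⟨⟨?_, ?_, ?_⟩, ?_, ?_, ?_⟩
      · intro r hr
        have := hF.num r hr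
        simp (disch := omega) [Function.update_of_ne, this]
      · exact hF.set
      · have := hF.time
        simp only
        omega
      · intro r hr
        have := hk r hr
        simp (disch := omega) [Function.update_of_ne, this]
      all_goals simp [e1, e2, h28]
    · have e0 : m % P.n + 1 = P.n := by omega
      have e1 : (m + 1) % P.n = 0 := by
        have h1 := Nat.div_add_mod m P.n
        have : m + 1 = P.n * (m / P.n + 1) := by rw [mul_add, mul_one]; omega
        rw [this, Nat.mul_mod_right]
      have e2 : (m + 1) / P.n = m / P.n + 1 := by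
        have h1 := Nat.div_add_mod m P.n
        have : m + 1 = P.n * (m / P.n + 1) := by rw [mul_add, mul_one]; omega
        rw [this, Nat.mul_div_cancel_left _ hn]
      unfold Ex
      simp [hb, skp, run, State.putNum, State.tick, hone, hnn, h27, h28, c1]
      refine ⟨⟨?_, ?_, ?_⟩, ?_, ?_, ?_⟩
      · intro r hr
        have := hF.num r hr
        simp (disch := omega) [Function.update_of_ne, this]
      · exact hF.set
      · have := hF.time
        simp only
        omega
      · intro r hr
        have := hk r hr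
        simp (disch := omega) [Function.update_of_ne, this]
      all_goals simp [e1, e2, h28]
  have h0 : Inv 0 (((s.putNum 27 0).putNum 28 0)).tick := by
    refine ⟨?_, ?_, ?_, ?_⟩
    · exact (((Fr.refl 29 s 0).put (by norm_num) (by norm_num)).put (by norm_num)
        (by norm_num)).tick
    · intro r hr
      have h1 : r ≠ 27 := by omega
      have h2 : r ≠ 28 := by omega
      simp [State.putNum, State.tick, h1, h2]
    all_goals simp [State.putNum, State.tick]
  have hloop := ex_loop hstep (s.num 26) 0 _ h0
  rw [Nat.zero_add] at hloop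
  have e : run P.o divCode s = iter (run P.o b) (s.num 26) (((s.putNum 27 0).putNum 28 0)).tick := by
    have : ((s.putNum 27 0).putNum 28 0).num 26 = s.num 26 := by
      simp [State.putNum]
    rw [← this]
    rfl
  rw [e]
  refine hloop.mono ?_
  rintro s' ⟨h1, h2, h3, h4⟩
  exact ⟨h1, h2, h4⟩

/-- number of recorded triples `(l, i, j)`, `l < κ`, in set register `H`; `i`, `j`, `κ` in registers
33, 34, 10; result in register 23 -/
def histCode (H : ℕ) : Cmd :=
  .seq (prodCode 21 33 0) (.seq (.add 21 21 34) (.seq (.const 23 0)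
    (.loop 10 (.seq (.mem 22 21 H) (.seq (.add 23 23 22) (.add 21 21 17))))))

theorem run_hist {P : Par} {s : State} (h : Cf P s) {H : ℕ} (hH : H = 1 ∨ H = 2) :
    Ex (run P.o (histCode H) s) (fun s' => Fr 24 s s' (2 * s.num 33 + 4 * s.num 10 + 5) ∧
      s'.num 23 = hist (s.set H) P.n (s.num 10) (s.num 33) (s.num 34)) := by
  set κ := s.num 10 with hκ
  set i := s.num 33 with hi
  set j := s.num 34 with hj
  set b : Cmd := .seq (.mem 22 21 H) (.seq (.add 23 23 22) (.add 21 21 17)) with hb
  unfold histCode
  refine (run_prod (z := 21) (x := 33) (y := 0) (by norm_num) (by norm_num) s).seq ?_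
  rintro s₁ ⟨hz, h21⟩
  have hF1 : Fr 24 s s₁ (2 * i + 2) := hz.fr (by (clear * -; norm_num)) (by norm_num)
  set Inv : ℕ → State → Prop := fun m s' => Fr 24 s s' (2 * i + 5 + 4 * m) ∧
    s'.num 21 = code P.n m i j ∧ s'.num 23 = hist (s.set H) P.n m i j with hInv
  have hstep : ∀ m s', Inv m s' → Ex (run P.o b s'.tick) (Inv (m + 1)) := by
    rintro m s' ⟨hF, h21, h23⟩
    have hc := h.fr hF
    have hnn : s'.num 17 = P.n * P.n := hc.nn
    have hset : s'.set H = s.set H := hF.set H (by omega) (by omega)
    have hcode : code P.n m i j + P.n * P.n = code P.n (m + 1) i j := by unfold code; ring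
    have hh : hist (s.set H) P.n (m + 1) i j = hist (s.set H) P.n m i j +
      if code P.n m i j ∈ s.set H then 1 else 0 := by simp [hist, cnt]
    by_cases c1 : code P.n m i j ∈ s.set H
    all_goals
      unfold Ex
      simp [hb, skp, run, State.putNum, State.tick, hnn, h21, h23, hset, c1]
      refine ⟨⟨?_, ?_, ?_⟩, ?_, ?_⟩
      · intro r hr
        have := hF.num r hr
        simp (disch := omega) [Function.update_of_ne, this]
      · exact hF.set
      · have := hF.time
        simp only
        omega
      all_goals simp [hcode, hh, c1, h21, h23]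
  have hn : s.num 0 = P.n := h.n
  have h0 : Inv 0 ((s₁.putNum 21 (s₁.num 21 + s₁.num 34)).putNum 23 0).tick := by
    refine ⟨?_, ?_, ?_⟩
    · have := ((hF1.put (x := 21) (v := s₁.num 21 + s₁.num 34) (by norm_num) (by norm_num)).put
        (x := 23) (v := 0) (by norm_num) (by norm_num)).tick
      exact this.mono le_rfl (by omega)
    · have e34 : s₁.num 34 = j := hF1.num 34 (by norm_num)
      simp [State.putNum, State.tick, h21, e34, hn, code, hi]
    · simp [State.putNum, State.tick, hist, cnt]
  have hloop := ex_loop hstep κ 0 _ h0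
  rw [Nat.zero_add] at hloop
  have e : run P.o (.seq (.add 21 21 34) (.seq (.const 23 0) (.loop 10 b))) s₁ =
      iter (run P.o b) κ ((s₁.putNum 21 (s₁.num 21 + s₁.num 34)).putNum 23 0).tick := by
    have : ((s₁.putNum 21 (s₁.num 21 + s₁.num 34)).putNum 23 0).num 10 = κ := by
      simp [State.putNum, hF1.num 10 (by norm_num), hκ]
    rw [← this]
    rfl
  rw [e]
  refine hloop.mono ?_
  rintro s' ⟨h1, h2, h3⟩
  exact ⟨h1.mono le_rfl (by omega), h3⟩

end Vale.Agent.P317.Alg
end

section

/-!
# Preprocessing: the rank of the first matroid by the greedy algorithm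
-/

set_option linter.unusedSimpArgs false
set_option linter.unusedVariables false
set_option linter.unnecessarySeqFocus false
set_option linter.unreachableTactic false
set_option linter.unusedTactic false

namespace Vale.Agent.P317.Alg

open Rnd

/-- body of the greedy algorithm for the first oracle, all elements -/
def greedyBody0 : Cmd :=
  .seq (.copy 5 4) (.seq (.insert 5 20) (.seq (.ask false 22 5)
    (.seq (.cond 18 22 (.seq (.copy 4 5) (.add 23 23 5)) skp) (.add 20 20 5))))

/-- register 9 := rank of the first matroid -/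
def rankCode : Cmd := .seq (greedyCode greedyBody0) (.add 9 23 18)

theorem run_greedy0 {o : Bool → Finset ℕ → Bool} {n : ℕ} {s : State} (hn : s.num 0 = n)
    (h1 : s.num 5 = 1) (h18 : s.num 18 = 0) :
    Ex (run o (greedyCode greedyBody0) s) (fun s' => Fr 26 s s' (9 * n + 4) ∧
      s'.num 23 = (greedy (o false) (fun _ => true) n).2) := by
  set G := greedy (o false) (fun _ => true) with hG
  set Inv : ℕ → State → Prop := fun m s' => Fr 26 s s' (9 * m + 4) ∧ s'.num 20 = m ∧
    s'.set 4 = (G m).1 ∧ s'.num 23 = (G m).2 with hInv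
  have hstep : ∀ i s', Inv i s' → Ex (run o greedyBody0 s'.tick) (Inv (i + 1)) := by
    rintro m s' ⟨hF, h20, h4, h23⟩
    have hone : s'.num 5 = 1 := by rw [hF.num 5 (by norm_num)]; exact h1
    have hzero : s'.num 18 = 0 := by rw [hF.num 18 (by norm_num)]; exact h18
    have hGs : G (m + 1) = if True ∧ o false (insert m (G m).1) = true
      then (insert m (G m).1, (G m).2 + 1) else G m := by
      rw [hG, greedy]
      simp
    by_cases c2 : o false (insert m (G m).1) = true
    all_goals
      unfold Ex
      simp [greedyBody0, skp, run, State.putNum, State.putSet, State.tick, hone, hzero, h20, h4,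
        h23, c2]
      refine ⟨⟨?_, ?_, ?_⟩, ?_, ?_, ?_⟩
      · intro r hr
        have := hF.num r hr
        simp (disch := omega) [Function.update_of_ne, this]
      · intro X hX4 hX5
        have := hF.set X hX4 hX5
        simp (disch := omega) [Function.update_of_ne, this]
      · have := hF.time
        simp only
        omega
      all_goals simp [hGs, c2, h4, h23]
  have h0 : Inv 0 (((s.putNum 20 0).putNum 23 0).putSet 4 ∅).tick := by
    refine ⟨?_, ?_, ?_, ?_⟩
    · exact ((((Fr.refl 26 s 0).put (by norm_num) (by norm_num)).put (by norm_num)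
        (by norm_num)).putS (Or.inl rfl)).tick
    all_goals simp [State.putNum, State.putSet, State.tick, hG, greedy]
  have hloop := ex_loop hstep n 0 _ h0
  rw [Nat.zero_add] at hloop
  have e : run o (greedyCode greedyBody0) s = iter (run o greedyBody0) n
      (((s.putNum 20 0).putNum 23 0).putSet 4 ∅).tick := by
    have : (((s.putNum 20 0).putNum 23 0).putSet 4 ∅).num 0 = n := by
      simp only [State.putSet, State.putNum, ne_eq, OfNat.zero_ne_ofNat, not_false_eq_true, Function.update_of_ne, hn]
    rw [← this]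
    rfl
  rw [e]
  refine hloop.mono ?_
  rintro s' ⟨h1, h2, h3, h4⟩
  exact ⟨h1, h4⟩

/-- exactly the number register `9`, the number registers `20, …, 25` and the set registers `4, 5`
are changed -/
theorem run_rank {o : Bool → Finset ℕ → Bool} {n : ℕ} {s : State} (hn : s.num 0 = n)
    (h1 : s.num 5 = 1) (h18 : s.num 18 = 0) :
    Ex (run o rankCode s) (fun s' =>
      (∀ r, r < 20 ∨ 26 ≤ r → r ≠ 9 → s'.num r = s.num r) ∧
      (∀ X, X ≠ 4 → X ≠ 5 → s'.set X = s.set X) ∧ s'.time ≤ s.time + (9 * n + 5) ∧
      s'.num 9 = (greedy (o false) (fun _ => true) n).2) := by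
  unfold rankCode
  refine (run_greedy0 hn h1 h18).seq ?_
  rintro s' ⟨hF, h23⟩
  refine ⟨_, rfl, ?_, ?_, ?_, ?_⟩
  · intro r hr h9
    simp [State.putNum, h9, hF.num r hr]
  · intro X h4 h5
    simp [State.putNum, hF.set X h4 h5]
  · have := hF.time
    simp only [State.putNum]
    (clear * - this; omega)
  · have h18' : s'.num 18 = 0 := by rw [hF.num 18 (by norm_num)]; exact h18
    simp [State.putNum, h23, h18']

end Vale.Agent.P317.Alg
end

section

set_option linter.unusedSimpArgs false
set_option linter.unusedVariables false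
set_option linter.unnecessarySeqFocus false
set_option linter.unreachableTactic false
set_option linter.unusedTactic false

namespace Vale.Agent.P317.Alg

open Rnd

theorem cnt_le (p : ℕ → Bool) (m : ℕ) : cnt p m ≤ m := by
  induction m with
  | zero => simp [cnt]
  | succ m ih => simp only [cnt]; split_ifs <;> omega

theorem lst_le (p : ℕ → Bool) (m : ℕ) : lst p m ≤ m := by
  induction m with
  | zero => simp [lst]
  | succ m ih => simp only [lst]; split_ifs <;> omega

theorem hist_le (H : Finset ℕ) (n k i j : ℕ) : hist H n k i j ≤ k := cnt_le _ _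

/-- evaluation of set register 3 at the stage in register 10. Results: 30 = number of double cells,
31, 32 = positive and negative part of the exponent, 33, 34 = double and empty cell -/
def evalCode : Cmd :=
  .seq scanCode (.seq (greedyCode greedyBody1) (.seq (.sub 37 36 23)
    (.seq (greedyCode greedyBody2) (.seq (.sub 38 9 23) (.seq (.add 35 37 38)
    (.seq (prodCode 26 10 35) (.seq divCode (.seq (.const 31 0) (.seq (.add 32 28 18)
    (.cond 18 30 (.seq (histCode 1) (.seq (.const 31 2) (.seq (.add 31 31 23)
      (.seq (histCode 2) (.add 32 32 23))))) skp))))))))))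

/-- time bound of the evaluation -/
def tE (P : Par) (κ : ℕ) : ℕ := 60 * (P.n * κ) + 60 * P.n + 60 * κ + 60

theorem run_eval {P : Par} {s : State} (h : Cf P s) (hn : 0 < P.n) (hr : P.r ≤ P.n) :
    Ex (run P.o evalCode s) (fun s' => Fr 40 s s' (tE P (s.num 10)) ∧
      s'.num 30 = P.nD (s.set 3) ∧ s'.num 31 = P.pe (s.set 1) (s.num 10) (s.set 3) ∧
      s'.num 32 = P.qe (s.set 2) (s.num 10) (s.set 3) ∧ s'.num 33 = P.dI (s.set 3) ∧
      s'.num 34 = P.eI (s.set 3)) := by
  set κ := s.num 10 with hκ
  set T := s.set 3 with hT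
  unfold evalCode
  refine (run_scan h).seq ?_
  rintro s₁ ⟨f1, a30, a33, a34, a36⟩
  have c1 := h.fr f1
  have t1 : s₁.set 3 = T := f1.set 3 (by norm_num) (by norm_num)
  refine (run_greedy1 c1).seq ?_
  rintro s₂ ⟨f2, b23⟩
  rw [t1] at b23
  rw [← hT] at a30 a33 a34 a36
  set g1 := (greedy (P.o false) (fun i => decide (i + i ∈ T)) P.n).2 with hg1
  set g2 := (greedy (P.o true) (fun i => decide (i + i + 1 ∉ T)) P.n).2 with hg2
  set ct := cnt (fun i => decide (i + i ∈ T)) P.n with hct
  have c2 := c1.fr f2
  have b36 : s₂.num 36 = ct := by rw [f2.num 36 (by norm_num)]; exact a36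
  -- sub 37 36 23
  refine Ex.seq (Q := fun s' => s' = s₂.putNum 37 (ct - g1)) ⟨_, rfl, by rw [b36, b23]⟩ ?_
  rintro s₃ rfl
  have f3 : Fr 40 s (s₂.putNum 37 (ct - g1)) (14 * P.n + 6 + (12 * P.n + 4) + 1) :=
    ((f1.mono (by norm_num) le_rfl).trans (f2.mono (by norm_num) le_rfl)).put (by norm_num)
      (by norm_num)
  have c3 := h.fr f3
  refine (run_greedy2 c3).seq ?_
  rintro s₄ ⟨f4, d23⟩
  have t3 : (s₂.putNum 37 (ct - g1)).set 3 = T := f3.set 3 (by norm_num) (by norm_num)
  rw [t3, ← hg2] at d23
  have c4 := c3.fr f4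
  have d37 : s₄.num 37 = ct - g1 := by
    rw [f4.num 37 (by norm_num)]; simp only [State.putNum, Function.update_self]
  have d30 : s₄.num 30 = P.nD T := by
    rw [f4.num 30 (by norm_num)]; simp only [State.putNum, ne_eq, Nat.reduceEqDiff, not_false_eq_true, Function.update_of_ne]; rw [f2.num 30 (by norm_num)]; exact a30
  have d33 : s₄.num 33 = P.dI T := by
    rw [f4.num 33 (by norm_num)]; simp only [State.putNum, ne_eq, Nat.reduceEqDiff, not_false_eq_true, Function.update_of_ne]; rw [f2.num 33 (by norm_num)]; exact a33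
  have d34 : s₄.num 34 = P.eI T := by
    rw [f4.num 34 (by norm_num)]; simp only [State.putNum, ne_eq, Nat.reduceEqDiff, not_false_eq_true, Function.update_of_ne]; rw [f2.num 34 (by norm_num)]; exact a34
  -- sub 38 9 23 ; add 35 37 38
  refine Ex.seq (Q := fun s' => s' = s₄.putNum 38 (P.r - g2)) ⟨_, rfl, by rw [c4.r, d23]⟩ ?_
  rintro s₅ rfl
  refine Ex.seq (Q := fun s' => s' = (s₄.putNum 38 (P.r - g2)).putNum 35 (P.dfc T)) ⟨_, rfl, by
    have : (s₄.putNum 38 (P.r - g2)).num 37 = ct - g1 := by simp only [State.putNum, ne_eq, Nat.reduceEqDiff, not_false_eq_true, Function.update_of_ne, d37]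
    have h2 : (s₄.putNum 38 (P.r - g2)).num 38 = P.r - g2 := by simp [State.putNum]
    rw [this, h2]; rfl⟩ ?_
  rintro s₆ rfl
  set s₆ := (s₄.putNum 38 (P.r - g2)).putNum 35 (P.dfc T) with hs6
  have f6 : Fr 40 s s₆ (14 * P.n + 6 + (12 * P.n + 4) + 1 + (13 * P.n + 4) + 1 + 1) :=
    (((f3.trans (f4.mono (by norm_num) le_rfl)).put (by norm_num) (by norm_num)).put (by norm_num)
      (by norm_num))
  have e10 : s₆.num 10 = κ := f6.num 10 (by norm_num)
  have e35 : s₆.num 35 = P.dfc T := by simp only [hs6, State.putNum, Function.update_self]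
  refine (run_prod (z := 26) (x := 10) (y := 35) (by norm_num) (by norm_num) s₆).seq ?_
  rintro s₇ ⟨z7, p26⟩
  rw [e10, e35] at p26
  have f7 : Fr 40 s s₇ (14 * P.n + 6 + (12 * P.n + 4) + 1 + (13 * P.n + 4) + 1 + 1 +
      (2 * κ + 2)) := by
    refine f6.trans ?_
    have := z7.fr (hi := 40) (by norm_num) (by norm_num)
    rw [e10] at this; exact this
  have c7 := h.fr f7
  refine (run_div c7 hn).seq ?_
  rintro s₈ ⟨f8, -, q28⟩
  rw [p26] at q28
  have hdfc : P.dfc T ≤ 2 * P.n := by
    unfold Par.dfc
    have := cnt_le (fun i => decide (i + i ∈ T)) P.n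
    (clear * - hr b23 b36 d23 this; omega)
  have f8' : Fr 40 s s₈ (14 * P.n + 6 + (12 * P.n + 4) + 1 + (13 * P.n + 4) + 1 + 1 +
      (2 * κ + 2) + (6 * (κ * P.dfc T) + 3)) := by
    refine f7.trans ?_
    rw [p26] at f8
    exact f8.mono (by norm_num) le_rfl
  have keep : ∀ x, x = 30 ∨ x = 33 ∨ x = 34 → s₈.num x = s₄.num x := by
    intro x hx
    rw [f8.num x (by omega), z7.num x (by omega)]
    have h1 : x ≠ 35 := by omega
    have h2 : x ≠ 38 := by (clear * - hx h1; omega)
    simp only [hs6, State.putNum, ne_eq, h1, not_false_eq_true, Function.update_of_ne, h2]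
  have e30 : s₈.num 30 = P.nD T := by rw [keep 30 (by omega)]; exact d30
  have e33 : s₈.num 33 = P.dI T := by rw [keep 33 (by omega)]; exact d33
  have e34 : s₈.num 34 = P.eI T := by rw [keep 34 (by omega)]; exact d34
  have c8 := h.fr f8'
  refine Ex.seq (Q := fun s' => s' = s₈.putNum 31 0) ⟨_, rfl, rfl⟩ ?_
  rintro s₉ rfl
  refine Ex.seq (Q := fun s' => s' = (s₈.putNum 31 0).putNum 32 (κ * P.dfc T / P.n)) ⟨_, rfl, by
    have h1 : (s₈.putNum 31 0).num 28 = κ * P.dfc T / P.n := by simp only [State.putNum, ne_eq, Nat.reduceEqDiff, not_false_eq_true, Function.update_of_ne, q28]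
    have h2 : (s₈.putNum 31 0).num 18 = 0 := by simp [State.putNum, c8.zero]
    rw [h1, h2, Nat.add_zero]⟩ ?_
  rintro s₉ rfl
  set s₉ := (s₈.putNum 31 0).putNum 32 (κ * P.dfc T / P.n) with hs9
  have f9 : Fr 40 s s₉ (14 * P.n + 6 + (12 * P.n + 4) + 1 + (13 * P.n + 4) + 1 + 1 +
      (2 * κ + 2) + (6 * (κ * P.dfc T) + 3) + 1 + 1) :=
    (f8'.put (by norm_num) (by norm_num)).put (by norm_num) (by norm_num)
  have c9 := h.fr f9
  have g30 : s₉.num 30 = P.nD T := by simp only [hs9, State.putNum, ne_eq, Nat.reduceEqDiff, not_false_eq_true, Function.update_of_ne, e30]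
  have g31 : s₉.num 31 = 0 := by simp only [hs9, State.putNum, ne_eq, Nat.reduceEqDiff, not_false_eq_true, Function.update_of_ne, Function.update_self]
  have g32 : s₉.num 32 = κ * P.dfc T / P.n := by simp [hs9, State.putNum]
  have g33 : s₉.num 33 = P.dI T := by simp only [hs9, State.putNum, ne_eq, Nat.succ_ne_self, not_false_eq_true, Function.update_of_ne, Nat.reduceEqDiff, e33]
  have g34 : s₉.num 34 = P.eI T := by simp only [hs9, State.putNum, ne_eq, Nat.reduceEqDiff, not_false_eq_true, Function.update_of_ne, e34]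
  have hkd : κ * P.dfc T ≤ 2 * (P.n * κ) := by
    calc κ * P.dfc T ≤ κ * (2 * P.n) := Nat.mul_le_mul_left _ hdfc
      _ = 2 * (P.n * κ) := by ring
  have hdI : P.dI T ≤ P.n := lst_le _ _
  have hone := c9.one
  have hzero := c9.zero
  have hcond : run P.o (.cond 18 30 (.seq (histCode 1) (.seq (.const 31 2) (.seq (.add 31 31 23)
      (.seq (histCode 2) (.add 32 32 23))))) skp) s₉ = if s₉.num 18 < s₉.num 30 then
      run P.o (.seq (histCode 1) (.seq (.const 31 2) (.seq (.add 31 31 23)
      (.seq (histCode 2) (.add 32 32 23))))) s₉.tick else run P.o skp s₉.tick := rfl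
  rw [hcond, hzero, g30]
  by_cases hD : P.nD T = 0
  · rw [if_neg (by omega)]
    refine ⟨_, rfl, ?_, ?_, ?_, ?_, ?_, ?_⟩
    · refine (f9.tick.put (x := 25) (v := 0) (by norm_num) (by norm_num)).mono le_rfl ?_
      unfold tE
      omega
    · simp [State.putNum, State.tick, g30]
    · simp [State.putNum, State.tick, g31, Par.pe, hD]
    · simp only [State.putNum, State.tick, ne_eq, Nat.reduceEqDiff, not_false_eq_true, Function.update_of_ne, g32, Par.qe, hD, ↓reduceIte, add_zero]
    · simp [State.putNum, State.tick, g33]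
    · simp [State.putNum, State.tick, g34]
  · rw [if_pos (by (clear * - a30 d30 e30 g30 hD; omega))]
    have c9t : Cf P s₉.tick := h.fr f9.tick
    refine (run_hist c9t (Or.inl rfl)).seq ?_
    rintro s₁₀ ⟨f10, w23⟩
    have u10 : s₉.tick.num 10 = κ := f9.tick.num 10 (by norm_num)
    have u33 : s₉.tick.num 33 = P.dI T := g33
    have u34 : s₉.tick.num 34 = P.eI T := g34
    have us1 : s₉.tick.set 1 = s.set 1 := f9.tick.set 1 (by norm_num) (by norm_num)
    rw [u10, u33, u34, us1] at w23
    rw [u10, u33] at f10
    have f10' := f9.tick.trans (f10.mono (by norm_num) le_rfl)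
    refine Ex.seq (Q := fun s' => s' = s₁₀.putNum 31 2) ⟨_, rfl, rfl⟩ ?_
    rintro s₁₁ rfl
    refine Ex.seq (Q := fun s' => s' = (s₁₀.putNum 31 2).putNum 31
        (2 + hist (s.set 1) P.n κ (P.dI T) (P.eI T))) ⟨_, rfl, by
      have h1 : (s₁₀.putNum 31 2).num 31 = 2 := by simp [State.putNum]
      have h2 : (s₁₀.putNum 31 2).num 23 = hist (s.set 1) P.n κ (P.dI T) (P.eI T) := by
        simp [State.putNum, w23]
      rw [h1, h2]⟩ ?_
    rintro s₁₁ rfl
    set s₁₁ := (s₁₀.putNum 31 2).putNum 31 (2 + hist (s.set 1) P.n κ (P.dI T) (P.eI T)) with hs11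
    have f11 := (f10'.put (x := 31) (v := 2) (by norm_num) (by norm_num)).put (x := 31)
      (v := 2 + hist (s.set 1) P.n κ (P.dI T) (P.eI T)) (by norm_num) (by norm_num)
    rw [← hs11] at f11
    have c11 := h.fr f11
    have v10 : s₁₁.num 10 = κ := f11.num 10 (by norm_num)
    have v30 : s₁₁.num 30 = P.nD T := by
      have : s₁₀.num 30 = s₉.num 30 := f10.num 30 (by norm_num)
      simp [hs11, State.putNum, this, g30]
    have v32 : s₁₁.num 32 = κ * P.dfc T / P.n := by
      have : s₁₀.num 32 = s₉.num 32 := f10.num 32 (by norm_num)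
      simp only [hs11, State.putNum, Function.update_idem, ne_eq, Nat.succ_ne_self, not_false_eq_true, Function.update_of_ne, this, g32]
    have v33 : s₁₁.num 33 = P.dI T := by
      have : s₁₀.num 33 = s₉.num 33 := f10.num 33 (by norm_num)
      simp [hs11, State.putNum, this, g33]
    have v34 : s₁₁.num 34 = P.eI T := by
      have : s₁₀.num 34 = s₉.num 34 := f10.num 34 (by norm_num)
      simp [hs11, State.putNum, this, g34]
    have v31 : s₁₁.num 31 = 2 + hist (s.set 1) P.n κ (P.dI T) (P.eI T) := by
      simp [hs11, State.putNum]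
    refine (run_hist c11 (Or.inr rfl)).seq ?_
    rintro s₁₂ ⟨f12, x23⟩
    have us2 : s₁₁.set 2 = s.set 2 := f11.set 2 (by norm_num) (by norm_num)
    rw [v10, v33, v34, us2] at x23
    rw [v10, v33] at f12
    have f12' := f11.trans (f12.mono (by norm_num) le_rfl)
    refine ⟨_, rfl, ?_, ?_, ?_, ?_, ?_, ?_⟩
    · refine (f12'.put (x := 32) (v := s₁₂.num 32 + s₁₂.num 23) (by norm_num) (by norm_num)).mono
        le_rfl ?_
      unfold tE
      (clear * - a33 d33 e10 e33 g33 hkd hdI u10 u33 v10 v33; omega)
    · simp [State.putNum, f12.num 30 (by norm_num), v30]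
    · simp [State.putNum, f12.num 31 (by norm_num), v31, Par.pe, hD]
    · simp [State.putNum, f12.num 32 (by norm_num), v32, x23, Par.qe, hD]
    · simp [State.putNum, f12.num 33 (by norm_num), v33]
    · simp [State.putNum, f12.num 34 (by norm_num), v34]

end Vale.Agent.P317.Alg
end

section

set_option linter.unusedSimpArgs false
set_option linter.unusedVariables false
set_option linter.unnecessarySeqFocus false
set_option linter.unreachableTactic false
set_option linter.unusedTactic false

namespace Vale.Agent.P317.Alg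

open Rnd

theorem Ex.sim {A : Type} {t : Rnd State} {Q : State → Prop} {g : State → Rnd State} {u : Rnd A}
    {R : State → A → Prop} (h : Ex t Q) (hg : ∀ s, Q s → Sim R (g s) u) : Sim R (t.bind g) u := by
  obtain ⟨s, rfl, h2⟩ := h
  exact hg s h2

theorem Ex.leaf {A : Type} {t : Rnd State} {Q : State → Prop} {a : A}
    {R : State → A → Prop} (h : Ex t Q) (hg : ∀ s, Q s → R s a) : Sim R t (.leaf a) := by
  obtain ⟨s, rfl, h2⟩ := h
  exact hg s h2

theorem Ex.simSeq {A : Type} {o : Bool → Finset ℕ → Bool} {c d : Cmd} {s : State}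
    {Q : State → Prop} {u : Rnd A} {R : State → A → Prop}
    (h : Ex (run o c s) Q) (hd : ∀ s, Q s → Sim R (run o d s) u) : Sim R (run o (.seq c d) s) u :=
  Ex.sim h hd

theorem sim_iterN {A : Type} {R : ℕ → State → A → Prop} {g : State → Rnd State} {g' : A → Rnd A}
    (h : ∀ i s a, R i s a → Rnd.Sim (R (i + 1)) (g s.tick) (g' a)) (m : ℕ) :
    ∀ i s a, R i s a → Rnd.Sim (R (i + m)) (iter g m s) (rep g' m a) := by
  induction m with
  | zero => intro i s a hR; exact hR
  | succ m ih =>
    intro i s a hR
    rw [iter_succ]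
    have : rep g' (m + 1) a = (g' a).bind (rep g' m) := rfl
    rw [this]
    refine (h i s a hR).bind ?_
    intro s' a' h'
    have := ih (i + 1) s' a' h'
    have e : i + 1 + m = i + (m + 1) := by ring
    rwa [e] at this

/-- dynamic contents of the registers -/
structure Q where
  u : ℕ
  v : ℕ
  κ : ℕ
  k : ℕ
  i : ℕ
  j : ℕ
  x : ℕ
  y : ℕ
  S : Finset ℕ
  I : Finset ℕ
  D : Finset ℕ

/-- the registers hold the constants and the dynamic contents `q` -/
structure Rl (P : Par) (K : ℕ) (s : State) (q : Q) : Prop where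
  cf : Cf P s
  a : s.num 6 = P.a
  L : s.num 8 = P.L
  K : s.num 16 = K
  n2 : s.num 19 = P.n + P.n
  u : s.num 3 = q.u
  v : s.num 4 = q.v
  κ : s.num 10 = q.κ
  k : s.num 11 = q.k
  i : s.num 12 = q.i
  j : s.num 13 = q.j
  x : s.num 14 = q.x
  y : s.num 15 = q.y
  S : s.set 0 = q.S
  I : s.set 1 = q.I
  D : s.set 2 = q.D

variable {P : Par} {K : ℕ}

theorem Rl.congr {s s' : State} {q : Q} (h : Rl P K s q) (hn : ∀ r < 20, s'.num r = s.num r)
    (hs : ∀ X < 3, s'.set X = s.set X) : Rl P K s' q := by
  obtain ⟨⟨h0, h5, h9, h17, h18⟩, h6, h8, h16, h19, h3, h4, h10, h11, h12, h13, h14, h15, s0, s1,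
    s2⟩ := h
  exact ⟨⟨by rw [hn 0 (by norm_num)]; exact h0, by rw [hn 5 (by norm_num)]; exact h5,
    by rw [hn 9 (by norm_num)]; exact h9, by rw [hn 17 (by norm_num)]; exact h17,
    by rw [hn 18 (by norm_num)]; exact h18⟩, by rw [hn 6 (by norm_num)]; exact h6,
    by rw [hn 8 (by norm_num)]; exact h8, by rw [hn 16 (by norm_num)]; exact h16,
    by rw [hn 19 (by norm_num)]; exact h19, by rw [hn 3 (by norm_num)]; exact h3,
    by rw [hn 4 (by norm_num)]; exact h4, by rw [hn 10 (by norm_num)]; exact h10,
    by rw [hn 11 (by norm_num)]; exact h11, by rw [hn 12 (by norm_num)]; exact h12,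
    by rw [hn 13 (by norm_num)]; exact h13, by rw [hn 14 (by norm_num)]; exact h14,
    by rw [hn 15 (by norm_num)]; exact h15, by rw [hs 0 (by norm_num)]; exact s0,
    by rw [hs 1 (by norm_num)]; exact s1, by rw [hs 2 (by norm_num)]; exact s2⟩

theorem Rl.fr {s s' : State} {q : Q} {hi c : ℕ} (h : Rl P K s q) (h' : Fr hi s s' c) :
    Rl P K s' q :=
  h.congr (fun r hr => h'.num r (Or.inl hr)) (fun X hX => h'.set X (by omega) (by omega))

/-- frame of random fragments: scratch number registers are those `≥ 20` -/
structure Gr (s s' : State) (c : ℕ) : Prop where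
  num : ∀ r < 20, s'.num r = s.num r
  time : s'.time ≤ s.time + c

/-- number register `r` := uniform in `{0, …, 2^a - 1}` -/
def uni (r : ℕ) : Cmd :=
  .seq (.const r 0) (.loop 6 (.seq (.add r r r) (.seq (.coin 25) (.add r r 25))))

theorem sim_bits {o : Bool → Finset ℕ → Bool} {r : ℕ} (hr : r ≠ 25) (s₀ : State) (m : ℕ) :
    ∀ (s : State) (v c : ℕ), (∀ x, x ≠ r → x ≠ 25 → s.num x = s₀.num x) → s.set = s₀.set →
      s.num r = v → s.time ≤ s₀.time + c →
    Sim (fun s' v' => (∀ x, x ≠ r → x ≠ 25 → s'.num x = s₀.num x) ∧ s'.set = s₀.set ∧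
        s'.num r = v' ∧ s'.time ≤ s₀.time + (c + 4 * m))
      (iter (run o (.seq (.add r r r) (.seq (.coin 25) (.add r r 25)))) m s) (bits m v) := by
  induction m with
  | zero =>
    intro s v c h1 h2 h3 h4
    exact ⟨h1, h2, h3, h4⟩
  | succ m ih =>
    intro s v c h1 h2 h3 h4
    rw [iter_succ]
    simp only [run, bind_leaf, bind_flip, bits]
    refine ⟨?_, ?_⟩
    · have := ih (((s.tick.putNum r (s.tick.num r + s.tick.num r)).putNum 25 0).putNum r
        (((s.tick.putNum r (s.tick.num r + s.tick.num r)).putNum 25 0).num r +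
        ((s.tick.putNum r (s.tick.num r + s.tick.num r)).putNum 25 0).num 25)) (v + v) (c + 4)
        (fun x hx hx' => by simp [State.putNum, State.tick, hx, hx', h1 x hx hx'])
        (by simp [State.putNum, State.tick, h2])
        (by simp [State.putNum, State.tick, hr, hr.symm, h3])
        (by simp only [State.putNum, State.tick]; omega)
      exact this.mono fun s' v' h => ⟨h.1, h.2.1, h.2.2.1, by have := h.2.2.2; omega⟩
    · have := ih (((s.tick.putNum r (s.tick.num r + s.tick.num r)).putNum 25 1).putNum r
        (((s.tick.putNum r (s.tick.num r + s.tick.num r)).putNum 25 1).num r +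
        ((s.tick.putNum r (s.tick.num r + s.tick.num r)).putNum 25 1).num 25)) (v + v + 1) (c + 4)
        (fun x hx hx' => by simp only [State.putNum, State.tick, Function.update_self, ne_eq, hx, not_false_eq_true, Function.update_of_ne, hx', h1 x hx hx'])
        (by simp only [State.putNum, State.tick, h2, Function.update_self])
        (by simp [State.putNum, State.tick, hr, hr.symm, h3])
        (by simp only [State.putNum, State.tick]; omega)
      exact this.mono fun s' v' h => ⟨h.1, h.2.1, h.2.2.1, by have := h.2.2.2; omega⟩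

theorem sim_uni' {o : Bool → Finset ℕ → Bool} {r : ℕ} (hr : r ≠ 25) (hr6 : r ≠ 6) (s : State) :
    Sim (fun s' v' => (∀ x, x ≠ r → x ≠ 25 → s'.num x = s.num x) ∧ s'.set = s.set ∧
        s'.num r = v' ∧ s'.time ≤ s.time + (4 * s.num 6 + 2))
      (run o (uni r) s) (bits (s.num 6) 0) := by
  have e : run o (uni r) s = iter (run o (.seq (.add r r r) (.seq (.coin 25) (.add r r 25))))
      (s.num 6) (s.putNum r 0).tick := by
    have : (s.putNum r 0).num 6 = s.num 6 := by simp [State.putNum, hr6.symm]
    rw [← this]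
    rfl
  rw [e]
  refine (sim_bits hr s (s.num 6) (s.putNum r 0).tick 0 2 ?_ ?_ ?_ ?_).mono ?_
  · intro x hx hx'; simp [State.putNum, State.tick, hx]
  · simp [State.putNum, State.tick]
  · simp [State.putNum, State.tick]
  · simp only [State.putNum, State.tick]; omega
  · intro s' v' h
    exact ⟨h.1, h.2.1, h.2.2.1, by have := h.2.2.2; omega⟩

/-- body of the acceptance loop -/
def flipBody : Cmd := .seq (.coin 25) (.cond 25 5 (.const 47 0) skp)

theorem sim_flips {o : Bool → Finset ℕ → Bool} (s₀ : State) (h5 : s₀.num 5 = 1) (m : ℕ) :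
    ∀ (s : State) (b : Bool) (c : ℕ), (∀ x, x ≠ 47 → x ≠ 25 → s.num x = s₀.num x) →
      s.set = s₀.set → s.num 47 = (if b then 1 else 0) → s.time ≤ s₀.time + c →
    Sim (fun s' b' => (∀ x, x ≠ 47 → x ≠ 25 → s'.num x = s₀.num x) ∧ s'.set = s₀.set ∧
        s'.num 47 = (if b' then 1 else 0) ∧ s'.time ≤ s₀.time + (c + 4 * m))
      (iter (run o flipBody) m s) (flips m b) := by
  induction m with
  | zero =>
    intro s v c h1 h2 h3 h4
    exact ⟨h1, h2, h3, h4⟩
  | succ m ih =>
    intro s b c h1 h2 h3 h4
    have h5' : s.num 5 = 1 := by rw [h1 5 (by norm_num) (by norm_num)]; exact h5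
    rw [iter_succ]
    have e : run o flipBody s.tick = .flip (.leaf ((s.tick.putNum 25 0).tick.putNum 47 0))
        (.leaf ((s.tick.putNum 25 1).tick.putNum 25 0)) := by
      simp only [flipBody, skp, State.tick, run, State.putNum, bind_flip, bind_leaf, Function.update_self, ne_eq, Nat.reduceEqDiff, not_false_eq_true, Function.update_of_ne, h5', Order.lt_one_iff, ↓reduceIte, lt_self_iff_false, Function.update_idem]
    rw [e]
    simp only [bind_leaf, bind_flip, flips]
    refine ⟨?_, ?_⟩
    · have := ih ((s.tick.putNum 25 0).tick.putNum 47 0) false (c + 4)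
        (fun x hx hx' => by simp [State.putNum, State.tick, hx, hx', h1 x hx hx'])
        (by simp [State.putNum, State.tick, h2])
        (by simp [State.putNum, State.tick])
        (by simp only [State.putNum, State.tick]; omega)
      exact this.mono fun s' v' h => ⟨h.1, h.2.1, h.2.2.1, by have := h.2.2.2; omega⟩
    · have := ih ((s.tick.putNum 25 1).tick.putNum 25 0) b (c + 4)
        (fun x hx hx' => by simp [State.putNum, State.tick, hx, hx', h1 x hx hx'])
        (by simp [State.putNum, State.tick, h2])
        (by simp [State.putNum, State.tick, h3])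
        (by simp only [State.putNum, State.tick]; omega)
      exact this.mono fun s' v' h => ⟨h.1, h.2.1, h.2.2.1, by have := h.2.2.2; omega⟩

/-- acceptance part of the step -/
def accCode : Cmd :=
  .seq (.add 45 42 32) (.seq (.add 46 31 43) (.seq (.sub 45 45 46) (.seq (.const 47 1)
    (.seq (.loop 45 flipBody) (.cond 18 47 (.copy 0 3) skp)))))

/-- everything after the choice of the pair `(x, y)` in registers 40, 41 -/
def moveCode : Cmd :=
  .seq (.mem 44 40 0) (.cond 18 44
    (.seq (.mem 44 41 0) (.cond 18 44 skp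
      (.cond 41 19
        (.seq (.copy 3 0) (.seq evalCode (.seq (.add 42 31 18) (.seq (.add 43 32 18)
          (.seq (.erase 3 40) (.seq (.insert 3 41) (.seq evalCode
            (.cond 5 30 skp accCode))))))))
        skp)))
    skp)

/-- time bound of one step -/
def tS (P : Par) (κ : ℕ) : ℕ := 2 * tE P κ + 8 * P.a + 24 * κ + 60

theorem gap_le {I D : Finset ℕ} {κ : ℕ} {S S' : Finset ℕ} (hn : 0 < P.n) (hr : P.r ≤ P.n) :
    P.gap I D κ S S' ≤ 4 * κ + 2 := by
  have h1 : P.pe I κ S ≤ 2 + κ := by
    unfold Par.pe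
    split_ifs
    · omega
    · have := hist_le I P.n κ (P.dI S) (P.eI S); omega
  have h2 : P.qe D κ S' ≤ 3 * κ := by
    unfold Par.qe
    have hd : P.dfc S' ≤ 2 * P.n := by
      unfold Par.dfc
      have := cnt_le (fun i => decide (i + i ∈ S')) P.n
      omega
    have h3 : κ * P.dfc S' / P.n ≤ 2 * κ := by
      apply Nat.div_le_of_le_mul
      calc κ * P.dfc S' ≤ κ * (2 * P.n) := Nat.mul_le_mul_left _ hd
        _ = P.n * (2 * κ) := by ring
    split_ifs
    · (clear * - h3; omega)
    · have := hist_le D P.n κ (P.dI S') (P.eI S'); omega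
  unfold Par.gap
  omega

theorem sim_acc {s : State} {q : Q} {S' : Finset ℕ} (h : Rl P K s q) (hn : 0 < P.n)
    (hr : P.r ≤ P.n) (h42 : s.num 42 = P.pe q.I q.κ q.S) (h43 : s.num 43 = P.qe q.D q.κ q.S)
    (h31 : s.num 31 = P.pe q.I q.κ S') (h32 : s.num 32 = P.qe q.D q.κ S') (h3 : s.set 3 = S') :
    Sim (fun s' T => Rl P K s' { q with S := T } ∧ s'.time ≤ s.time + (16 * q.κ + 16))
      (run P.o accCode s)
      ((flips (P.gap q.I q.D q.κ q.S S') true).bind fun b => .leaf (if b then S' else q.S)) := by
  set g := P.gap q.I q.D q.κ q.S S' with hg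
  set s₁ := (((s.putNum 45 (s.num 42 + s.num 32)).putNum 46 (s.num 31 + s.num 43)).putNum 45
    g).putNum 47 1 with hs1
  have e : run P.o accCode s = (iter (run P.o flipBody) g s₁.tick).bind
      (run P.o (.cond 18 47 (.copy 0 3) skp)) := by
    have e1 : run P.o accCode s = run P.o (.seq (.const 47 1)
      (.seq (.loop 45 flipBody) (.cond 18 47 (.copy 0 3) skp)))
        (((s.putNum 45 (s.num 42 + s.num 32)).putNum 46 (s.num 31 + s.num 43)).putNum 45 g) := by
      unfold accCode
      simp only [run, State.putNum, h42, h32, bind_leaf, ne_eq, Nat.reduceEqDiff, not_false_eq_true, Function.update_of_ne, Function.update_self, h31, h43, hg, Par.gap]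
    rw [e1]
    have e2 : s₁.num 45 = g := by simp [hs1, State.putNum]
    rw [← e2]
    rfl
  rw [e]
  have h5 : s₁.tick.num 5 = 1 := by simp only [State.tick, hs1, State.putNum, ne_eq, Nat.reduceEqDiff, not_false_eq_true, Function.update_of_ne, h.cf.one]
  have hgl : g ≤ 4 * q.κ + 2 := gap_le hn hr
  refine (sim_flips (o := P.o) s₁.tick h5 g s₁.tick true 0 (fun _ _ _ => rfl) rfl
    (by simp [hs1, State.putNum, State.tick]) (by omega)).bind ?_
  rintro s₂ b ⟨f1, f2, f3, f4⟩
  have hlow : ∀ r < 20, s₂.num r = s.num r := by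
    intro r hr
    rw [f1 r (by omega) (by omega)]
    have h45 : r ≠ 45 := by omega
    have h46 : r ≠ 46 := by omega
    have h47 : r ≠ 47 := by omega
    simp [hs1, State.putNum, State.tick, h45, h46, h47]
  have hset : s₂.set = s.set := by rw [f2]; simp [hs1, State.putNum, State.tick]
  have ht : s₂.time ≤ s.time + (4 * g + 5) := by
    refine f4.trans ?_
    simp only [hs1, State.putNum, State.tick]
    omega
  have hR : Rl P K s₂ q := h.congr hlow (fun X _ => by rw [hset])
  cases b with
  | true =>
    have e2 : run P.o (.cond 18 47 (.copy 0 3) skp) s₂ = .leaf (s₂.tick.putSet 0 S') := by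
      have h47 : s₂.num 47 = 1 := by rw [f3]; simp
      have h18 : s₂.num 18 = 0 := hR.cf.zero
      have h3' : s₂.set 3 = S' := by rw [hset]; exact h3
      simp [run, h47, h18, State.tick, State.putSet, h3']
    rw [e2]
    refine ⟨?_, ?_⟩
    · obtain ⟨⟨h0, h5, h9, h17, h18⟩, h6, h8, h16, h19, h3, h4, h10, h11, h12, h13, h14, h15, t0,
        t1, t2⟩ := hR
      exact ⟨⟨h0, h5, h9, h17, h18⟩, h6, h8, h16, h19, h3, h4, h10, h11, h12, h13, h14, h15,
        by simp [State.putSet, State.tick], by simpa [State.putSet, State.tick] using t1,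
        by simpa [State.putSet, State.tick] using t2⟩
    · simp only [State.putSet, State.tick]; omega
  | false =>
    have e2 : run P.o (.cond 18 47 (.copy 0 3) skp) s₂ = .leaf (s₂.tick.putNum 25 0) := by
      have h47 : s₂.num 47 = 0 := by rw [f3]; simp
      have h18 : s₂.num 18 = 0 := hR.cf.zero
      simp [run, skp, h47, h18, State.tick, State.putNum]
    rw [e2]
    refine ⟨?_, ?_⟩
    · have : Rl P K (s₂.tick.putNum 25 0) q := hR.congr (fun r hr => by
        have : r ≠ 25 := by omega
        simp [State.putNum, State.tick, this]) (fun X _ => by simp [State.putNum, State.tick])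
      exact this
    · simp only [State.putNum, State.tick]; omega

end Vale.Agent.P317.Alg
end

section

set_option linter.unusedSimpArgs false
set_option linter.unusedVariables false
set_option linter.unnecessarySeqFocus false
set_option linter.unreachableTactic false
set_option linter.unusedTactic false

namespace Vale.Agent.P317.Alg

open Rnd

variable {P : Par} {K : ℕ}

/-- the part of the step which is executed when `x ∈ S`, `y ∉ S`, `y < 2n` -/
def tryCode : Cmd :=
  .seq (.copy 3 0) (.seq evalCode (.seq (.add 42 31 18) (.seq (.add 43 32 18)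
    (.seq (.erase 3 40) (.seq (.insert 3 41) (.seq evalCode (.cond 5 30 skp accCode)))))))

theorem sim_try {s : State} {q : Q} {x y : ℕ} (h : Rl P K s q) (hn : 0 < P.n)
    (hr : P.r ≤ P.n) (h40 : s.num 40 = x) (h41 : s.num 41 = y) :
    Sim (fun s' T => Rl P K s' { q with S := T } ∧
        s'.time ≤ s.time + (2 * tE P q.κ + 16 * q.κ + 23))
      (run P.o tryCode s)
      (if P.nD (insert y (q.S.erase x)) ≤ 1 then
        (flips (P.gap q.I q.D q.κ q.S (insert y (q.S.erase x))) true).bind fun b =>
        .leaf (if b then insert y (q.S.erase x) else q.S) else .leaf q.S) := by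
  set S' := insert y (q.S.erase x) with hS'
  have h1 : Rl P K (s.putSet 3 (s.set 0)) q := h.congr (fun r _ => by simp [State.putSet])
    (fun X hX => by
      have : X ≠ 3 := by omega
      simp [State.putSet, this])
  have hk : (s.putSet 3 (s.set 0)).num 10 = q.κ := h1.κ
  unfold tryCode
  refine Ex.simSeq (Q := fun s' => s' = s.putSet 3 (s.set 0)) ⟨_, rfl, rfl⟩ ?_
  rintro s₁ rfl
  refine Ex.simSeq (run_eval h1.cf hn hr) ?_
  rintro s₂ ⟨f2, a30, a31, a32, -, -⟩
  rw [hk] at f2 a31 a32
  have b1 : (s.putSet 3 (s.set 0)).set 1 = q.I := h1.I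
  have b2 : (s.putSet 3 (s.set 0)).set 2 = q.D := h1.D
  have b3 : (s.putSet 3 (s.set 0)).set 3 = q.S := by simp [State.putSet, h.S]
  rw [b1, b3] at a31
  rw [b2, b3] at a32
  have R2 : Rl P K s₂ q := h1.fr f2
  have c40 : s₂.num 40 = x := by rw [f2.num 40 (by norm_num)]; exact h40
  have c41 : s₂.num 41 = y := by rw [f2.num 41 (by norm_num)]; exact h41
  have c3 : s₂.set 3 = q.S := by rw [f2.set 3 (by norm_num) (by norm_num)]; exact b3
  set s₃ := (((s₂.putNum 42 (P.pe q.I q.κ q.S)).putNum 43 (P.qe q.D q.κ q.S)).putSet 3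
    (q.S.erase x)).putSet 3 S' with hs3
  have e : run P.o (.seq (.add 42 31 18) (.seq (.add 43 32 18)
    (.seq (.erase 3 40) (.seq (.insert 3 41) (.seq evalCode (.cond 5 30 skp accCode)))))) s₂ =
      (run P.o evalCode s₃).bind (run P.o (.cond 5 30 skp accCode)) := by
    have e1 : run P.o (.seq (.add 42 31 18) (.seq (.add 43 32 18)
      (.seq (.erase 3 40) (.insert 3 41)))) s₂ = .leaf s₃ := by
      simp only [run, State.putNum, a31, R2.cf.zero, add_zero, State.putSet, bind_leaf, Function.update_self, Function.update_idem, ne_eq, Nat.reduceEqDiff, not_false_eq_true, Function.update_of_ne, a32, c41, c3, c40, hs3, hS']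
    have e2 : run P.o (.seq (.add 42 31 18) (.seq (.add 43 32 18)
      (.seq (.erase 3 40) (.seq (.insert 3 41) (.seq evalCode (.cond 5 30 skp accCode)))))) s₂ =
      (run P.o (.seq (.add 42 31 18) (.seq (.add 43 32 18)
      (.seq (.erase 3 40) (.insert 3 41)))) s₂).bind (fun s => (run P.o evalCode s).bind
        (run P.o (.cond 5 30 skp accCode))) := rfl
    rw [e2, e1]; rfl
  rw [e]
  have R3 : Rl P K s₃ q := R2.congr (fun r hr => by
      have h42 : r ≠ 42 := by omega
      have h43 : r ≠ 43 := by omega
      simp [hs3, State.putNum, State.putSet, h42, h43]) (fun X hX => by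
      have : X ≠ 3 := by omega
      simp [hs3, State.putNum, State.putSet, this])
  have hk3 : s₃.num 10 = q.κ := R3.κ
  have t3 : s₃.set 3 = S' := by simp [hs3, State.putSet]
  refine Ex.sim (run_eval R3.cf hn hr) ?_
  rintro s₄ ⟨f4, d30, d31, d32, -, -⟩
  rw [hk3] at f4 d31 d32
  rw [t3] at d30 d31 d32
  rw [R3.I] at d31
  rw [R3.D] at d32
  have R4 : Rl P K s₄ q := R3.fr f4
  have g42 : s₄.num 42 = P.pe q.I q.κ q.S := by
    rw [f4.num 42 (by norm_num)]; simp [hs3, State.putNum, State.putSet]
  have g43 : s₄.num 43 = P.qe q.D q.κ q.S := by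
    rw [f4.num 43 (by norm_num)]; simp [hs3, State.putNum, State.putSet]
  have g3 : s₄.set 3 = S' := by rw [f4.set 3 (by norm_num) (by norm_num)]; exact t3
  have ht4 : s₄.time ≤ s.time + (2 * tE P q.κ + 5) := by
    have t2 := f2.time
    have t4 := f4.time
    simp only [State.putSet] at t2
    simp only [hs3, State.putNum, State.putSet] at t4
    omega
  have econd : run P.o (.cond 5 30 skp accCode) s₄ =
      if s₄.num 5 < s₄.num 30 then run P.o skp s₄.tick else run P.o accCode s₄.tick := rfl
  rw [econd, R4.cf.one, d30]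
  by_cases hD : P.nD S' ≤ 1
  · rw [if_pos hD, if_neg (by omega)]
    have R4t : Rl P K s₄.tick q := R4.congr (fun _ _ => rfl) (fun _ _ => rfl)
    refine (sim_acc (S' := S') R4t hn hr g42 g43 d31 d32 g3).mono ?_
    rintro s' T ⟨r1, r2⟩
    refine ⟨r1, ?_⟩
    simp only [State.tick] at r2
    omega
  · rw [if_neg hD, if_pos (by omega)]
    refine ⟨?_, ?_⟩
    · have : Rl P K (s₄.tick.putNum 25 0) q := R4.congr (fun r hr => by
        have : r ≠ 25 := by omega
        simp [State.putNum, State.tick, this]) (fun X _ => by simp [State.putNum, State.tick])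
      exact this
    · simp only [State.putNum, State.tick]; (clear * - hk hk3 ht4; omega)

theorem moveCode_eq : moveCode = .seq (.mem 44 40 0) (.cond 18 44
    (.seq (.mem 44 41 0) (.cond 18 44 skp (.cond 41 19 tryCode skp))) skp) := rfl

theorem Rl.scr {s : State} {q : Q} (h : Rl P K s q) {r v : ℕ} (hr : 20 ≤ r) :
    Rl P K (s.putNum r v) q :=
  h.congr (fun x hx => by
    have : x ≠ r := by omega
    simp [State.putNum, this]) (fun X _ => by simp [State.putNum])

theorem Rl.tick {s : State} {q : Q} (h : Rl P K s q) : Rl P K s.tick q :=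
  h.congr (fun _ _ => rfl) (fun _ _ => rfl)

theorem sim_move {s : State} {q : Q} {x y : ℕ} (h : Rl P K s q) (hn : 0 < P.n)
    (hr : P.r ≤ P.n) (h40 : s.num 40 = x) (h41 : s.num 41 = y) :
    Sim (fun s' T => Rl P K s' { q with S := T } ∧
        s'.time ≤ s.time + (2 * tE P q.κ + 16 * q.κ + 30))
      (run P.o moveCode s) (P.move q.I q.D q.κ q.S x y) := by
  rw [moveCode_eq]
  have hz := h.cf.zero
  unfold Par.move
  by_cases c1 : x ∈ q.S
  · set s₁ := (s.putNum 44 1).tick with hs1
    have e1 : run P.o (.seq (.mem 44 40 0) (.cond 18 44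
        (.seq (.mem 44 41 0) (.cond 18 44 skp (.cond 41 19 tryCode skp))) skp)) s =
        run P.o (.seq (.mem 44 41 0) (.cond 18 44 skp (.cond 41 19 tryCode skp))) s₁ := by
      rw [run]
      simp only [run, bind_leaf]
      have : s.num 40 ∈ s.set 0 := by rw [h40, h.S]; exact c1
      rw [if_pos this]
      have h2 : (s.putNum 44 1).num 18 < (s.putNum 44 1).num 44 := by
        simp only [State.putNum, ne_eq, Nat.reduceEqDiff, not_false_eq_true, Function.update_of_ne, hz, Function.update_self, Order.lt_one_iff]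
      rw [if_pos h2]
    rw [e1]
    have R1 : Rl P K s₁ q := (h.scr (by norm_num)).tick
    have k41 : s₁.num 41 = y := by simp [hs1, State.putNum, State.tick, h41]
    have k40 : s₁.num 40 = x := by simp [hs1, State.putNum, State.tick, h40]
    by_cases c2 : y ∈ q.S
    · have e2 : run P.o (.seq (.mem 44 41 0) (.cond 18 44 skp (.cond 41 19 tryCode skp))) s₁ =
          .leaf ((s₁.putNum 44 1).tick.putNum 25 0) := by
        rw [run]
        simp only [run, bind_leaf]
        have : s₁.num 41 ∈ s₁.set 0 := by rw [k41, R1.S]; exact c2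
        rw [if_pos this]
        have h2 : (s₁.putNum 44 1).num 18 < (s₁.putNum 44 1).num 44 := by
          simp only [State.putNum, ne_eq, Nat.reduceEqDiff, not_false_eq_true, Function.update_of_ne, R1.cf.zero, Function.update_self, Order.lt_one_iff]
        rw [if_pos h2]
        simp [skp, run]
      rw [e2, if_neg (fun hh => hh.2.1 c2)]
      refine ⟨((R1.scr (by norm_num)).tick).scr (by norm_num), ?_⟩
      simp only [hs1, State.putNum, State.tick]; omega
    · set s₂ := (s₁.putNum 44 0).tick with hs2
      have e2 : run P.o (.seq (.mem 44 41 0) (.cond 18 44 skp (.cond 41 19 tryCode skp))) s₁ =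
          run P.o (.cond 41 19 tryCode skp) s₂ := by
        rw [run]
        simp only [run, bind_leaf]
        have : ¬ s₁.num 41 ∈ s₁.set 0 := by rw [k41, R1.S]; exact c2
        rw [if_neg this]
        have h2 : ¬ (s₁.putNum 44 0).num 18 < (s₁.putNum 44 0).num 44 := by
          simp [State.putNum, R1.cf.zero]
        rw [if_neg h2]
      rw [e2]
      have R2 : Rl P K s₂ q := (R1.scr (by norm_num)).tick
      have l41 : s₂.num 41 = y := by simp [hs2, State.putNum, State.tick, k41]
      have l40 : s₂.num 40 = x := by simp [hs2, State.putNum, State.tick, k40]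
      have l19 : s₂.num 19 = P.n + P.n := R2.n2
      have e3 : run P.o (.cond 41 19 tryCode skp) s₂ =
        if s₂.num 41 < s₂.num 19 then run P.o tryCode s₂.tick else run P.o skp s₂.tick := rfl
      rw [e3, l41, l19]
      by_cases c3 : y < P.n + P.n
      · rw [if_pos c3]
        have hif : (if x ∈ q.S ∧ y ∉ q.S ∧ y < P.n + P.n ∧
            P.nD (insert y (q.S.erase x)) ≤ 1 then
            (flips (P.gap q.I q.D q.κ q.S (insert y (q.S.erase x))) true).bind fun b =>
            Rnd.leaf (if b then insert y (q.S.erase x) else q.S) else .leaf q.S) =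
            (if P.nD (insert y (q.S.erase x)) ≤ 1 then
            (flips (P.gap q.I q.D q.κ q.S (insert y (q.S.erase x))) true).bind fun b =>
            Rnd.leaf (if b then insert y (q.S.erase x) else q.S) else .leaf q.S) := by
          by_cases hD : P.nD (insert y (q.S.erase x)) ≤ 1
          · rw [if_pos hD, if_pos ⟨c1, c2, c3, hD⟩]
          · rw [if_neg hD, if_neg (fun hh => hD hh.2.2.2)]
        rw [hif]
        refine (sim_try (x := x) (y := y) R2.tick hn hr (by simpa [State.tick] using l40)
          (by simpa [State.tick] using l41)).mono ?_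
        rintro s' T ⟨r1, r2⟩
        refine ⟨r1, ?_⟩
        simp only [hs1, hs2, State.tick, State.putNum] at r2
        (clear * - r2; omega)
      · rw [if_neg c3, if_neg (fun hh => c3 hh.2.2.1)]
        refine ⟨(R2.tick).scr (by norm_num), ?_⟩
        simp only [hs1, hs2, State.putNum, State.tick]; omega
  · have e1 : run P.o (.seq (.mem 44 40 0) (.cond 18 44
        (.seq (.mem 44 41 0) (.cond 18 44 skp (.cond 41 19 tryCode skp))) skp)) s =
        .leaf ((s.putNum 44 0).tick.putNum 25 0) := by
      rw [run]
      simp only [run, bind_leaf]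
      have : ¬ s.num 40 ∈ s.set 0 := by rw [h40, h.S]; exact c1
      rw [if_neg this]
      have h2 : ¬ (s.putNum 44 0).num 18 < (s.putNum 44 0).num 44 := by
        simp [State.putNum, hz]
      rw [if_neg h2]
      simp [skp, run]
    rw [e1, if_neg (fun hh => c1 hh.1)]
    refine ⟨((h.scr (by norm_num)).tick).scr (by norm_num), ?_⟩
    simp only [State.putNum, State.tick]; omega

/-- one step of the chain -/
def stepCode : Cmd := .seq (uni 40) (.seq (uni 41) moveCode)

theorem sim_step {s : State} {q : Q} (h : Rl P K s q) (hn : 0 < P.n) (hr : P.r ≤ P.n) :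
    Sim (fun s' T => Rl P K s' { q with S := T } ∧ s'.time ≤ s.time + tS P q.κ)
      (run P.o stepCode s) (P.step q.I q.D q.κ q.S) := by
  unfold stepCode Par.step
  have e : run P.o (.seq (uni 40) (.seq (uni 41) moveCode)) s =
    (run P.o (uni 40) s).bind (fun s => (run P.o (uni 41) s).bind (run P.o moveCode)) := rfl
  rw [e, ← h.a]
  refine (sim_uni' (o := P.o) (r := 40) (by norm_num) (by norm_num) s).bind ?_
  rintro s₁ x ⟨f1, f2, f3, f4⟩
  have R1 : Rl P K s₁ q := h.congr (fun r hr => f1 r (by omega) (by omega)) (fun X _ => by rw [f2])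
  have e6 : s.num 6 = s₁.num 6 := by rw [f1 6 (by norm_num) (by norm_num)]
  rw [e6]
  refine (sim_uni' (o := P.o) (r := 41) (by norm_num) (by norm_num) s₁).bind ?_
  rintro s₂ y ⟨g1, g2, g3, g4⟩
  have R2 : Rl P K s₂ q := R1.congr (fun r hr => g1 r (by omega) (by omega)) (fun X _ => by rw [g2])
  have k40 : s₂.num 40 = x := by rw [g1 40 (by norm_num) (by norm_num)]; exact f3
  refine (sim_move (x := x) (y := y) R2 hn hr k40 g3).mono ?_
  rintro s' T ⟨r1, r2⟩
  refine ⟨r1, ?_⟩
  rw [h.a] at f4
  rw [R1.a] at g4
  unfold tS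
  omega

end Vale.Agent.P317.Alg
end

section

/-!
# The compiled program above the level of one chain step: code and time bounds
-/

namespace Vale.Agent.P317.Alg

open Rnd

/-! ### thread -/

/-- `S := ` uniformly random colourful set -/
def startCode : Cmd :=
  .seq (.clear 0) (.seq (.const 20 0) (.loop 0
    (.seq (.add 21 20 20) (.seq (.coin 22) (.seq (.add 21 21 22) (.seq (.insert 0 21)
      (.add 20 20 5)))))))

/-- fresh thread through the stages `0, …, k` (`k` = register 11); afterwards `κ = k + 1` -/
def threadCode : Cmd :=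
  .seq startCode (.seq (.const 10 0) (.seq (.add 49 11 5)
    (.loop 49 (.seq (.loop 8 stepCode) (.add 10 10 5)))))

/-! ### experiments -/

/-- bookkeeping for the type `(i, j)` -/
def evPair : Cmd :=
  .seq (.copy 3 0) (.seq evalCode (.cond 18 30
    (.cond 33 12 skp (.cond 12 33 skp (.cond 34 13 skp (.cond 13 34 skp (.add 14 14 5)))))
    (.add 15 15 5)))

/-- bookkeeping for the drop of the colourful weight -/
def evDrop : Cmd :=
  .seq (.copy 3 0) (.seq (.add 10 11 5) (.seq evalCode (.seq (.add 48 32 18)
    (.seq (.add 10 11 18) (.seq evalCode (.cond 18 30 skp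
      (.seq (.add 15 15 5) (.cond 32 48 (.add 14 14 5) skp))))))))

/-- `L` fresh threads with bookkeeping `ev` -/
def exptCode (ev : Cmd) : Cmd :=
  .seq (.const 14 0) (.seq (.const 15 0) (.loop 8 (.seq threadCode ev)))

/-! ### loops over the types -/

/-- update of the history -/
def updCode : Cmd :=
  .seq (prodCode 21 12 0) (.seq (.add 21 21 13) (.seq (prodCode 22 11 17) (.seq (.add 21 21 22)
    (.seq (.add 23 14 14) (.seq (.add 23 23 14) (.seq (.cond 23 15 (.insert 1 21) skp)
      (.seq (.add 23 15 15) (.seq (.add 23 23 15) (.cond 23 14 (.insert 2 21) skp)))))))))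

def pairE : Cmd := .seq (exptCode evPair) updCode

def pairCode : Cmd := .cond 12 13 pairE (.cond 13 12 pairE skp)

def rowCode : Cmd := .seq (.const 13 0) (.loop 0 (.seq pairCode (.add 13 13 5)))

def rowsCode : Cmd := .seq (.const 12 0) (.loop 0 (.seq rowCode (.add 12 12 5)))

/-- `num := num * (2y - x)`, `den := den * (2y)` -/
def fracCode : Cmd :=
  .seq (.add 21 15 15) (.seq (.sub 22 21 14) (.seq (prodCode 23 22 3) (.seq (.add 3 23 18)
    (.seq (prodCode 23 21 4) (.add 4 23 18)))))

def stageCode : Cmd := .seq rowsCode (.seq (exptCode evDrop) fracCode)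

def mainCode : Cmd := .seq (.const 11 0) (.loop 16 (.seq stageCode (.add 11 11 5)))

def outCode : Cmd := .seq (.add 21 3 3) (.cond 21 4 (.const 3 0) skp)

/-! ### time bounds (for stages `k < K`) -/

/-- thread -/
def τT (P : Par) (K : ℕ) : ℕ := (K + 1) * (P.L * (tS P K + 1) + 4) + 6 * P.n + 10

/-- experiment -/
def τX (P : Par) (K : ℕ) : ℕ := P.L * (τT P K + 2 * tE P K + 20) + 5

/-- one pair -/
def τP (P : Par) (K : ℕ) : ℕ := τX P K + 2 * P.n + 2 * K + 30

/-- one stage -/
def τG (P : Par) (K : ℕ) : ℕ := (P.n + 2) * ((P.n + 2) * (τP P K + 5)) + τX P K + 8 * P.L + 30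

/-- main loop and output -/
def τM (P : Par) (K : ℕ) : ℕ := K * (τG P K + 5) + 20

/-- `Rl` up to the junk in `S` and `κ` -/
def Rt (P : Par) (K : ℕ) (s : State) (q : Q) : Prop :=
  ∃ (S : Finset ℕ) (κ : ℕ), Rl P K s { q with S := S, κ := κ }

end Vale.Agent.P317.Alg
end
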