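import Vale.Agent.P317.MathlibUsed
import Vale.Agent.P317.Bdl.B1
attribute [-instance] ProperSMul.toContinuousSMul IsTopologicalTorsor.toContinuousSMul IdemSemiring.toCanonicallyOrderedAdd IdemSemiring.toMulLeftMono IdemSemiring.toMulRightMono AddQuantale.instAddLeftMono AddQuantale.instAddRightMono Quantale.instMulLeftMono Quantale.instMulRightMono FiniteDimensional.rclike_to_real IsScalarTower.complexToReal FiniteDimensional.complexToReal

section

/-!
# Preprocessing: the constants of the algorithm
-/

set_option linter.unusedSimpArgs false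
set_option linter.unusedVariables false

namespace Vale.Agent.P317.Alg

open Rnd

/-- the number registers below `20` other than the scratch register `1` have the contents `f`, the
set registers below `4` are empty, at most `c` steps were made -/
structure Rg (f : ℕ → ℕ) (c : ℕ) (s : State) : Prop where
  num : ∀ r, r < 20 → r ≠ 1 → s.num r = f r
  set : ∀ X < 4, s.set X = ∅
  time : s.time ≤ c

section

variable {o : Bool → Finset ℕ → Bool} {f : ℕ → ℕ} {c : ℕ} {s : State}

theorem Rg.mono (h : Rg f c s) {c' : ℕ} (hc : c ≤ c') : Rg f c' s := ⟨h.num, h.set, h.time.trans hc⟩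

theorem Rg.tick (h : Rg f c s) : Rg f (c + 1) s.tick :=
  ⟨h.num, h.set, by have := h.time; simp only [State.tick]; omega⟩

theorem Rg.put (h : Rg f c s) (x v : ℕ) : Rg (Function.update f x v) (c + 1) (s.putNum x v) := by
  refine ⟨fun r hr hr1 => ?_, h.set, ?_⟩
  · by_cases hx : r = x
    · subst hx; simp [State.putNum]
    · simp [State.putNum, hx, h.num r hr hr1]
  · have := h.time
    simp only [State.putNum]; omega

theorem Rg.put1 (h : Rg f c s) (v : ℕ) : Rg f (c + 1) (s.putNum 1 v) := by
  refine ⟨fun r hr hr1 => ?_, h.set, ?_⟩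
  · simp [State.putNum, hr1, h.num r hr hr1]
  · have := h.time
    simp only [State.putNum]; omega

theorem rg_const (h : Rg f c s) (x v : ℕ) :
    Ex (run o (.const x v) s) (Rg (Function.update f x v) (c + 1)) := ⟨_, rfl, h.put x v⟩

theorem rg_add (h : Rg f c s) (x y z : ℕ) {v : ℕ} (hv : s.num y + s.num z = v) :
    Ex (run o (.add x y z) s) (Rg (Function.update f x v) (c + 1)) :=
  ⟨_, rfl, by rw [hv]; exact h.put x v⟩

theorem Rg.fz {s' : State} {z v k : ℕ} (h : Rg f c s) (hz : Fz z s s' k) (hv : s'.num z = v) :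
    Rg (Function.update f z v) (c + k) s' := by
  refine ⟨fun r hr hr1 => ?_, fun X hX => by rw [hz.set]; exact h.set X hX, ?_⟩
  · by_cases hx : r = z
    · subst hx; simp [hv]
    · rw [hz.num r hx, h.num r hr hr1]; simp [hx]
  · have := h.time; have := hz.time; omega

theorem Rg.fz1 {s' : State} {k : ℕ} (h : Rg f c s) (hz : Fz 1 s s' k) : Rg f (c + k) s' := by
  refine ⟨fun r hr hr1 => ?_, fun X hX => by rw [hz.set]; exact h.set X hX, ?_⟩
  · rw [hz.num r hr1, h.num r hr hr1]
  · have := h.time; have := hz.time; omega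

theorem rg_prod (h : Rg f c s) {z x y : ℕ} (hx : x ≠ z) (hy : y ≠ z) {a b : ℕ}
    (ha : s.num x = a) (hb : s.num y = b) :
    Ex (run o (prodCode z x y) s) (Rg (Function.update f z (a * b)) (c + (2 * a + 2))) := by
  refine (run_prod hx hy s).mono ?_
  rintro s' ⟨h1, h2⟩
  rw [ha, hb] at h2
  rw [ha] at h1
  exact h.fz h1 h2

/-! ### powers -/

/-- one multiplication of register 8 by register 7 -/
def powBody : Cmd := .seq (prodCode 1 7 8) (.add 8 1 18)

theorem ex_pow {u : ℕ} (h7 : f 7 = u) (h18 : f 18 = 0) (m : ℕ) {s : State}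
    (h : Rg (Function.update f 8 1) c s) :
    Ex (iter (run o powBody) m s) (Rg (Function.update f 8 (u ^ m)) (c + m * (2 * u + 4))) := by
  set Inv : ℕ → State → Prop := fun i s => Rg (Function.update f 8 (u ^ i)) (c + i * (2 * u + 4)) s
  have hstep : ∀ i s, Inv i s → Ex (run o powBody s.tick) (Inv (i + 1)) := by
    intro i s hs
    have hs' := hs.tick
    have e7 : s.tick.num 7 = u := by
      rw [hs'.num 7 (by norm_num) (by norm_num)]; simp [h7]
    have e8 : s.tick.num 8 = u ^ i := by
      rw [hs'.num 8 (by norm_num) (by norm_num)]; simp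
    refine Ex.seq (run_prod (by norm_num) (by norm_num) s.tick) ?_
    rintro s1 ⟨g1, g2⟩
    have hs1 := hs'.fz1 g1
    have e18 : s1.num 18 = 0 := by
      rw [hs1.num 18 (by norm_num) (by norm_num)]; simp [h18]
    refine (rg_add hs1 8 1 18 (v := u ^ (i + 1)) ?_).mono ?_
    · rw [g2, e7, e8, e18]; ring
    · intro s2 hs2
      rw [Function.update_idem] at hs2
      refine hs2.mono (le_of_eq ?_)
      rw [e7]; ring
  have h0 : Inv 0 s := by
    show Rg (Function.update f 8 (u ^ 0)) (c + 0 * (2 * u + 4)) s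
    rw [pow_zero, zero_mul]
    exact h
  have := ex_loop hstep m 0 s h0
  rwa [Nat.zero_add] at this

theorem ex_two_pow (m : ℕ) {s : State} (h : Rg (Function.update f 3 1) c s) :
    Ex (iter (run o (.add 3 3 3)) m s) (Rg (Function.update f 3 (2 ^ m)) (c + m * 2)) := by
  set Inv : ℕ → State → Prop := fun i s => Rg (Function.update f 3 (2 ^ i)) (c + i * 2) s
  have hstep : ∀ i s, Inv i s → Ex (run o (.add 3 3 3) s.tick) (Inv (i + 1)) := by
    intro i s hs
    have hs' := hs.tick
    have e3 : s.tick.num 3 = 2 ^ i := by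
      rw [hs'.num 3 (by norm_num) (by norm_num)]; simp
    refine (rg_add hs' 3 3 3 (v := 2 ^ (i + 1)) (by rw [e3]; ring)).mono ?_
    intro s2 hs2
    rw [Function.update_idem] at hs2
    exact hs2.mono (le_of_eq (by ring))
  have h0 : Inv 0 s := by
    show Rg (Function.update f 3 (2 ^ 0)) (c + 0 * 2) s
    rw [pow_zero, zero_mul]
    exact h
  have := ex_loop hstep m 0 s h0
  rwa [Nat.zero_add] at this

/-! ### logarithm -/

def logBody : Cmd := .cond 1 19 (.seq (.add 1 1 1) (.add 6 6 5)) skp

theorem ex_log {n : ℕ} (h5 : f 5 = 1) (h19 : f 19 = n + n) (m : ℕ) {s : State}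
    (h : Rg (Function.update f 6 0) c s) (h1 : s.num 1 = 1) :
    Ex (iter (run o logBody) m s) (fun s' => ∃ a, Rg (Function.update f 6 a) (c + m * 4) s' ∧
      a ≤ m ∧ (2 ^ a < 2 * n → a = m) ∧ (2 ^ a ≤ 4 * n ∨ a = 0)) := by
  set Inv : ℕ → State → Prop := fun i s => ∃ a, Rg (Function.update f 6 a) (c + i * 4) s ∧
      s.num 1 = 2 ^ a ∧ a ≤ i ∧ (2 ^ a < 2 * n → a = i) ∧ (2 ^ a ≤ 4 * n ∨ a = 0) with hInv
  have hstep : ∀ i s, Inv i s → Ex (run o logBody s.tick) (Inv (i + 1)) := by
    rintro i s ⟨a, hs, g1, g2, g3, g4⟩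
    have hs' := hs.tick
    have e1 : s.tick.num 1 = 2 ^ a := g1
    have e19 : s.tick.num 19 = n + n := by
      rw [hs'.num 19 (by norm_num) (by norm_num)]; simp [h19]
    have e6 : s.tick.num 6 = a := by
      rw [hs'.num 6 (by norm_num) (by norm_num)]; simp
    have e5 : s.tick.num 5 = 1 := by
      rw [hs'.num 5 (by norm_num) (by norm_num)]; simp [h5]
    have er : run o logBody s.tick = if s.tick.num 1 < s.tick.num 19 then
        run o (.seq (.add 1 1 1) (.add 6 6 5)) s.tick.tick else run o skp s.tick.tick := rfl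
    rw [er]
    by_cases hc : s.tick.num 1 < s.tick.num 19
    · rw [if_pos hc]
      have hlt : 2 ^ a < 2 * n := by rw [e1, e19] at hc; omega
      refine ⟨_, rfl, a + 1, ?_, ?_, ?_, ?_, ?_⟩
      · have k1 := (hs'.tick.put1 (s.tick.tick.num 1 + s.tick.tick.num 1)).put 6
          ((s.tick.tick.putNum 1 (s.tick.tick.num 1 + s.tick.tick.num 1)).num 6 +
            (s.tick.tick.putNum 1 (s.tick.tick.num 1 + s.tick.tick.num 1)).num 5)
        have k2 : (s.tick.tick.putNum 1 (s.tick.tick.num 1 + s.tick.tick.num 1)).num 6 +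
            (s.tick.tick.putNum 1 (s.tick.tick.num 1 + s.tick.tick.num 1)).num 5 = a + 1 := by
          have k3 : s.tick.tick.num 6 = a := e6
          have k4 : s.tick.tick.num 5 = 1 := e5
          simp [State.putNum, k3, k4]
        rw [Function.update_idem] at k1
        have k5 := k1.mono (c' := c + (i + 1) * 4) (by omega)
        rw [k2] at k5
        have k6 : (s.tick.tick.putNum 1 (s.tick.tick.num 1 + s.tick.tick.num 1)).putNum 6
            ((s.tick.tick.putNum 1 (s.tick.tick.num 1 + s.tick.tick.num 1)).num 6 +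
            (s.tick.tick.putNum 1 (s.tick.tick.num 1 + s.tick.tick.num 1)).num 5) =
            (s.tick.tick.putNum 1 (s.tick.tick.num 1 + s.tick.tick.num 1)).putNum 6 (a + 1) := by
          rw [k2]
        rw [k6]
        exact k5
      · have k3 : s.tick.tick.num 1 = 2 ^ a := e1
        simp only [State.putNum, k3, ne_eq, OfNat.ofNat_ne_one, not_false_eq_true, Function.update_of_ne, OfNat.one_ne_ofNat, Function.update_self]
        ring
      · omega
      · intro _
        rw [g3 hlt]
      · left
        rw [pow_succ]; omega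
    · rw [if_neg hc]
      have hge : ¬ 2 ^ a < 2 * n := by rw [e1, e19] at hc; omega
      refine ⟨_, rfl, a, ?_, ?_, ?_, ?_, ?_⟩
      · have k1 := hs'.tick
        refine ⟨fun r hr hr1 => ?_, k1.set, ?_⟩
        · have : r ≠ 25 := by omega
          simp only [State.putNum, Function.update_of_ne this]
          exact k1.num r hr hr1
        · have := k1.time
          simp only [State.putNum]; omega
      · show (s.tick.tick.putNum 25 0).num 1 = 2 ^ a
        simp only [State.putNum]
        rw [Function.update_of_ne (by norm_num)]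
        exact e1
      · omega
      · intro h; exact absurd h hge
      · exact g4
  have h0 : Inv 0 s := by
    refine ⟨0, ?_, ?_, le_rfl, fun _ => rfl, Or.inr rfl⟩
    · rw [zero_mul]; exact h
    · rw [h1]; norm_num
  have := ex_loop hstep m 0 s h0
  rw [Nat.zero_add] at this
  refine this.mono ?_
  rintro s' ⟨a, k1, -, k2⟩
  exact ⟨a, k1, k2⟩

/-! ### The program -/

/-- `u = n + e + l + 16` in register 7 -/
def pre1 : Cmd := .seq (.add 7 0 1) (.seq (.add 7 7 2) (.seq (.const 2 16) (.add 7 7 2)))

/-- constants -/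
def pre2 : Cmd := .seq (.const 5 1) (.seq (.const 4 1) (.seq (prodCode 16 0 7)
  (.seq (prodCode 17 0 0) (.add 19 0 0))))

/-- powers -/
def pre3 : Cmd := .seq (.const 8 1) (.seq (.const 2 34) (.seq (.loop 2 powBody)
  (.seq (.const 3 1) (.loop 0 (.add 3 3 3)))))

/-- logarithm -/
def pre4 : Cmd := .seq (.const 6 0) (.seq (.const 1 1) (.loop 19 logBody))

def preCode : Cmd := .seq pre1 (.seq pre2 (.seq pre3 (.seq pre4 rankCode)))

/-- initial dynamic contents -/
def q0 (n : ℕ) : Q where
  u := 2 ^ n
  v := 1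
  κ := 0
  k := 0
  i := 0
  j := 0
  x := 0
  y := 0
  S := ∅
  I := ∅
  D := ∅

/-- contents after `pre1` -/
def f1 (n u : ℕ) : ℕ → ℕ := fun r => if r = 0 then n else if r = 7 then u else if r = 2 then 16 else 0

theorem ex_pre1 (n e l : ℕ) :
    Ex (run o pre1 (input n e l)) (Rg (f1 n (n + e + l + 16)) 4) := by
  refine ⟨_, rfl, ?_, ?_, ?_⟩
  · intro r hr hr1
    simp only [State.putNum, input, f1]
    simp only [Function.update_apply]
    split_ifs <;> simp_all <;> omega
  · intro X _; rfl
  · simp [State.putNum, input]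

/-- contents after `pre2` -/
def f2 (n u : ℕ) : ℕ → ℕ := fun r => if r = 0 then n else if r = 7 then u else if r = 2 then 16 else
  if r = 5 then 1 else if r = 4 then 1 else if r = 16 then n * u else if r = 17 then n * n else
  if r = 19 then n + n else 0

theorem ex_pre2 {n u : ℕ} {s : State} (h : Rg (f1 n u) c s) :
    Ex (run o pre2 s) (Rg (f2 n u) (c + (4 * n + 7))) := by
  refine Ex.seq (rg_const h 5 1) fun s h => ?_
  refine Ex.seq (rg_const h 4 1) fun s h => ?_
  refine Ex.seq (rg_prod h (z := 16) (x := 0) (y := 7) (a := n) (b := u) (by norm_num)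
    (by norm_num) (by rw [h.num _ (by norm_num) (by norm_num)]; simp [f1, Function.update_apply])
    (by rw [h.num _ (by norm_num) (by norm_num)]; simp [f1, Function.update_apply])) fun s h => ?_
  refine Ex.seq (rg_prod h (z := 17) (x := 0) (y := 0) (a := n) (b := n) (by norm_num)
    (by norm_num) (by rw [h.num _ (by norm_num) (by norm_num)]; simp [f1, Function.update_apply])
    (by rw [h.num _ (by norm_num) (by norm_num)]; simp [f1, Function.update_apply])) fun s h => ?_
  refine (rg_add h 19 0 0 (v := n + n)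
    (by rw [h.num _ (by norm_num) (by norm_num)]; simp [f1, Function.update_apply])).mono
    fun s h => ⟨fun r hr hr1 => ?_, h.set, h.time.trans (by omega)⟩
  rw [h.num r hr hr1]
  simp only [Function.update_apply, f1, f2]
  split_ifs <;> simp_all <;> omega

/-- contents after `pre3` -/
def f3 (n u : ℕ) : ℕ → ℕ := fun r => if r = 0 then n else if r = 7 then u else if r = 2 then 34 else
  if r = 5 then 1 else if r = 4 then 1 else if r = 16 then n * u else if r = 17 then n * n else
  if r = 19 then n + n else if r = 8 then u ^ 34 else if r = 3 then 2 ^ n else 0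

theorem pre3_aux (n u r : ℕ) :
    Function.update (Function.update (Function.update (f2 n u) 2 34) 8 (u ^ 34)) 3 (2 ^ n) r =
      f3 n u r := by
  unfold f3 f2
  generalize u ^ 34 = L
  generalize 2 ^ n = M
  simp only [Function.update_apply]
  by_cases h3 : r = 3
  · subst h3; rfl
  by_cases h8 : r = 8
  · subst h8; rfl
  by_cases h2 : r = 2
  · subst h2; rfl
  simp only [if_neg h3, if_neg h8, if_neg h2]

theorem ex_pre3 {n u : ℕ} {s : State} (h : Rg (f2 n u) c s) :
    Ex (run o pre3 s) (Rg (f3 n u) (c + (68 * u + 2 * n + 150))) := by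
  refine Ex.seq (rg_const h 8 1) fun s h => ?_
  refine Ex.seq (rg_const h 2 34) fun s h => ?_
  have e2 : s.num 2 = 34 := by
    rw [h.num _ (by norm_num) (by norm_num)]; simp [Function.update_apply]
  have e : run o (.loop 2 powBody) s = iter (run o powBody) 34 s.tick := by
    rw [← e2]; rfl
  have h' : Rg (Function.update (Function.update (f2 n u) 2 34) 8 1) (c + 1 + 1 + 1) s.tick := by
    have := h.tick
    rwa [Function.update_comm (by norm_num)] at this
  refine Ex.seq (Q := Rg (Function.update (Function.update (f2 n u) 2 34) 8 (u ^ 34))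
    (c + 1 + 1 + 1 + 34 * (2 * u + 4))) ?_ fun s h => ?_
  · rw [e]
    exact ex_pow (by simp [f2, Function.update_apply]) (by simp [f2, Function.update_apply]) 34 h'
  refine Ex.seq (rg_const h 3 1) fun s h => ?_
  have e0 : s.num 0 = n := by
    rw [h.num _ (by norm_num) (by norm_num)]; simp [f2, Function.update_apply]
  have e' : run o (.loop 0 (.add 3 3 3)) s = iter (run o (.add 3 3 3)) n s.tick := by
    rw [← e0]; rfl
  rw [e']
  refine (ex_two_pow n h.tick).mono fun s h => ⟨fun r hr hr1 => ?_, h.set, h.time.trans (by omega)⟩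
  rw [h.num r hr hr1]
  exact pre3_aux n u r

theorem ex_pre4 {n u : ℕ} {s : State} (h : Rg (f3 n u) c s) :
    Ex (run o pre4 s) (fun s' => ∃ a, Rg (Function.update (f3 n u) 6 a) (c + (8 * n + 3)) s' ∧
      a ≤ 2 * n ∧ 2 * n ≤ 2 ^ a ∧ (1 ≤ n → 2 ^ a ≤ 4 * n)) := by
  refine Ex.seq (rg_const h 6 0) fun s h => ?_
  refine Ex.seq (Q := fun s' => Rg (Function.update (f3 n u) 6 0) (c + 1 + 1) s' ∧ s'.num 1 = 1)
    ⟨_, rfl, h.put1 1, by simp [State.putNum]⟩ ?_
  rintro s ⟨h, h1⟩
  have e19 : s.num 19 = n + n := by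
    rw [h.num _ (by norm_num) (by norm_num)]; simp [f3, Function.update_apply]
  have e : run o (.loop 19 logBody) s = iter (run o logBody) (n + n) s.tick := by
    rw [← e19]; rfl
  rw [e]
  refine (ex_log (n := n) (by simp [f3]) (by simp [f3]) (n + n) h.tick h1).mono ?_
  rintro s' ⟨a, k1, k2, k3, k4⟩
  refine ⟨a, k1.mono (by omega), by omega, ?_, ?_⟩
  · by_contra hlt
    have h2 := k3 (by (clear * - hlt; omega))
    have h3 : n + n < 2 ^ (n + n) := Nat.lt_two_pow_self
    rw [h2] at hlt
    omega
  · intro hn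
    rcases k4 with k4 | k4
    · exact k4
    · rw [k4]; (clear * - hn; omega)

theorem ex_pre (n e l : ℕ) :
    Ex (run o preCode (input n e l)) (fun s' => ∃ a, a ≤ 2 * n ∧ 2 * n ≤ 2 ^ a ∧
      (1 ≤ n → 2 ^ a ≤ 4 * n) ∧
      Rl ⟨o, n, (greedy (o false) (fun _ => true) n).2, a, (n + e + l + 16) ^ 34⟩
        (n * (n + e + l + 16)) s' (q0 n) ∧
      s'.time ≤ 68 * (n + e + l + 16) + 23 * n + 169) := by
  set u := n + e + l + 16 with hu
  refine Ex.seq (ex_pre1 n e l) fun s h => ?_
  refine Ex.seq (ex_pre2 h) fun s h => ?_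
  refine Ex.seq (ex_pre3 h) fun s h => ?_
  refine Ex.seq (ex_pre4 h) ?_
  rintro s ⟨a, h, k1, k2, k3⟩
  refine (run_rank (o := o) (n := n) (s := s)
    (by rw [h.num _ (by norm_num) (by norm_num)]; simp [f3, Function.update_apply])
    (by rw [h.num _ (by norm_num) (by norm_num)]; simp [f3, Function.update_apply])
    (by rw [h.num _ (by norm_num) (by norm_num)]; simp [f3, Function.update_apply])).mono ?_
  rintro s' ⟨g1, g2, g3, g4⟩
  have key : ∀ r, r < 20 → r ≠ 1 → r ≠ 9 → s'.num r = Function.update (f3 n u) 6 a r := by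
    intro r hr hr1 hr9
    rw [g1 r (Or.inl hr) hr9, h.num r hr hr1]
  refine ⟨a, k1, k2, k3, ⟨⟨?_, ?_, g4, ?_, ?_⟩, ?_, ?_, ?_, ?_, ?_, ?_, ?_, ?_, ?_, ?_, ?_, ?_, ?_,
    ?_, ?_⟩, ?_⟩
  all_goals first
    | (rw [key _ (by norm_num) (by norm_num) (by norm_num)]
       simp [f3, Function.update_apply, q0])
    | (rw [g2 _ (by norm_num) (by norm_num), h.set _ (by norm_num)]; rfl)
    | skip
  have := h.time
  omega

end

end Vale.Agent.P317.Alg
end

section

/-!
# The window of near-colourful sets, and the weak Poincare inequality (part A)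
-/

namespace Vale.Agent.P317.Window

open Finset

variable {V : Type*} [Fintype V] [DecidableEq V]

/-- one element of every cell -/
def IsCol (S : Finset (V × Bool)) : Prop := ∀ k, ((k, false) ∈ S ↔ (k, true) ∉ S)

/-- both elements of cell `i`, no element of cell `j`, one element of every other cell -/
def IsNear (i j : V) (S : Finset (V × Bool)) : Prop :=
  (i, false) ∈ S ∧ (i, true) ∈ S ∧ (j, false) ∉ S ∧ (j, true) ∉ S ∧
    ∀ k, k ≠ i → k ≠ j → ((k, false) ∈ S ↔ (k, true) ∉ S)

instance : DecidablePred (IsCol (V := V)) := fun S => by unfold IsCol; infer_instance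

instance (i j : V) : DecidablePred (IsNear i j) := fun S => by unfold IsNear; infer_instance

/-- colourful sets -/
def Om0 (V : Type*) [Fintype V] [DecidableEq V] : Finset (Finset (V × Bool)) :=
  univ.filter IsCol

/-- sets of type `(i, j)` -/
def Om (i j : V) : Finset (Finset (V × Bool)) := univ.filter (IsNear i j)

/-- the two elements of a cell -/
def cell (j : V) : Finset (V × Bool) := {(j, false), (j, true)}

@[simp] theorem mem_Om0 {S : Finset (V × Bool)} : S ∈ Om0 V ↔ IsCol S := by simp [Om0]

@[simp] theorem mem_Om {i j : V} {S : Finset (V × Bool)} : S ∈ Om i j ↔ IsNear i j S := by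
  simp [Om]

/-- weighted average over a finite set -/
noncomputable def av {X : Type*} (s : Finset X) (w g : X → ℝ) : ℝ :=
  (∑ x ∈ s, w x * g x) / ∑ x ∈ s, w x

/-- energy of a hub potential across cell `i` among the sets of type `(i, j)`, normalised -/
noncomputable def En (W u : Finset (V × Bool) → ℝ) (i j : V) : ℝ :=
  av (Om i j) W (fun Z => (u (Z.erase (i, false)) - u (Z.erase (i, true))) ^ 2)

/-- inequality (I1) -/
def I1 (W : Finset (V × Bool) → ℝ) : Prop :=
  ∀ (u : Finset (V × Bool) → ℝ) (i j : V), i ≠ j →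
    |av (Om0 V) W (fun Z => u (Z \ cell j)) -
        av (Om i j) W (fun Z => (u (Z.erase (i, false)) + u (Z.erase (i, true))) / 2)| ≤
      ∑ l ∈ univ.erase j, Real.sqrt (En W u l j)

/-- inequality (I2) -/
def I2 (W : Finset (V × Bool) → ℝ) : Prop :=
  ∀ (f u : Finset (V × Bool) → ℝ) (b : ℝ), (∀ Z ∈ Om0 V, 0 ≤ f Z ∧ f Z ≤ b) →
    av (Om0 V) W (fun Z => (f Z - av (Om0 V) W f) ^ 2) ≤
      b * ∑ k, (Real.sqrt (av (Om0 V) W (fun Z => (f Z - u (Z \ cell k)) ^ 2)) +
        (1 / 4) * ∑ i ∈ univ.erase k, Real.sqrt (En W u i k))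

/-! ### averages -/

section av

variable {X : Type*} {s : Finset X} {w : X → ℝ}

theorem av_mono (hw : ∀ x ∈ s, 0 ≤ w x) {g h : X → ℝ} (hgh : ∀ x ∈ s, g x ≤ h x) :
    av s w g ≤ av s w h := by
  unfold av
  refine div_le_div_of_nonneg_right ?_ (sum_nonneg hw)
  exact sum_le_sum fun x hx => mul_le_mul_of_nonneg_left (hgh x hx) (hw x hx)

theorem av_add (g h : X → ℝ) : av s w (fun x => g x + h x) = av s w g + av s w h := by
  unfold av
  rw [← add_div, ← sum_add_distrib]
  congr 1
  exact sum_congr rfl fun x _ => by ring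

theorem av_sub (g h : X → ℝ) : av s w (fun x => g x - h x) = av s w g - av s w h := by
  unfold av
  rw [← sub_div, ← sum_sub_distrib]
  congr 1
  exact sum_congr rfl fun x _ => by ring

theorem av_mul (c : ℝ) (g : X → ℝ) : av s w (fun x => c * g x) = c * av s w g := by
  unfold av
  rw [mul_div_assoc', mul_sum]
  congr 1
  exact sum_congr rfl fun x _ => by ring

theorem av_nonneg (hw : ∀ x ∈ s, 0 ≤ w x) {g : X → ℝ} (hg : ∀ x ∈ s, 0 ≤ g x) :
    0 ≤ av s w g := by
  unfold av
  exact div_nonneg (sum_nonneg fun x hx => mul_nonneg (hw x hx) (hg x hx)) (sum_nonneg hw)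

theorem av_const (hpos : 0 < ∑ x ∈ s, w x) (c : ℝ) : av s w (fun _ => c) = c := by
  unfold av
  rw [← sum_mul]
  field_simp

/-- Cauchy-Schwarz -/
theorem av_sq_le (hw : ∀ x ∈ s, 0 ≤ w x) (g : X → ℝ) :
    (av s w g) ^ 2 ≤ av s w (fun x => g x ^ 2) := by
  unfold av
  rcases (sum_nonneg hw).eq_or_lt with h0 | hpos
  · rw [← h0]; simp only [div_zero, ne_eq, OfNat.ofNat_ne_zero, not_false_eq_true, zero_pow, Std.le_refl]
  have cs := sum_mul_sq_le_sq_mul_sq s (fun x => Real.sqrt (w x)) (fun x => Real.sqrt (w x) * g x)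
  have e1 : ∑ x ∈ s, Real.sqrt (w x) * (Real.sqrt (w x) * g x) = ∑ x ∈ s, w x * g x :=
    sum_congr rfl fun x hx => by rw [← mul_assoc, Real.mul_self_sqrt (hw x hx)]
  have e2 : ∑ x ∈ s, Real.sqrt (w x) ^ 2 = ∑ x ∈ s, w x :=
    sum_congr rfl fun x hx => Real.sq_sqrt (hw x hx)
  have e3 : ∑ x ∈ s, (Real.sqrt (w x) * g x) ^ 2 = ∑ x ∈ s, w x * g x ^ 2 :=
    sum_congr rfl fun x hx => by rw [mul_pow, Real.sq_sqrt (hw x hx)]
  rw [e1, e2, e3] at cs
  rw [div_pow, div_le_div_iff₀ (by positivity) hpos]
  calc (∑ x ∈ s, w x * g x) ^ 2 * ∑ x ∈ s, w x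
      ≤ ((∑ x ∈ s, w x) * ∑ x ∈ s, w x * g x ^ 2) * ∑ x ∈ s, w x :=
        mul_le_mul_of_nonneg_right cs hpos.le
    _ = _ := by ring

theorem av_le_sqrt (hw : ∀ x ∈ s, 0 ≤ w x) (g : X → ℝ) :
    av s w g ≤ Real.sqrt (av s w (fun x => g x ^ 2)) :=
  Real.le_sqrt_of_sq_le (av_sq_le hw g)

end av

end Vale.Agent.P317.Window
end

section

/-!
# Stationary laws of the stages: definitions (interface between the math core and the algorithm)
-/

namespace Vale.Agent.P317.Alg

open Finset Window

variable {n : ℕ}

/-- code of an element -/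
def cd (p : Fin n × Bool) : ℕ := 2 * (p.1 : ℕ) + (if p.2 then 1 else 0)

theorem cd_injective : Function.Injective (cd : Fin n × Bool → ℕ) := by
  rintro ⟨i, b⟩ ⟨j, c⟩ h
  unfold cd at h
  have h1 : (i : ℕ) = j := by
    cases b <;> cases c <;> simp at h <;> omega
  have h2 : b = c := by
    cases b <;> cases c <;> simp at h ⊢ <;> (clear * - h1 h; omega)
  rw [h2, Fin.ext h1]

/-- the set of codes -/
def enc (Z : Finset (Fin n × Bool)) : Finset ℕ := Z.map ⟨cd, cd_injective⟩

/-- ordered pairs of distinct cells -/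
def prs (n : ℕ) : Finset (Fin n × Fin n) := univ.filter (fun p => p.1 ≠ p.2)

/-- the window: colourful sets and sets of type `(i, j)` -/
def win (n : ℕ) : Finset (Finset (Fin n × Bool)) := Om0 (Fin n) ∪ (prs n).biUnion fun p => Om p.1 p.2

namespace Par

variable (P : Par)

/-- rounded weight of stage `k`, without type weight -/
noncomputable def mu (k : ℕ) (S : Finset ℕ) : ℝ := (1 / 2) ^ (k * P.dfc S / P.n)

/-- full weight of stage `k` with history `I`, `D` -/
noncomputable def wt (I D : Finset ℕ) (k : ℕ) (S : Finset ℕ) : ℝ := 2 ^ P.pe I k S / 2 ^ P.qe D k S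

/-- `Z_0` -/
noncomputable def z0 (k : ℕ) : ℝ := ∑ Z ∈ Om0 (Fin P.n), P.mu k (enc Z)

/-- total weight (with type weight) of the type `(i, j)` -/
noncomputable def zt (I D : Finset ℕ) (k : ℕ) (i j : Fin P.n) : ℝ :=
  ∑ Z ∈ Om i j, P.wt I D k (enc Z)

/-- total weight -/
noncomputable def zz (I D : Finset ℕ) (k : ℕ) : ℝ := ∑ Z ∈ win P.n, P.wt I D k (enc Z)

/-- all type masses are within a factor `8` of the colourful mass -/
def Bal (I D : Finset ℕ) (k : ℕ) : Prop :=
  ∀ i j : Fin P.n, i ≠ j → P.z0 k ≤ 8 * P.zt I D k i j ∧ P.zt I D k i j ≤ 8 * P.z0 k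

/-- mean of `g` under the stationary law of stage `k` -/
noncomputable def law (I D : Finset ℕ) (k : ℕ) (g : Finset ℕ → ℝ) : ℝ :=
  (∑ Z ∈ win P.n, P.wt I D k (enc Z) * g (enc Z)) / P.zz I D k

end Par

/-! TARGET A3a (thread law).  With `P = ⟨oracles M₁ M₂, n, r, a, L⟩`, `M₁, M₂ : Matroid (Fin n)` of
rank `r` with ground set `univ`, `2 * n ≤ 2 ^ a ≤ 4 * n`, `1 ≤ n`:

theorem thread_law (I D k) (hB : ∀ κ ≤ k, P.Bal I D κ) (g) (h0 : ∀ S, 0 ≤ g S) (h1 : ∀ S, g S ≤ 1) :
    |Rnd.ex g (P.thread I D k) - P.law I D k g| ≤ (n ^ 2 + 8 * k) * Real.sqrt (C n / (L + 1))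

TARGET A3b (algorithm analysis) uses only `thread_law`, and facts on `z0`, `zt`, `dfc`. -/

end Vale.Agent.P317.Alg
end

section

open Matrix

namespace Vale.Agent.P317

theorem spectral_decomp {ι : Type*} [Fintype ι] [DecidableEq ι] (S : Matrix ι ι ℝ)
    (hS : S.IsHermitian) :
    ∃ (u : ι → ι → ℝ) (μ : ι → ℝ), (∀ i, S *ᵥ u i = μ i • u i) ∧ (∀ i, u i ⬝ᵥ u i = 1) ∧
      (∀ y : ι → ℝ, y ⬝ᵥ (S *ᵥ y) = ∑ i, μ i * (u i ⬝ᵥ y) ^ 2) := by
  refine ⟨fun i => (hS.eigenvectorBasis i).ofLp, hS.eigenvalues, ?_, ?_, ?_⟩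
  · intro i
    exact hS.mulVec_eigenvectorBasis i
  · intro i
    have h := hS.eigenvectorBasis.orthonormal.1 i
    have h2 : inner ℝ (hS.eigenvectorBasis i) (hS.eigenvectorBasis i) = (1 : ℝ) := by
      rw [real_inner_self_eq_norm_sq, h]; norm_num
    rw [EuclideanSpace.inner_eq_star_dotProduct] at h2
    simpa only [star_trivial] using h2
  · intro y
    have h := hS.eigenvectorBasis.sum_inner_mul_inner (WithLp.toLp 2 y) (WithLp.toLp 2 (S *ᵥ y))
    simp only [EuclideanSpace.inner_eq_star_dotProduct, star_trivial] at h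
    rw [dotProduct_comm y, ← h]
    refine Finset.sum_congr rfl fun i _ => ?_
    have h3 : S *ᵥ y ⬝ᵥ (hS.eigenvectorBasis i).ofLp = hS.eigenvalues i *
        ((hS.eigenvectorBasis i).ofLp ⬝ᵥ y) := by
      have hsym : Sᵀ = S := by simpa using hS.eq
      rw [dotProduct_comm, dotProduct_mulVec, ← mulVec_transpose, hsym, hS.mulVec_eigenvectorBasis i]
      simp only [smul_dotProduct, smul_eq_mul]
    rw [h3]
    ring

/-- Abstract trickle-down: a reversible weighted graph whose walk operator `P` satisfies
`⟨x, P x⟩ ≤ ⟨P x, P x⟩` and which is connected has no positive eigenvalue off the constants. -/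
theorem trickle {ι : Type*} [Fintype ι] [DecidableEq ι] (A : ι → ι → ℝ)
    (hsym : ∀ e f, A e f = A f e) (hnn : ∀ e f, 0 ≤ A e f) (w : ι → ℝ)
    (hw : ∀ e, ∑ f, A e f = w e)
    (hI : ∀ x : ι → ℝ, ∑ e, ∑ f, A e f * x e * x f ≤ ∑ e, (∑ f, A e f * x f) ^ 2 / w e)
    (hconn : ∀ x : ι → ℝ, (∀ e f, 0 < A e f → x e = x f) →
      ∀ e f, 0 < w e → 0 < w f → x e = x f)
    (x₀ : ι → ℝ) (hx₀ : ∑ e, w e * x₀ e = 0) :
    ∑ e, ∑ f, A e f * x₀ e * x₀ f ≤ 0 := by
  have hwnn : ∀ e, 0 ≤ w e := fun e => by rw [← hw e]; exact Finset.sum_nonneg fun f _ => hnn e f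
  have hzero : ∀ e, w e = 0 → ∀ f, A e f = 0 := by
    intro e he f
    have h := (Finset.sum_eq_zero_iff_of_nonneg (fun f _ => hnn e f)).1 ((hw e).trans he)
    exact h f (Finset.mem_univ f)
  obtain ⟨S, hSdef⟩ : ∃ S : Matrix ι ι ℝ, ∀ e f, S e f =
      A e f / (Real.sqrt (w e) * Real.sqrt (w f)) :=
    ⟨Matrix.of fun e f => A e f / (Real.sqrt (w e) * Real.sqrt (w f)), fun _ _ => rfl⟩
  have hSherm : S.IsHermitian := by
    ext e f
    rw [conjTranspose_apply, star_trivial, hSdef, hSdef, hsym f e, mul_comm (Real.sqrt (w f))]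
  obtain ⟨u, μ, hu1, hu2, hu3⟩ := spectral_decomp S hSherm
  have hSy : ∀ y : ι → ℝ, ∀ e, (S *ᵥ y) e =
      (∑ f, A e f * (y f / Real.sqrt (w f))) / Real.sqrt (w e) := by
    intro y e
    simp only [mulVec, dotProduct, hSdef]
    rw [Finset.sum_div]
    refine Finset.sum_congr rfl fun f _ => ?_
    rw [div_mul_eq_mul_div, mul_div_assoc', div_div, mul_comm (Real.sqrt (w e))]
  have hq : ∀ y : ι → ℝ, y ⬝ᵥ (S *ᵥ y) =
      ∑ e, ∑ f, A e f * (y e / Real.sqrt (w e)) * (y f / Real.sqrt (w f)) := by
    intro y
    simp only [dotProduct, hSy]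
    refine Finset.sum_congr rfl fun e _ => ?_
    rw [mul_div_assoc', mul_comm (y e), ← mul_div_assoc', Finset.sum_mul]
    refine Finset.sum_congr rfl fun f _ => ?_
    ring
  have hqq : ∀ y : ι → ℝ, (S *ᵥ y) ⬝ᵥ (S *ᵥ y) =
      ∑ e, (∑ f, A e f * (y f / Real.sqrt (w f))) ^ 2 / w e := by
    intro y
    simp only [dotProduct, hSy]
    refine Finset.sum_congr rfl fun e _ => ?_
    rw [← sq, div_pow, Real.sq_sqrt (hwnn e)]
  have hle : ∀ y : ι → ℝ, y ⬝ᵥ (S *ᵥ y) ≤ (S *ᵥ y) ⬝ᵥ (S *ᵥ y) := by
    intro y
    rw [hq, hqq]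
    exact hI fun e => y e / Real.sqrt (w e)
  -- eigenvalues
  have hμ : ∀ i, μ i ≤ μ i ^ 2 := by
    intro i
    have h := hle (u i)
    rw [hu1 i] at h
    simp only [dotProduct_smul, smul_dotProduct, hu2 i, smul_eq_mul, mul_one] at h
    linarith
  set y₀ : ι → ℝ := fun e => Real.sqrt (w e) * x₀ e with hy₀
  have hpos : ∀ e, y₀ e / Real.sqrt (w e) = if w e = 0 then 0 else x₀ e := by
    intro e
    by_cases h : w e = 0
    · simp [h]
    · have : Real.sqrt (w e) ≠ 0 := by
        rw [Real.sqrt_ne_zero (hwnn e)]; exact h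
      simp only [hy₀, h, if_false]
      (clear * - this; field_simp)
  have hfin : ∑ e, ∑ f, A e f * x₀ e * x₀ f = y₀ ⬝ᵥ (S *ᵥ y₀) := by
    rw [hq]
    refine Finset.sum_congr rfl fun e _ => Finset.sum_congr rfl fun f _ => ?_
    rw [hpos, hpos]
    by_cases he : w e = 0
    · simp [hzero e he f]
    · by_cases hf : w f = 0
      · have : A e f = 0 := by rw [hsym]; exact hzero f hf e
        simp [this]
      · simp [he, hf]
  rw [hfin, hu3]
  refine Finset.sum_nonpos fun i _ => ?_
  by_cases hi : μ i ≤ 0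
  · exact mul_nonpos_of_nonpos_of_nonneg hi (sq_nonneg _)
  · push Not at hi
    have h1 : 1 ≤ μ i := by
      have := hμ i
      by_contra hcon
      push Not at hcon
      nlinarith only [this, hi, hcon]
    -- the eigenvector is constant on the support
    set x : ι → ℝ := fun e => u i e / Real.sqrt (w e) with hx
    have hconst : ∀ e f, 0 < A e f → x e = x f := by
      have hE : ∑ e, ∑ f, A e f * (x e - x f) ^ 2 ≤ 0 := by
        have e1 : ∑ e, ∑ f, A e f * (x e - x f) ^ 2 =
            2 * ∑ e, w e * x e ^ 2 - 2 * ∑ e, ∑ f, A e f * x e * x f := by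
          have a1 : ∑ e, ∑ f, A e f * (x e) ^ 2 = ∑ e, w e * x e ^ 2 := by
            refine Finset.sum_congr rfl fun e _ => ?_
            rw [← Finset.sum_mul, hw]
          have a2 : ∑ e, ∑ f, A e f * (x f) ^ 2 = ∑ e, w e * x e ^ 2 := by
            rw [Finset.sum_comm]
            refine Finset.sum_congr rfl fun e _ => ?_
            rw [← hw e, Finset.sum_mul]
            exact Finset.sum_congr rfl fun f _ => by rw [hsym]
          have a3 : ∑ e, ∑ f, A e f * (x e - x f) ^ 2 = ∑ e, ∑ f, A e f * (x e) ^ 2 +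
              ∑ e, ∑ f, A e f * (x f) ^ 2 - 2 * ∑ e, ∑ f, A e f * x e * x f := by
            rw [Finset.mul_sum, ← Finset.sum_add_distrib, ← Finset.sum_sub_distrib]
            refine Finset.sum_congr rfl fun e _ => ?_
            rw [Finset.mul_sum, ← Finset.sum_add_distrib, ← Finset.sum_sub_distrib]
            exact Finset.sum_congr rfl fun f _ => by ring
          rw [a3, a1, a2]; ring
        have e2 : ∑ e, ∑ f, A e f * x e * x f = μ i := by
          have := hq (u i)
          rw [hu1 i, dotProduct_smul, hu2 i, smul_eq_mul, mul_one] at this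
          exact this.symm
        have e3 : ∑ e, w e * x e ^ 2 ≤ 1 := by
          have h2 := hu2 i
          simp only [dotProduct] at h2
          rw [← h2]
          refine Finset.sum_le_sum fun e _ => ?_
          simp only [hx, div_pow, Real.sq_sqrt (hwnn e)]
          by_cases h : w e = 0
          · simp only [h, zero_mul]; exact mul_self_nonneg _
          · rw [mul_div_cancel₀ _ h, sq]
        rw [e1, e2]
        linarith only [h1, e3]
      have hall : ∀ e f, A e f * (x e - x f) ^ 2 = 0 := by
        have hnn2 : ∀ e f, 0 ≤ A e f * (x e - x f) ^ 2 := fun e f =>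
          mul_nonneg (hnn e f) (sq_nonneg _)
        have h0 : ∑ e, ∑ f, A e f * (x e - x f) ^ 2 = 0 :=
          le_antisymm hE (Finset.sum_nonneg fun e _ => Finset.sum_nonneg fun f _ => hnn2 e f)
        intro e f
        have h3 := (Finset.sum_eq_zero_iff_of_nonneg
          (fun e _ => Finset.sum_nonneg fun f _ => hnn2 e f)).1 h0 e (Finset.mem_univ e)
        exact (Finset.sum_eq_zero_iff_of_nonneg (fun f _ => hnn2 e f)).1 h3 f (Finset.mem_univ f)
      intro e f hef
      have h4 := hall e f
      rcases mul_eq_zero.1 h4 with h | h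
      · exact absurd h hef.ne'
      · have := pow_eq_zero_iff (two_ne_zero) |>.1 h
        linarith only [this]
    have hc := hconn x hconst
    have horth : u i ⬝ᵥ y₀ = 0 := by
      by_cases hex : ∃ e₀, 0 < w e₀
      · obtain ⟨e₀, he₀⟩ := hex
        have : ∀ e, u i e * y₀ e = x e₀ * (w e * x₀ e) := by
          intro e
          rcases (hwnn e).eq_or_lt with h | h
          · simp [hy₀, ← h]
          · have h5 := hc e e₀ h he₀
            have hs : Real.sqrt (w e) ≠ 0 := (Real.sqrt_pos.2 h).ne'
            have h6 : u i e = x e₀ * Real.sqrt (w e) := by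
              rw [← h5, hx]; (clear * - hs; field_simp)
            rw [h6, hy₀]
            have h7 := Real.mul_self_sqrt (hwnn e)
            calc x e₀ * Real.sqrt (w e) * (Real.sqrt (w e) * x₀ e)
                = x e₀ * ((Real.sqrt (w e) * Real.sqrt (w e)) * x₀ e) := by ring
              _ = _ := by rw [h7]
        simp only [dotProduct, this, ← Finset.mul_sum, hx₀, mul_zero]
      · push Not at hex
        have : ∀ e, y₀ e = 0 := fun e => by
          have : w e = 0 := le_antisymm (hex e) (hwnn e)
          simp [hy₀, this]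
        simp only [dotProduct, this, mul_zero, Finset.sum_const_zero]
    rw [horth]; simp

end Vale.Agent.P317
end

section

/-!
# P317: Hodge-Riemann property of the weights `t ^ r(S)` for a matroid rank function `r`
-/

namespace Vale.Agent.P317

open Finset

variable {α : Type*} [DecidableEq α] [Fintype α]

/-- Iterated derivative of the weight `W` at `ρ` in the directions `ws`. -/
def DW (W : Finset α → ℝ) : List (α → ℝ) → Finset α → ℝ
  | [], ρ => W ρ
  | w :: ws, ρ => ∑ e ∈ ρᶜ, w e * DW W ws (insert e ρ)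

variable {W : Finset α → ℝ}

@[simp] theorem DW_nil (ρ : Finset α) : DW W [] ρ = W ρ := rfl

theorem DW_cons (w : α → ℝ) (ws : List (α → ℝ)) (ρ : Finset α) :
    DW W (w :: ws) ρ = ∑ e ∈ ρᶜ, w e * DW W ws (insert e ρ) := rfl

/-- Coefficients of the second derivative. -/
def Q2 (W : Finset α → ℝ) (ws : List (α → ℝ)) (ρ : Finset α) (e f : α) : ℝ :=
  if e ∈ ρ ∨ f ∈ ρ ∨ e = f then 0 else DW W ws (insert e (insert f ρ))

theorem Q2_symm (ws : List (α → ℝ)) (ρ : Finset α) (e f : α) :
    Q2 W ws ρ e f = Q2 W ws ρ f e := by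
  unfold Q2
  rw [Finset.insert_comm]
  by_cases h : e ∈ ρ ∨ f ∈ ρ ∨ e = f
  · rw [if_pos h, if_pos (by (clear * - h; tauto))]
  · rw [if_neg h, if_neg (by tauto)]

theorem sum_compl_eq (ρ : Finset α) (g : α → ℝ) :
    ∑ e ∈ ρᶜ, g e = ∑ e, if e ∈ ρ then 0 else g e := by
  rw [← Finset.sum_filter_add_sum_filter_not Finset.univ (fun e => e ∈ ρ)]
  have h1 : ∑ x ∈ Finset.univ.filter (fun e => e ∈ ρ), (if x ∈ ρ then 0 else g x) = 0 :=
    Finset.sum_eq_zero fun x hx => by rw [if_pos (Finset.mem_filter.1 hx).2]
  rw [h1, zero_add]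
  have h2 : Finset.univ.filter (fun e => ¬ e ∈ ρ) = ρᶜ := by ext; simp only [mem_filter, mem_univ, true_and, mem_compl]
  rw [h2]
  exact Finset.sum_congr rfl fun x hx => by rw [if_neg (Finset.mem_compl.1 hx)]

theorem DW_two (x y : α → ℝ) (ws : List (α → ℝ)) (ρ : Finset α) :
    DW W (x :: y :: ws) ρ = ∑ e, ∑ f, x e * y f * Q2 W ws ρ e f := by
  rw [DW_cons, sum_compl_eq]
  refine Finset.sum_congr rfl fun e _ => ?_
  by_cases he : e ∈ ρ
  · rw [if_pos he]
    symm
    refine Finset.sum_eq_zero fun f _ => ?_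
    unfold Q2
    rw [if_pos (Or.inl he), mul_zero]
  · rw [if_neg he, DW_cons, sum_compl_eq, Finset.mul_sum]
    refine Finset.sum_congr rfl fun f _ => ?_
    unfold Q2
    by_cases hf : f ∈ insert e ρ
    · rw [if_pos hf, if_pos, mul_zero, mul_zero]
      rw [Finset.mem_insert] at hf
      rcases hf with hf | hf
      · exact Or.inr (Or.inr hf.symm)
      · exact Or.inr (Or.inl hf)
    · rw [if_neg hf, if_neg, Finset.insert_comm f e, mul_assoc]
      rw [Finset.mem_insert] at hf
      rintro (h | h | h)
      · exact he h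
      · exact hf (Or.inr h)
      · exact hf (Or.inl h.symm)

theorem DW_swap (x y : α → ℝ) (ws : List (α → ℝ)) (ρ : Finset α) :
    DW W (x :: y :: ws) ρ = DW W (y :: x :: ws) ρ := by
  rw [DW_two, DW_two, Finset.sum_comm]
  refine Finset.sum_congr rfl fun e _ => Finset.sum_congr rfl fun f _ => ?_
  rw [Q2_symm, mul_comm (x f)]

theorem DW_cons_congr (w : α → ℝ) {ws ws' : List (α → ℝ)} (h : ∀ ρ, DW W ws ρ = DW W ws' ρ)
    (ρ : Finset α) : DW W (w :: ws) ρ = DW W (w :: ws') ρ := by
  rw [DW_cons, DW_cons]
  exact Finset.sum_congr rfl fun e _ => by rw [h]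

theorem DW_perm {ws ws' : List (α → ℝ)} (h : ws.Perm ws') (ρ : Finset α) :
    DW W ws ρ = DW W ws' ρ := by
  induction h generalizing ρ with
  | nil => rfl
  | cons x _ ih => exact DW_cons_congr x ih ρ
  | swap x y l => exact DW_swap y x l ρ
  | trans _ _ ih1 ih2 => rw [ih1, ih2]

theorem DW_nonneg (hW : ∀ S, 0 ≤ W S) {ws : List (α → ℝ)} (hws : ∀ w ∈ ws, ∀ e, 0 ≤ w e)
    (ρ : Finset α) : 0 ≤ DW W ws ρ := by
  induction ws generalizing ρ with
  | nil => exact hW ρ
  | cons w ws ih =>
    rw [DW_cons]
    refine Finset.sum_nonneg fun e _ => mul_nonneg (hws w (by simp) e) (ih ?_ _)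
    intro w' hw'
    exact hws w' (by simp [hw'])

theorem DW_pos (hW : ∀ S, 0 < W S) {ws : List (α → ℝ)} (hws : ∀ w ∈ ws, ∀ e, 0 < w e)
    (ρ : Finset α) (hρ : ws.length ≤ ρᶜ.card) : 0 < DW W ws ρ := by
  induction ws generalizing ρ with
  | nil => exact hW ρ
  | cons w ws ih =>
    rw [DW_cons]
    rw [List.length_cons] at hρ
    have hne : ρᶜ.Nonempty := Finset.card_pos.1 (by omega)
    refine Finset.sum_pos (fun e he => mul_pos (hws w (by simp) e) (ih ?_ _ ?_)) hne
    · intro w' hw'
      exact hws w' (by simp [hw'])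
    · rw [Finset.compl_insert, Finset.card_erase_of_mem he]
      omega

theorem DW_eq_zero {ws : List (α → ℝ)} (ρ : Finset α) (hρ : ρᶜ.card < ws.length) :
    DW W ws ρ = 0 := by
  induction ws generalizing ρ with
  | nil => simp at hρ
  | cons w ws ih =>
    rw [DW_cons]
    rw [List.length_cons] at hρ
    refine Finset.sum_eq_zero fun e he => ?_
    rw [ih, mul_zero]
    rw [Finset.compl_insert, Finset.card_erase_of_mem he]
    have : 0 < ρᶜ.card := Finset.card_pos.2 ⟨e, he⟩
    omega

/-! ### reverse Cauchy-Schwarz -/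

/-- If the quadratic form `Q` is nonpositive on the kernel of a linear functional, it satisfies the
reverse Cauchy-Schwarz inequality. -/
theorem reverse_cs {V : Type*} [AddCommGroup V] [Module ℝ V] (Q : V → V → ℝ) (L : V → ℝ)
    (hadd : ∀ x y z, Q (x + y) z = Q x z + Q y z) (hsmul : ∀ (c : ℝ) x z, Q (c • x) z = c * Q x z)
    (hsymm : ∀ x y, Q x y = Q y x)
    (hLadd : ∀ x y, L (x + y) = L x + L y) (hLsmul : ∀ (c : ℝ) x, L (c • x) = c * L x)
    (hneg : ∀ z, L z = 0 → Q z z ≤ 0) (x y : V) (hy : 0 ≤ Q y y) :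
    Q x x * Q y y ≤ Q x y ^ 2 := by
  by_contra hcon
  push Not at hcon
  have hXY : 0 < Q x x * Q y y := lt_of_le_of_lt (sq_nonneg _) hcon
  have hY : 0 < Q y y := by
    rcases hy.lt_or_eq with h | h
    · exact h
    · rw [← h] at hXY; simp at hXY
  have hX : 0 < Q x x := by
    by_contra h
    push Not at h
    have := mul_nonpos_of_nonpos_of_nonneg h hy
    linarith only [hXY, this]
  have hLy : L y ≠ 0 := fun h => absurd (hneg y h) (not_le.2 hY)
  have key := hneg (L y • x + (-(L x)) • y) (by rw [hLadd, hLsmul, hLsmul]; ring)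
  have e1 : Q (L y • x + (-(L x)) • y) (L y • x + (-(L x)) • y) =
      L y ^ 2 * Q x x - 2 * (L y * L x) * Q x y + L x ^ 2 * Q y y := by
    have hadd' : ∀ x y z, Q z (x + y) = Q z x + Q z y := fun x y z => by
      rw [hsymm, hadd, hsymm x, hsymm y]
    have hsmul' : ∀ (c : ℝ) x z, Q z (c • x) = c * Q z x := fun c x z => by
      rw [hsymm, hsmul, hsymm x]
    simp only [hadd, hadd', hsmul, hsmul']
    rw [hsymm y x]
    ring
  rw [e1] at key
  -- multiply by Q y y
  have h3 : 0 < L y ^ 2 * (Q x x * Q y y - Q x y ^ 2) := by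
    apply mul_pos (by positivity)
    linarith only [hcon]
  nlinarith only [h3, hY, key, sq_nonneg (L x * Q y y - L y * Q x y)]

/-! ### rank functions -/

/-- Local axioms of a matroid rank function. -/
structure IsRk (r : Finset α → ℕ) : Prop where
  le_insert : ∀ S e, r S ≤ r (insert e S)
  insert_le : ∀ S e, r (insert e S) ≤ r S + 1
  submod : ∀ S e f, r (insert e S) = r S → r (insert f S) = r S →
    r (insert e (insert f S)) = r S

/-- The weights. -/
def wt (t : ℝ) (r : Finset α → ℕ) (S : Finset α) : ℝ := t ^ r S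

theorem wt_pos {t : ℝ} (ht : 0 < t) (r : Finset α → ℕ) (S : Finset α) : 0 < wt t r S :=
  pow_pos ht _

section base

variable {r : Finset α → ℕ} (hr : IsRk r) {t : ℝ} (ρ : Finset α)

/-- parallel classes of non-loops in the contraction by `ρ` -/
def par (r : Finset α → ℕ) (ρ : Finset α) (e : α) : Finset α :=
  Finset.univ.filter fun f => r (insert e (insert f ρ)) = r ρ + 1 ∧ r (insert f ρ) = r ρ + 1

include hr in
theorem r_insert (e : α) : r (insert e ρ) = r ρ ∨ r (insert e ρ) = r ρ + 1 := by
  have := hr.le_insert ρ e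
  have := hr.insert_le ρ e
  omega

include hr in
theorem par_trans {e f g : α} (hf : r (insert f ρ) = r ρ + 1)
    (h1 : r (insert e (insert f ρ)) = r ρ + 1)
    (h2 : r (insert g (insert f ρ)) = r ρ + 1) (he : r (insert e ρ) = r ρ + 1) :
    r (insert e (insert g ρ)) = r ρ + 1 := by
  have h3 := hr.submod (insert f ρ) e g (by rw [h1, hf]) (by rw [h2, hf])
  have h4 := hr.le_insert (insert e (insert g ρ)) f
  have h5 : insert f (insert e (insert g ρ)) = insert e (insert g (insert f ρ)) := by
    rw [Finset.insert_comm f e, Finset.insert_comm f g]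
  rw [h5, h3, hf] at h4
  have h6 := hr.le_insert (insert e ρ) g
  rw [Finset.insert_comm g e, he] at h6
  omega

include hr in
theorem par_eq_iff {e f : α} (he : r (insert e ρ) = r ρ + 1) (hf : r (insert f ρ) = r ρ + 1) :
    par r ρ e = par r ρ f ↔ r (insert e (insert f ρ)) = r ρ + 1 := by
  constructor
  · intro h
    have hmem : f ∈ par r ρ f := by
      unfold par
      rw [Finset.mem_filter, Finset.insert_idem]
      exact ⟨Finset.mem_univ _, hf, hf⟩
    rw [← h] at hmem
    unfold par at hmem
    rw [Finset.mem_filter] at hmem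
    exact hmem.2.1
  · intro h
    ext g
    unfold par
    simp only [Finset.mem_filter, Finset.mem_univ, true_and]
    constructor
    · rintro ⟨h1, h2⟩
      refine ⟨?_, h2⟩
      rw [Finset.insert_comm] at h1 h
      exact (par_trans hr ρ he h h1 hf)
    · rintro ⟨h1, h2⟩
      refine ⟨?_, h2⟩
      rw [Finset.insert_comm] at h1
      exact (par_trans hr ρ hf h h1 he)

/-- the coefficient of a point: `t` for a non-loop, `1` for a loop, `0` inside `ρ` -/
def ac (t : ℝ) (r : Finset α → ℕ) (ρ : Finset α) (e : α) : ℝ :=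
  if e ∈ ρ then 0 else if r (insert e ρ) = r ρ then 1 else t

/-- the kernel of parallel classes -/
def pk (r : Finset α → ℕ) (ρ : Finset α) (e f : α) : ℝ :=
  if (e ∉ ρ ∧ r (insert e ρ) = r ρ + 1) ∧ (f ∉ ρ ∧ r (insert f ρ) = r ρ + 1) ∧
    par r ρ e = par r ρ f then 1 else 0

include hr in
theorem Q2_base (e f : α) : Q2 (wt t r) [] ρ e f = t ^ r ρ * (ac t r ρ e * ac t r ρ f -
    (t ^ 2 - t) * pk r ρ e f - if e = f then ac t r ρ e else 0) := by
  unfold Q2
  by_cases he : e ∈ ρ
  · rw [if_pos (Or.inl he)]
    unfold ac pk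
    simp [he]
  by_cases hf : f ∈ ρ
  · rw [if_pos (Or.inr (Or.inl hf))]
    have hef : e ≠ f := fun h => he (h ▸ hf)
    unfold ac pk
    simp only [hf, ↓reduceIte, mul_zero, not_true_eq_false, insert_eq_of_mem, Nat.left_eq_add, one_ne_zero, and_self, false_and, and_false, sub_self, hef]
  by_cases hef : e = f
  · subst hef
    rw [if_pos (Or.inr (Or.inr rfl)), if_pos rfl]
    rcases r_insert hr ρ e with h | h
    · unfold ac pk
      rw [if_neg he, if_pos h, if_neg (by rintro ⟨⟨_, h'⟩, _⟩; omega)]
      ring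
    · unfold ac pk
      rw [if_neg he, if_neg (by omega), if_pos ⟨⟨he, h⟩, ⟨he, h⟩, rfl⟩]
      ring
  · rw [if_neg (by tauto), if_neg hef, DW_nil]
    unfold wt ac pk
    rw [if_neg he, if_neg hf]
    rcases r_insert hr ρ e with h | h <;> rcases r_insert hr ρ f with h' | h'
    · rw [hr.submod ρ e f h h', if_pos h, if_pos h', if_neg (by rintro ⟨⟨_, h''⟩, _⟩; omega)]
      ring
    · have h1 : r (insert e (insert f ρ)) = r ρ + 1 := by
        have h2 := hr.le_insert (insert f ρ) e
        have h3 := hr.insert_le (insert f ρ) e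
        have h4 := hr.insert_le (insert e ρ) f
        rw [Finset.insert_comm] at h4
        omega
      rw [h1, if_pos h, if_neg (by omega), if_neg (by rintro ⟨⟨_, h''⟩, _⟩; omega)]
      ring
    · have h1 : r (insert e (insert f ρ)) = r ρ + 1 := by
        have h2 := hr.le_insert (insert e ρ) f
        rw [Finset.insert_comm] at h2
        have h3 := hr.insert_le (insert f ρ) e
        (clear * - h h' h2 h3; omega)
      rw [h1, if_neg (by omega), if_pos h', if_neg (by rintro ⟨_, ⟨_, h''⟩, _⟩; omega)]
      ring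
    · rw [if_neg (by omega), if_neg (by omega)]
      by_cases hp : par r ρ e = par r ρ f
      · rw [if_pos ⟨⟨he, h⟩, ⟨hf, h'⟩, hp⟩, (par_eq_iff hr ρ h h').1 hp]
        ring
      · rw [if_neg (by (clear * - hp; tauto))]
        have h1 : r (insert e (insert f ρ)) = r ρ + 2 := by
          have h2 := hr.le_insert (insert f ρ) e
          have h3 := hr.insert_le (insert f ρ) e
          have h4 : r (insert e (insert f ρ)) ≠ r ρ + 1 := fun h5 =>
            hp ((par_eq_iff hr ρ h h').2 h5)
          omega
        rw [h1]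
        ring

theorem pk_nonneg (x : α → ℝ) : 0 ≤ ∑ e, ∑ f, x e * x f * pk r ρ e f := by
  classical
  have h1 : ∑ e, ∑ f, x e * x f * pk r ρ e f =
      ∑ c : Finset α, (∑ e, if (e ∉ ρ ∧ r (insert e ρ) = r ρ + 1) ∧ par r ρ e = c
        then x e else 0) ^ 2 := by
    simp_rw [sq, Finset.sum_mul_sum]
    rw [Finset.sum_comm]
    simp_rw [Finset.sum_comm (s := (Finset.univ : Finset (Finset α)))]
    rw [Finset.sum_comm]
    refine Finset.sum_congr rfl fun e _ => Finset.sum_congr rfl fun f _ => ?_
    unfold pk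
    by_cases he : e ∉ ρ ∧ r (insert e ρ) = r ρ + 1
    · by_cases hf : f ∉ ρ ∧ r (insert f ρ) = r ρ + 1
      · by_cases hp : par r ρ e = par r ρ f
        · rw [if_pos ⟨he, hf, hp⟩, Finset.sum_eq_single (par r ρ f)]
          · rw [if_pos ⟨he, hp⟩, if_pos ⟨hf, rfl⟩, mul_one]
          · intro c _ hc
            rw [if_neg (by rintro ⟨_, h⟩; exact hc (h.symm.trans hp)), zero_mul]
          · simp only [mem_univ, not_true_eq_false, and_true, mul_ite, ite_mul, zero_mul, mul_zero, ite_eq_right_iff, mul_eq_zero, and_imp, IsEmpty.forall_iff]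
        · rw [if_neg (by tauto), mul_zero]
          symm
          refine Finset.sum_eq_zero fun c _ => ?_
          by_cases hc : par r ρ e = c
          · rw [if_neg (show ¬ ((f ∉ ρ ∧ r (insert f ρ) = r ρ + 1) ∧ par r ρ f = c) from
              fun h => hp (hc.trans h.2.symm)), mul_zero]
          · rw [if_neg (by (clear * - he hf hc; tauto)), zero_mul]
      · rw [if_neg (by (clear * - he hf; tauto)), mul_zero]
        symm
        refine Finset.sum_eq_zero fun c _ => ?_
        rw [if_neg (show ¬ ((f ∉ ρ ∧ r (insert f ρ) = r ρ + 1) ∧ par r ρ f = c) from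
              fun h => hf h.1), mul_zero]
    · rw [if_neg (by (clear * - he; tauto)), mul_zero]
      symm
      refine Finset.sum_eq_zero fun c _ => ?_
      rw [if_neg (show ¬ ((e ∉ ρ ∧ r (insert e ρ) = r ρ + 1) ∧ par r ρ e = c) from
              fun h => he h.1), zero_mul]
  rw [h1]
  exact Finset.sum_nonneg fun c _ => sq_nonneg _

include hr in
theorem base_neg (ht : 1 ≤ t) (x : α → ℝ) (hx : ∑ e, ac t r ρ e * x e = 0) :
    DW (wt t r) (x :: x :: []) ρ ≤ 0 := by
  rw [DW_two]
  have h1 : ∑ e, ∑ f, x e * x f * Q2 (wt t r) [] ρ e f = t ^ r ρ * ((∑ e, ac t r ρ e * x e) ^ 2 -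
      (t ^ 2 - t) * (∑ e, ∑ f, x e * x f * pk r ρ e f) - ∑ e, ac t r ρ e * x e ^ 2) := by
    rw [sq, Finset.sum_mul_sum, Finset.mul_sum, ← Finset.sum_sub_distrib, ← Finset.sum_sub_distrib,
      Finset.mul_sum]
    refine Finset.sum_congr rfl fun e _ => ?_
    have h2 : ac t r ρ e * x e ^ 2 = ∑ f, x e * x f * (if e = f then ac t r ρ e else 0) := by
      rw [Finset.sum_eq_single e]
      · rw [if_pos rfl]; ring
      · intro f _ hf
        rw [if_neg (Ne.symm hf), mul_zero]
      · simp only [mem_univ, not_true_eq_false, ↓reduceIte, mul_eq_zero, or_self, IsEmpty.forall_iff]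
    rw [h2, Finset.mul_sum, ← Finset.sum_sub_distrib, ← Finset.sum_sub_distrib, Finset.mul_sum]
    refine Finset.sum_congr rfl fun f _ => ?_
    rw [Q2_base hr]
    ring
  rw [h1, hx]
  have h3 : 0 ≤ ∑ e, ac t r ρ e * x e ^ 2 := Finset.sum_nonneg fun e _ => by
    refine mul_nonneg ?_ (sq_nonneg _)
    unfold ac
    split_ifs
    · exact le_rfl
    · exact zero_le_one
    · linarith only [ht]
  have h4 := mul_nonneg (show 0 ≤ t ^ 2 - t by nlinarith only [ht]) (pk_nonneg (r := r) ρ x)
  have h5 : 0 < t ^ r ρ := pow_pos (by linarith only [ht]) _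
  nlinarith only [h3, h5, h4]

end base

/-! ### linearity -/

theorem DW_add (x y : α → ℝ) (ws : List (α → ℝ)) (ρ : Finset α) :
    DW W ((x + y) :: ws) ρ = DW W (x :: ws) ρ + DW W (y :: ws) ρ := by
  rw [DW_cons, DW_cons, DW_cons, ← Finset.sum_add_distrib]
  exact Finset.sum_congr rfl fun e _ => by rw [Pi.add_apply]; ring

theorem DW_smul (c : ℝ) (x : α → ℝ) (ws : List (α → ℝ)) (ρ : Finset α) :
    DW W ((c • x) :: ws) ρ = c * DW W (x :: ws) ρ := by
  rw [DW_cons, DW_cons, Finset.mul_sum]
  exact Finset.sum_congr rfl fun e _ => by rw [Pi.smul_apply, smul_eq_mul]; ring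

/-- The reverse Cauchy-Schwarz inequality follows from negativity on a hyperplane. -/
theorem DW_reverse (ws : List (α → ℝ)) (ρ : Finset α) (L : (α → ℝ) → ℝ)
    (hLadd : ∀ x y, L (x + y) = L x + L y) (hLsmul : ∀ (c : ℝ) x, L (c • x) = c * L x)
    (hneg : ∀ z, L z = 0 → DW W (z :: z :: ws) ρ ≤ 0) (x y : α → ℝ)
    (hy : 0 ≤ DW W (y :: y :: ws) ρ) :
    DW W (x :: x :: ws) ρ * DW W (y :: y :: ws) ρ ≤ DW W (x :: y :: ws) ρ ^ 2 :=
  reverse_cs (fun x y => DW W (x :: y :: ws) ρ) L (fun x y z => DW_add x y (z :: ws) ρ)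
    (fun c x z => DW_smul c x (z :: ws) ρ) (fun x y => DW_swap x y ws ρ) hLadd hLsmul hneg x y hy

/-! ### trickle down -/

/-- The Hodge-Riemann (reverse Cauchy-Schwarz) property at `ws`. -/
def HRat (W : Finset α → ℝ) (ws : List (α → ℝ)) (ρ : Finset α) : Prop :=
  ∀ x y : α → ℝ, (∀ e, 0 ≤ y e) →
    DW W (x :: x :: ws) ρ * DW W (y :: y :: ws) ρ ≤ DW W (x :: y :: ws) ρ ^ 2

theorem hr_step (hW : ∀ S, 0 < W S) (ws : List (α → ℝ)) (hws : ∀ w ∈ ws, ∀ e, 0 < w e)
    (w : α → ℝ) (hw : ∀ e, 0 < w e) (ρ : Finset α)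
    (ih : ∀ e, e ∉ ρ → HRat W ws (insert e ρ)) : HRat W (w :: ws) ρ := by
  have hWn : ∀ S, 0 ≤ W S := fun S => (hW S).le
  have hwsn : ∀ v ∈ ws, ∀ e, 0 ≤ v e := fun v hv e => (hws v hv e).le
  intro x y hy
  by_cases hcard : ρᶜ.card < ws.length + 3
  · rw [DW_eq_zero (ws := x :: x :: w :: ws) ρ (by simp only [List.length_cons]; omega), zero_mul]
    exact sq_nonneg _
  push Not at hcard
  -- the matrix
  set A : α → α → ℝ := fun e f => w e * w f * Q2 W (w :: ws) ρ e f with hA
  set m : α → ℝ := fun e => ∑ f, A e f with hm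
  have hQnn : ∀ e f, 0 ≤ Q2 W (w :: ws) ρ e f := by
    intro e f
    unfold Q2
    split_ifs
    · exact le_rfl
    · refine DW_nonneg hWn ?_ _
      intro v hv
      rcases List.mem_cons.1 hv with rfl | hv
      · exact fun e => (hw e).le
      · exact hwsn v hv
  have hQpos : ∀ e f, e ∉ ρ → f ∉ ρ → e ≠ f → 0 < Q2 W (w :: ws) ρ e f := by
    intro e f he hf hef
    unfold Q2
    rw [if_neg (by (clear * - he hf hef; tauto))]
    refine DW_pos hW ?_ _ ?_
    · intro v hv
      rcases List.mem_cons.1 hv with rfl | hv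
      · exact hw
      · exact hws v hv
    · rw [Finset.compl_insert, Finset.compl_insert, Finset.card_erase_of_mem,
        Finset.card_erase_of_mem (Finset.mem_compl.2 hf)]
      · rw [List.length_cons]; omega
      · rw [Finset.mem_erase]; exact ⟨hef, Finset.mem_compl.2 he⟩
  -- F e x y
  have hF : ∀ (e : α), e ∉ ρ → ∀ z : α → ℝ, ∑ f, A e f * z f =
      w e * DW W ((fun f => w f * z f) :: w :: ws) (insert e ρ) := by
    intro e he z
    have h1 : DW W ((fun f => w f * z f) :: w :: ws) (insert e ρ) =
        ∑ f, w f * z f * Q2 W (w :: ws) ρ e f := by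
      rw [DW_cons, sum_compl_eq]
      refine Finset.sum_congr rfl fun f _ => ?_
      unfold Q2
      by_cases hf : f ∈ insert e ρ
      · rw [if_pos hf, if_pos, mul_zero]
        rw [Finset.mem_insert] at hf
        rcases hf with hf | hf
        · exact Or.inr (Or.inr hf.symm)
        · exact Or.inr (Or.inl hf)
      · rw [if_neg hf, if_neg, Finset.insert_comm]
        rw [Finset.mem_insert] at hf
        rintro (h | h | h)
        · exact he h
        · exact hf (Or.inr h)
        · exact hf (Or.inl h.symm)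
    rw [h1, Finset.mul_sum]
    exact Finset.sum_congr rfl fun f _ => by rw [hA]; ring
  have hAz : ∀ e ∈ ρ, ∀ f, A e f = 0 := by
    intro e he f
    rw [hA]
    simp only
    unfold Q2
    rw [if_pos (Or.inl he), mul_zero]
  have hmz : ∀ e ∈ ρ, m e = 0 := fun e he => by
    rw [hm]
    exact Finset.sum_eq_zero fun f _ => hAz e he f
  have hmF : ∀ e, e ∉ ρ → m e = w e * DW W (w :: w :: ws) (insert e ρ) := by
    intro e he
    have := hF e he (fun _ => 1)
    simp only [mul_one] at this
    rw [hm]
    exact this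
  have hFpos : ∀ e, e ∉ ρ → 0 < DW W (w :: w :: ws) (insert e ρ) := by
    intro e he
    refine DW_pos hW ?_ _ ?_
    · intro v hv
      rcases List.mem_cons.1 hv with rfl | hv
      · exact hw
      rcases List.mem_cons.1 hv with rfl | hv
      · exact hw
      · exact hws v hv
    · rw [Finset.compl_insert, Finset.card_erase_of_mem (Finset.mem_compl.2 he),
        List.length_cons, List.length_cons]
      omega
  have hquad : ∀ z : α → ℝ, ∑ e, ∑ f, A e f * z e * z f =
      DW W ((fun f => w f * z f) :: (fun f => w f * z f) :: w :: ws) ρ := by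
    intro z
    rw [DW_two]
    refine Finset.sum_congr rfl fun e _ => Finset.sum_congr rfl fun f _ => ?_
    rw [hA]; ring
  have htr := trickle A (fun e f => by rw [hA]; simp only; rw [Q2_symm]; ring)
    (fun e f => by
      rw [hA]
      exact mul_nonneg (mul_nonneg (hw e).le (hw f).le) (hQnn e f)) m (fun e => rfl)
    (by
      intro z
      rw [hquad]
      have h1 : DW W ((fun f => w f * z f) :: (fun f => w f * z f) :: w :: ws) ρ =
          ∑ e ∈ ρᶜ, w e * DW W ((fun f => w f * z f) :: (fun f => w f * z f) :: ws)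
            (insert e ρ) := by
        rw [← DW_cons]
        refine DW_perm ?_ ρ
        exact ((List.Perm.swap _ _ _).cons _).trans (List.Perm.swap _ _ _)
      rw [h1, sum_compl_eq]
      refine Finset.sum_le_sum fun e _ => ?_
      by_cases he : e ∈ ρ
      · rw [if_pos he]
        refine div_nonneg (sq_nonneg _) ?_
        rw [hmz e he]
      · rw [if_neg he, hF e he, hmF e he]
        have h2 := ih e he (fun f => w f * z f) w (fun e => (hw e).le)
        have h3 := hFpos e he
        have h4 := hw e
        rw [le_div_iff₀ (by (clear * - h4 h3; positivity))]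
        nlinarith only [mul_le_mul_of_nonneg_left h2 (sq_nonneg (w e))])
    (by
      intro z hz e f he hf
      have he' : e ∉ ρ := fun h => by rw [hmz e h] at he; exact lt_irrefl _ he
      have hf' : f ∉ ρ := fun h => by rw [hmz f h] at hf; exact lt_irrefl _ hf
      by_cases hef : e = f
      · rw [hef]
      · apply hz
        rw [hA]
        exact mul_pos (mul_pos (hw e) (hw f)) (hQpos e f he' hf' hef))
  -- negativity on the kernel of `L = DW (· :: w :: w :: ws)`
  refine DW_reverse (w :: ws) ρ (fun z => DW W (z :: w :: w :: ws) ρ)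
    (fun x y => DW_add x y _ ρ) (fun c x => DW_smul c x _ ρ) ?_ x y ?_
  · intro z hz
    have h1 := htr (fun e => z e / w e) (by
      have h2 : ∑ e, m e * (z e / w e) = DW W (z :: w :: w :: ws) ρ := by
        rw [DW_cons, sum_compl_eq]
        refine Finset.sum_congr rfl fun e _ => ?_
        by_cases he : e ∈ ρ
        · rw [if_pos he, hmz e he, zero_mul]
        · rw [if_neg he, hmF e he]
          have := (hw e).ne'
          field_simp
      rw [h2]; exact hz)
    rw [hquad] at h1
    have h3 : (fun f => w f * (z f / w f)) = z := by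
      funext f
      have := (hw f).ne'
      (clear * - this; field_simp)
    rwa [h3] at h1
  · refine DW_nonneg hWn ?_ ρ
    intro v hv
    rcases List.mem_cons.1 hv with rfl | hv
    · exact hy
    rcases List.mem_cons.1 hv with rfl | hv
    · exact hy
    rcases List.mem_cons.1 hv with rfl | hv
    · exact fun e => (hw e).le
    · exact hwsn v hv

/-- Hodge-Riemann for positive directions. -/
theorem hr_pos {r : Finset α → ℕ} (hr : IsRk r) {t : ℝ} (ht : 1 ≤ t) (ws : List (α → ℝ))
    (hws : ∀ w ∈ ws, ∀ e, 0 < w e) (ρ : Finset α) : HRat (wt t r) ws ρ := by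
  have ht0 : 0 < t := by linarith
  induction ws generalizing ρ with
  | nil =>
    intro x y hy
    refine DW_reverse [] ρ (fun z => ∑ e, ac t r ρ e * z e) ?_ ?_ ?_ x y ?_
    · intro x y
      simp only [Pi.add_apply, mul_add, Finset.sum_add_distrib]
    · intro c x
      simp only [Pi.smul_apply, smul_eq_mul, Finset.mul_sum]
      exact Finset.sum_congr rfl fun e _ => by ring
    · intro z hz
      exact base_neg hr ρ ht z hz
    · refine DW_nonneg (fun S => (wt_pos ht0 r S).le) ?_ ρ
      intro v hv
      simp only [List.mem_cons, List.not_mem_nil, or_false, or_self] at hv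
      rw [hv]; exact hy
  | cons w ws ih =>
    exact hr_step (wt_pos ht0 r) ws (fun v hv => hws v (by simp [hv])) w (hws w (by simp)) ρ
      (fun e _ => ih (fun v hv => hws v (by simp [hv])) _)

/-! ### the limit -/

theorem DW_continuous (ws : List (ℝ → α → ℝ)) (hws : ∀ w ∈ ws, ∀ e, Continuous fun s => w s e)
    (ρ : Finset α) : Continuous fun s : ℝ => DW W (ws.map fun w => w s) ρ := by
  induction ws generalizing ρ with
  | nil => exact continuous_const
  | cons w ws ih =>
    simp only [List.map_cons, DW_cons]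
    refine continuous_finset_sum _ fun e _ => (hws w (by simp) e).mul (ih ?_ _)
    intro v hv
    exact hws v (by simp [hv])

/-- **Hodge-Riemann** for the weights `t ^ r(S)`: for nonnegative directions `ws` and `y` and
arbitrary `x`. -/
theorem hr_nonneg {r : Finset α → ℕ} (hr : IsRk r) {t : ℝ} (ht : 1 ≤ t) (ws : List (α → ℝ))
    (hws : ∀ w ∈ ws, ∀ e, 0 ≤ w e) (ρ : Finset α) : HRat (wt t r) ws ρ := by
  intro x y hy
  -- perturbation
  let P : (α → ℝ) → ℝ → α → ℝ := fun w s e => w e + s
  have hP : ∀ w : α → ℝ, P w 0 = w := fun w => by funext e; simp [P]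
  have hc : ∀ w : α → ℝ, ∀ e, Continuous fun s => P w s e := fun w e =>
    continuous_const.add continuous_id
  have hcc : ∀ z : α → ℝ, ∀ e, Continuous fun _ : ℝ => z e := fun z e => continuous_const
  have c1 : Continuous fun s : ℝ =>
      DW (wt t r) (x :: x :: ws.map fun w => P w s) ρ := by
    have := DW_continuous (W := wt t r) ((fun _ => x) :: (fun _ => x) :: ws.map P) (by
      intro w hw e
      rcases List.mem_cons.1 hw with rfl | hw
      · exact continuous_const
      rcases List.mem_cons.1 hw with rfl | hw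
      · exact continuous_const
      · obtain ⟨v, _, rfl⟩ := List.mem_map.1 hw
        exact hc v e) ρ
    simpa [List.map_map, Function.comp_def] using this
  have c2 : Continuous fun s : ℝ =>
      DW (wt t r) (P y s :: P y s :: ws.map fun w => P w s) ρ := by
    have := DW_continuous (W := wt t r) (P y :: P y :: ws.map P) (by
      intro w hw e
      rcases List.mem_cons.1 hw with rfl | hw
      · exact hc y e
      rcases List.mem_cons.1 hw with rfl | hw
      · exact hc y e
      · obtain ⟨v, _, rfl⟩ := List.mem_map.1 hw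
        exact hc v e) ρ
    simpa [List.map_map, Function.comp_def] using this
  have c3 : Continuous fun s : ℝ =>
      DW (wt t r) (x :: P y s :: ws.map fun w => P w s) ρ := by
    have := DW_continuous (W := wt t r) ((fun _ => x) :: P y :: ws.map P) (by
      intro w hw e
      rcases List.mem_cons.1 hw with rfl | hw
      · exact continuous_const
      rcases List.mem_cons.1 hw with rfl | hw
      · exact hc y e
      · obtain ⟨v, _, rfl⟩ := List.mem_map.1 hw
        exact hc v e) ρ
    simpa [List.map_map, Function.comp_def] using this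
  have hlim1 := ((c1.mul c2).tendsto 0).mono_left (nhdsWithin_le_nhds (s := Set.Ioi 0))
  have hlim2 := ((c3.pow 2).tendsto 0).mono_left (nhdsWithin_le_nhds (s := Set.Ioi 0))
  have hle := le_of_tendsto_of_tendsto hlim1 hlim2 (by
    filter_upwards [self_mem_nhdsWithin] with s hs
    have hs' : 0 < s := hs
    refine hr_pos hr ht _ ?_ ρ x (P y s) (fun e => ?_)
    · intro w hw e
      obtain ⟨v, hv, rfl⟩ := List.mem_map.1 hw
      have := hws v hv e
      simp only [P]
      linarith
    · have := hy e
      simp only [P]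
      linarith only [hs', this])
  simpa only [ge_iff_le, Pi.mul_apply, hP, List.map_id', Pi.pow_apply] using hle

end Vale.Agent.P317
end

section

/-!
# P317: the rank function of `M₁ ⊕ M₂*` and the defect
-/

namespace Vale.Agent.P317

open Finset

variable {V : Type*} [Fintype V] [DecidableEq V]

theorem IsRk.le_union {r : Finset V → ℕ} (h : IsRk r) (S D : Finset V) : r S ≤ r (S ∪ D) := by
  induction D using Finset.induction_on with
  | empty => simp
  | insert b D _ ih =>
    rw [Finset.union_insert]
    exact ih.trans (h.le_insert _ _)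

theorem IsRk.mono {r : Finset V → ℕ} (h : IsRk r) {S T : Finset V} (hST : S ⊆ T) :
    r S ≤ r T := by
  have := h.le_union S T
  rwa [Finset.union_eq_right.2 hST] at this

theorem IsRk.union_le {r : Finset V → ℕ} (h : IsRk r) (S T : Finset V) :
    r (S ∪ T) ≤ r S + T.card := by
  induction T using Finset.induction_on with
  | empty => simp
  | insert a T ha ih =>
    rw [Finset.union_insert, Finset.card_insert_of_notMem ha]
    have := h.insert_le (S ∪ T) a
    omega

/-- dual rank function -/
def dualRk (r : Finset V → ℕ) (S : Finset V) : ℕ := S.card + r Sᶜ - r univ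

theorem dualRk_add {r : Finset V → ℕ} (h : IsRk r) (S : Finset V) :
    dualRk r S + r univ = S.card + r Sᶜ := by
  have h1 := h.union_le Sᶜ S
  have h2 : Sᶜ ∪ S = univ := by rw [Finset.union_comm]; exact Finset.union_compl S
  rw [h2] at h1
  unfold dualRk
  omega

theorem IsRk.dual {r : Finset V → ℕ} (h : IsRk r) : IsRk (dualRk r) := by
  have key : ∀ S e, e ∉ S → (r (insert e S)ᶜ = r Sᶜ ∨ r (insert e S)ᶜ + 1 = r Sᶜ) := by
    intro S e he
    have h0 : insert e (insert e S)ᶜ = Sᶜ := by
      rw [Finset.compl_insert, Finset.insert_erase (Finset.mem_compl.2 he)]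
    have h1 := h.le_insert (insert e S)ᶜ e
    have h2 := h.insert_le (insert e S)ᶜ e
    rw [h0] at h1 h2
    omega
  refine ⟨?_, ?_, ?_⟩
  · intro S e
    by_cases he : e ∈ S
    · rw [Finset.insert_eq_of_mem he]
    have h1 := dualRk_add h S
    have h2 := dualRk_add h (insert e S)
    rw [Finset.card_insert_of_notMem he] at h2
    have h3 := key S e he
    omega
  · intro S e
    by_cases he : e ∈ S
    · rw [Finset.insert_eq_of_mem he]; omega
    have h1 := dualRk_add h S
    have h2 := dualRk_add h (insert e S)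
    rw [Finset.card_insert_of_notMem he] at h2
    have h3 := key S e he
    omega
  · intro S e f he hf
    by_cases heS : e ∈ S
    · have : insert e (insert f S) = insert f S := by
        rw [Finset.insert_eq_of_mem (Finset.mem_insert_of_mem heS)]
      rw [this, hf]
    by_cases hfS : f ∈ S
    · rw [Finset.insert_eq_of_mem hfS, he]
    by_cases hef : e = f
    · subst hef
      rw [Finset.insert_idem, he]
    have h1 := dualRk_add h S
    have h2 := dualRk_add h (insert e S)
    have h3 := dualRk_add h (insert f S)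
    have h4 := dualRk_add h (insert e (insert f S))
    have heS' : e ∉ insert f S := by simp [hef, heS]
    rw [Finset.card_insert_of_notMem heS] at h2
    rw [Finset.card_insert_of_notMem hfS] at h3
    rw [Finset.card_insert_of_notMem heS', Finset.card_insert_of_notMem hfS] at h4
    -- C = complement of insert e (insert f S)
    have hfS' : f ∉ insert e S := by simp [Ne.symm hef, hfS]
    have k1 := key (insert f S) e heS'
    have k2 := key (insert e S) f hfS'
    rw [Finset.insert_comm] at k2
    by_contra hne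
    have hC : r (insert e (insert f S))ᶜ + 1 = r Sᶜ := by omega
    have h5 : insert e (insert e (insert f S))ᶜ = (insert f S)ᶜ := by
      rw [Finset.compl_insert (s := insert f S), Finset.insert_erase (Finset.mem_compl.2 heS')]
    have h6 : insert f (insert e (insert f S))ᶜ = (insert e S)ᶜ := by
      rw [Finset.insert_comm e f, Finset.compl_insert (s := insert e S),
        Finset.insert_erase (Finset.mem_compl.2 hfS')]
    have h7 := h.submod (insert e (insert f S))ᶜ e f (by rw [h5]; omega) (by rw [h6]; omega)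
    rw [h6] at h7
    have h8 : insert e (insert e S)ᶜ = Sᶜ := by
      rw [Finset.compl_insert, Finset.insert_erase (Finset.mem_compl.2 heS)]
    rw [h8] at h7
    omega

/-- the part of `S` in the first (`false`) or second (`true`) copy -/
def part (b : Bool) (S : Finset (V × Bool)) : Finset V := univ.filter fun i => (i, b) ∈ S

@[simp] theorem mem_part {b : Bool} {S : Finset (V × Bool)} {i : V} :
    i ∈ part b S ↔ (i, b) ∈ S := by simp only [part, mem_filter, mem_univ, true_and]

theorem part_insert_same (b : Bool) (S : Finset (V × Bool)) (i : V) :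
    part b (insert (i, b) S) = insert i (part b S) := by
  ext j
  simp

theorem part_insert_other {b c : Bool} (h : b ≠ c) (S : Finset (V × Bool)) (i : V) :
    part b (insert (i, c) S) = part b S := by
  ext j
  simp [h]

theorem card_part (S : Finset (V × Bool)) : (part false S).card + (part true S).card = S.card := by
  have h1 : ∀ b : Bool, (part b S).card = (S.filter fun e => e.2 = b).card := by
    intro b
    refine Finset.card_bij (fun i _ => (i, b)) ?_ ?_ ?_
    · intro i hi
      rw [mem_part] at hi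
      rw [Finset.mem_filter]; exact ⟨hi, rfl⟩
    · intro i _ j _ hij
      exact (Prod.mk.inj hij).1
    · rintro ⟨j, c⟩ hj
      rw [Finset.mem_filter] at hj
      obtain ⟨hj, rfl⟩ := hj
      exact ⟨j, by simpa using hj, rfl⟩
  rw [h1, h1, ← Finset.card_filter_add_card_filter_not (s := S) (fun e => e.2 = false)]
  congr 2
  ext ⟨i, b⟩
  cases b <;> simp

/-- rank function of the direct sum -/
def sumRk (r₁ r₂ : Finset V → ℕ) (S : Finset (V × Bool)) : ℕ :=
  r₁ (part false S) + r₂ (part true S)

theorem IsRk.sum {r₁ r₂ : Finset V → ℕ} (h₁ : IsRk r₁) (h₂ : IsRk r₂) :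
    IsRk (sumRk r₁ r₂) := by
  refine ⟨?_, ?_, ?_⟩
  · rintro S ⟨i, b⟩
    unfold sumRk
    cases b
    · rw [part_insert_same, part_insert_other (by simp)]
      have := h₁.le_insert (part false S) i
      omega
    · rw [part_insert_same, part_insert_other (by simp)]
      have := h₂.le_insert (part true S) i
      omega
  · rintro S ⟨i, b⟩
    unfold sumRk
    cases b
    · rw [part_insert_same, part_insert_other (by simp)]
      have := h₁.insert_le (part false S) i
      omega
    · rw [part_insert_same, part_insert_other (by simp)]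
      have := h₂.insert_le (part true S) i
      omega
  · rintro S ⟨i, b⟩ ⟨j, c⟩ he hf
    unfold sumRk at he hf ⊢
    cases b <;> cases c
    · rw [part_insert_same, part_insert_other (by simp)] at he hf
      rw [part_insert_same, part_insert_same, part_insert_other (by simp),
        part_insert_other (by simp)]
      have := h₁.submod (part false S) i j (by omega) (by omega)
      omega
    · rw [part_insert_same, part_insert_other (by simp)] at he
      rw [part_insert_same, part_insert_other (by simp)] at hf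
      rw [part_insert_same, part_insert_other (c := false) (by simp),
        part_insert_other (b := false) (by simp), part_insert_same]
      omega
    · rw [part_insert_same, part_insert_other (by simp)] at he
      rw [part_insert_same, part_insert_other (by simp)] at hf
      rw [part_insert_same, part_insert_other (c := true) (by simp), part_insert_same,
        part_insert_other (b := true) (by simp)]
      omega
    · rw [part_insert_same, part_insert_other (by simp)] at he hf
      rw [part_insert_same, part_insert_same, part_insert_other (by simp),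
        part_insert_other (by simp)]
      have := h₂.submod (part true S) i j (by omega) (by omega)
      (clear * - hf this; omega)

/-- rank function of `M₁ ⊕ M₂*` -/
def rN (r₁ r₂ : Finset V → ℕ) : Finset (V × Bool) → ℕ := sumRk r₁ (dualRk r₂)

theorem isRk_rN {r₁ r₂ : Finset V → ℕ} (h₁ : IsRk r₁) (h₂ : IsRk r₂) : IsRk (rN r₁ r₂) :=
  h₁.sum h₂.dual

/-- the defect -/
def dfct (r₁ r₂ : Finset V → ℕ) (S : Finset (V × Bool)) : ℕ :=
  ((part false S).card - r₁ (part false S)) + (r₂ univ - r₂ (part true S)ᶜ)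

theorem IsRk.le_card {r : Finset V → ℕ} (h : IsRk r) (h0 : r ∅ = 0) (S : Finset V) :
    r S ≤ S.card := by
  have := h.union_le ∅ S
  rwa [Finset.empty_union, h0, zero_add] at this

theorem rN_add_dfct {r₁ r₂ : Finset V → ℕ} (h₁ : IsRk r₁) (h₂ : IsRk r₂) (h0 : r₁ ∅ = 0)
    (S : Finset (V × Bool)) : rN r₁ r₂ S + dfct r₁ r₂ S = S.card := by
  have h3 := h₁.le_card h0 (part false S)
  have h4 := dualRk_add h₂ (part true S)
  have h5 := h₂.mono (Finset.subset_univ (part true S)ᶜ)
  have h6 := card_part S
  unfold rN sumRk dfct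
  omega

/-! ### matroids -/

/-- rank function of a matroid on a finite type -/
noncomputable def rkM (M : Matroid V) (S : Finset V) : ℕ := (M.eRk (S : Set V)).toNat

theorem coe_rkM (M : Matroid V) (S : Finset V) : (rkM M S : ℕ∞) = M.eRk (S : Set V) := by
  unfold rkM
  apply ENat.coe_toNat
  have h1 := M.eRk_le_encard (S : Set V)
  have h2 : (S : Set V).encard ≠ ⊤ := by
    rw [Set.encard_coe_eq_coe_finsetCard]; exact ENat.coe_ne_top _
  exact ne_top_of_le_ne_top h2 h1

theorem isRk_rkM (M : Matroid V) : IsRk (rkM M) := by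
  refine ⟨?_, ?_, ?_⟩
  · intro S e
    have h : M.eRk (S : Set V) ≤ M.eRk ((insert e S : Finset V) : Set V) :=
      M.eRk_mono (by simp only [coe_insert, Set.subset_insert])
    rw [← coe_rkM, ← coe_rkM] at h
    exact_mod_cast h
  · intro S e
    have h : M.eRk ((insert e S : Finset V) : Set V) ≤ M.eRk (S : Set V) + 1 := by
      rw [Finset.coe_insert]; exact M.eRk_insert_le_add_one e _
    rw [← coe_rkM, ← coe_rkM] at h
    exact_mod_cast h
  · intro S e f he hf
    have h := M.eRk_inter_add_eRk_union_le ((insert e S : Finset V) : Set V)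
      ((insert f S : Finset V) : Set V)
    rw [← Finset.coe_inter, ← Finset.coe_union, ← coe_rkM, ← coe_rkM, ← coe_rkM, ← coe_rkM] at h
    have h1 : (rkM M (insert e S ∩ insert f S)) + rkM M (insert e S ∪ insert f S) ≤
        rkM M (insert e S) + rkM M (insert f S) := by exact_mod_cast h
    have hmono : ∀ A B : Finset V, A ⊆ B → rkM M A ≤ rkM M B := by
      intro A B hAB
      have h2 : M.eRk (A : Set V) ≤ M.eRk (B : Set V) := M.eRk_mono (by simpa only [SetLike.coe_subset_coe] using hAB)
      rw [← coe_rkM, ← coe_rkM] at h2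
      exact_mod_cast h2
    have h3 := hmono S (insert e S ∩ insert f S)
      (Finset.subset_inter (Finset.subset_insert _ _) (Finset.subset_insert _ _))
    have h4 : insert e S ∪ insert f S = insert e (insert f S) := by
      ext x; simp only [Finset.mem_union, Finset.mem_insert]; (clear * -; tauto)
    rw [h4] at h1
    have h5 := hmono S (insert e (insert f S))
      ((Finset.subset_insert _ _).trans (Finset.subset_insert _ _))
    omega

@[simp] theorem rkM_empty (M : Matroid V) : rkM M ∅ = 0 := by
  unfold rkM; simp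

theorem indep_iff_rkM (M : Matroid V) (S : Finset V) :
    M.Indep (S : Set V) ↔ rkM M S = S.card := by
  rw [M.indep_iff_eRk_eq_encard_of_finite (Finset.finite_toSet S), ← coe_rkM,
    Set.encard_coe_eq_coe_finsetCard]
  norm_cast

theorem rkM_le_univ (M : Matroid V) (S : Finset V) : rkM M S ≤ rkM M univ :=
  (isRk_rkM M).mono (Finset.subset_univ S)

theorem isBase_iff_rkM (M : Matroid V) (S : Finset V) :
    M.IsBase (S : Set V) ↔ rkM M S = S.card ∧ rkM M S = rkM M univ := by
  constructor
  · intro h
    refine ⟨(indep_iff_rkM M S).1 h.indep, ?_⟩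
    have h1 := h.eRk_eq_eRank
    rw [← M.eRk_univ_eq, ← coe_rkM, ← Finset.coe_univ, ← coe_rkM] at h1
    exact_mod_cast h1
  · rintro ⟨h1, h2⟩
    have hi := (indep_iff_rkM M S).2 h1
    rw [Matroid.isBase_iff_maximal_indep]
    refine ⟨hi, ?_⟩
    intro T hT hST
    have hTf : T.Finite := Set.toFinite T
    obtain ⟨T', rfl⟩ : ∃ T' : Finset V, (T' : Set V) = T := ⟨hTf.toFinset, by simp⟩
    have h3 := (indep_iff_rkM M T').1 hT
    have h4 := rkM_le_univ M T'
    have h5 : S ⊆ T' := by exact_mod_cast hST
    have h6 := Finset.eq_of_subset_of_card_le h5 (by omega)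
    rw [h6]

/-- the common bases -/
noncomputable def comBases (M₁ M₂ : Matroid V) : Finset (Finset V) := by
  classical
  exact univ.filter fun B => M₁.IsBase (B : Set V) ∧ M₂.IsBase (B : Set V)

/-- a colourful set from its first part -/
def colOf (B : Finset V) : Finset (V × Bool) := univ.filter fun e => (e.2 = false ↔ e.1 ∈ B)

theorem mem_colOf {B : Finset V} {i : V} {b : Bool} :
    (i, b) ∈ colOf B ↔ (b = false ↔ i ∈ B) := by simp only [colOf, mem_filter, mem_univ, true_and]

theorem part_colOf_false (B : Finset V) : part false (colOf B) = B := by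
  ext i; simp [mem_colOf]

theorem part_colOf_true (B : Finset V) : part true (colOf B) = Bᶜ := by
  ext i; simp [mem_colOf]

theorem isCol_colOf (B : Finset V) : Window.IsCol (colOf B) := by
  intro k
  simp [mem_colOf]

theorem colOf_part {S : Finset (V × Bool)} (hS : Window.IsCol S) : colOf (part false S) = S := by
  ext ⟨i, b⟩
  rw [mem_colOf, mem_part]
  have := hS i
  cases b
  · simp
  · simp only [Bool.true_eq_false, false_iff]
    rw [this]; simp

theorem card_colOf (B : Finset V) : (colOf B).card = Fintype.card V := by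
  rw [← card_part, part_colOf_false, part_colOf_true, Finset.card_compl]
  have := Finset.card_le_univ B
  omega

/-- The common bases correspond to the colourful sets of defect zero. -/
theorem dfct_colOf_eq_zero_iff (M₁ M₂ : Matroid V) (hr : M₁.eRank = M₂.eRank) (B : Finset V) :
    dfct (rkM M₁) (rkM M₂) (colOf B) = 0 ↔
      M₁.IsBase (B : Set V) ∧ M₂.IsBase (B : Set V) := by
  have hr' : rkM M₁ univ = rkM M₂ univ := by
    have h1 : (rkM M₁ univ : ℕ∞) = rkM M₂ univ := by
      rw [coe_rkM, coe_rkM, Finset.coe_univ, M₁.eRk_univ_eq, M₂.eRk_univ_eq, hr]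
    exact_mod_cast h1
  rw [isBase_iff_rkM, isBase_iff_rkM]
  unfold dfct
  rw [part_colOf_false, part_colOf_true, compl_compl]
  have h1 := (isRk_rkM M₁).le_card (rkM_empty M₁) B
  have h2 := (isRk_rkM M₂).le_card (rkM_empty M₂) B
  have h3 := rkM_le_univ M₁ B
  have h4 := rkM_le_univ M₂ B
  omega

theorem card_comBases (M₁ M₂ : Matroid V) (hr : M₁.eRank = M₂.eRank) :
    (comBases M₁ M₂).card =
      ((Window.Om0 V).filter fun S => dfct (rkM M₁) (rkM M₂) S = 0).card := by
  classical
  refine Finset.card_bij (fun B _ => colOf B) ?_ ?_ ?_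
  · intro B hB
    unfold comBases at hB
    rw [Finset.mem_filter] at hB ⊢
    exact ⟨Window.mem_Om0.2 (isCol_colOf B), (dfct_colOf_eq_zero_iff M₁ M₂ hr B).2 hB.2⟩
  · intro B _ B' _ h
    have := congrArg (part false) h
    rwa [part_colOf_false, part_colOf_false] at this
  · intro S hS
    rw [Finset.mem_filter, Window.mem_Om0] at hS
    refine ⟨part false S, ?_, colOf_part hS.1⟩
    unfold comBases
    rw [Finset.mem_filter]
    refine ⟨Finset.mem_univ _, (dfct_colOf_eq_zero_iff M₁ M₂ hr _).1 ?_⟩
    rw [colOf_part hS.1]; exact hS.2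

/-- On sets of size `card V` the weights `t ^ rN` are `t ^ card V * (1 / t) ^ dfct`. -/
theorem wt_rN {r₁ r₂ : Finset V → ℕ} (h₁ : IsRk r₁) (h₂ : IsRk r₂) (h0 : r₁ ∅ = 0) {t : ℝ}
    (ht : 0 < t) (S : Finset (V × Bool)) :
    wt t (rN r₁ r₂) S = t ^ S.card * (1 / t) ^ dfct r₁ r₂ S := by
  have h := rN_add_dfct h₁ h₂ h0 S
  unfold wt
  rw [← h, pow_add, mul_assoc, ← mul_pow, mul_one_div_cancel ht.ne', one_pow, mul_one]

end Vale.Agent.P317
end

section

/-!
# P317: the greedy computation of ranks and the defect (fact F4)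
-/

namespace Vale.Agent.P317

open Finset

variable {V : Type*} [Fintype V] [DecidableEq V]

theorem IsRk.closure_insert {r : Finset V → ℕ} (h : IsRk r) {G : Finset V} {x y : V}
    (hx : r (insert x G) = r G) : r (insert x (insert y G)) = r (insert y G) := by
  have h1 := h.le_insert G y
  have h2 := h.insert_le G y
  by_cases hy : r (insert y G) = r G
  · rw [h.submod G x y hx hy, hy]
  · have h3 := h.insert_le (insert x G) y
    rw [Finset.insert_comm] at h3
    have h4 := h.le_insert (insert y G) x
    omega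

theorem IsRk.closure_union {r : Finset V → ℕ} (h : IsRk r) {G : Finset V} {x : V}
    (hx : r (insert x G) = r G) (D : Finset V) : r (insert x (G ∪ D)) = r (G ∪ D) := by
  induction D using Finset.induction_on with
  | empty => simpa using hx
  | insert y D _ ih =>
    rw [Finset.union_insert]
    exact h.closure_insert ih

theorem IsRk.closure_mono {r : Finset V → ℕ} (h : IsRk r) {G S : Finset V} (hGS : G ⊆ S) {x : V}
    (hx : r (insert x G) = r G) : r (insert x S) = r S := by
  have := h.closure_union hx S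
  rwa [Finset.union_eq_right.2 hGS] at this

/-- the elements of `Fin n` satisfying `p` -/
def selP {n : ℕ} (p : ℕ → Bool) (m : ℕ) : Finset (Fin n) :=
  univ.filter fun x => (x : ℕ) < m ∧ p x = true

/-- the elements of `Fin n` whose value lies in `G` -/
def ofCodes {n : ℕ} (G : Finset ℕ) : Finset (Fin n) := univ.filter fun x => (x : ℕ) ∈ G

theorem greedy_invariant {n : ℕ} (M : Matroid (Fin n)) (q : Finset ℕ → Bool)
    (hq : ∀ S, q S = true ↔ M.Indep {x : Fin n | (x : ℕ) ∈ S}) (p : ℕ → Bool) (m : ℕ)
    (hm : m ≤ n) :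
    (∀ c ∈ (Alg.greedy q p m).1, c < m) ∧
      (ofCodes (n := n) (Alg.greedy q p m).1 ⊆ selP p m) ∧
      M.Indep (ofCodes (n := n) (Alg.greedy q p m).1 : Set (Fin n)) ∧
      (Alg.greedy q p m).2 = (ofCodes (n := n) (Alg.greedy q p m).1).card ∧
      rkM M (ofCodes (n := n) (Alg.greedy q p m).1) = rkM M (selP p m) := by
  induction m with
  | zero =>
    have h0 : ofCodes (n := n) (∅ : Finset ℕ) = ∅ := by ext x; simp [ofCodes]
    have h1 : selP (n := n) p 0 = ∅ := by ext x; simp [selP]
    simp only [Alg.greedy]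
    rw [h0, h1]
    simp
  | succ m ih =>
    obtain ⟨ih1, ih2, ih3, ih4, ih5⟩ := ih (by omega)
    have hr := isRk_rkM M
    set G := (Alg.greedy q p m).1 with hG
    obtain ⟨x, hx⟩ : ∃ x : Fin n, (x : ℕ) = m := ⟨⟨m, by omega⟩, rfl⟩
    have hxG : x ∉ ofCodes (n := n) G := by
      intro h
      have h2 : (x : ℕ) ∈ G := by simpa only [ofCodes, mem_filter, mem_univ, true_and] using h
      have := ih1 _ h2
      omega
    have hins : ofCodes (n := n) (insert m G) = insert x (ofCodes G) := by
      ext y
      simp only [ofCodes, Finset.mem_filter, Finset.mem_univ, true_and, Finset.mem_insert]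
      constructor
      · rintro (h | h)
        · left; exact Fin.ext (by omega)
        · right; exact h
      · rintro (h | h)
        · left; rw [h, hx]
        · right; exact h
    have hqi : q (insert m G) = true ↔
        M.Indep ((insert x (ofCodes (n := n) G) : Finset (Fin n)) : Set (Fin n)) := by
      rw [hq, ← hins]
      have : ((ofCodes (n := n) (insert m G) : Finset (Fin n)) : Set (Fin n)) =
          {x : Fin n | (x : ℕ) ∈ insert m G} := by
        ext y; simp only [ofCodes, mem_insert, coe_filter, mem_univ, true_and, Set.mem_ofPred_eq]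
      rw [this]
    have hselmono : selP (n := n) p m ⊆ selP p (m + 1) := by
      intro y hy
      simp only [selP, Finset.mem_filter, Finset.mem_univ, true_and] at hy ⊢
      exact ⟨by omega, hy.2⟩
    by_cases hp : p m = true
    · have hsel : selP (n := n) p (m + 1) = insert x (selP p m) := by
        ext y
        simp only [selP, Finset.mem_filter, Finset.mem_univ, true_and, Finset.mem_insert]
        constructor
        · rintro ⟨h1, h2⟩
          by_cases hy : (y : ℕ) = m
          · left; exact Fin.ext (by omega)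
          · right; exact ⟨by omega, h2⟩
        · rintro (h | ⟨h1, h2⟩)
          · rw [h, hx]; exact ⟨by omega, hp⟩
          · exact ⟨by omega, h2⟩
      by_cases hqt : q (insert m G) = true
      · have hstep : Alg.greedy q p (m + 1) = (insert m G, (Alg.greedy q p m).2 + 1) := by
          simp only [Alg.greedy]
          rw [if_pos ⟨hp, by rw [← hG]; exact hqt⟩]
        rw [hstep]
        refine ⟨?_, ?_, ?_, ?_, ?_⟩
        · intro c hc
          simp only [Finset.mem_insert] at hc
          rcases hc with rfl | hc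
          · omega
          · have := ih1 c hc; omega
        · simp only
          rw [hins, hsel]
          exact Finset.insert_subset_insert _ ih2
        · simp only
          rw [hins]
          exact hqi.1 hqt
        · simp only
          rw [hins, Finset.card_insert_of_notMem hxG, ih4]
        · simp only
          rw [hins, hsel]
          have h1 := (indep_iff_rkM M _).1 (hqi.1 hqt)
          rw [Finset.card_insert_of_notMem hxG] at h1
          have h2 := (indep_iff_rkM M _).1 ih3
          have h3 := hr.insert_le (selP p m) x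
          have h4 := hr.mono (Finset.insert_subset_insert x ih2)
          omega
      · have hstep : Alg.greedy q p (m + 1) = Alg.greedy q p m := by
          simp only [Alg.greedy]
          rw [if_neg (by rintro ⟨_, h⟩; rw [← hG] at h; exact hqt h)]
        rw [hstep]
        have hni : ¬ M.Indep ((insert x (ofCodes (n := n) G) : Finset (Fin n)) : Set (Fin n)) :=
          fun h => hqt (hqi.2 h)
        have h2 := (indep_iff_rkM M _).1 ih3
        have h3 : rkM M (insert x (ofCodes G)) = rkM M (ofCodes G) := by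
          rw [indep_iff_rkM, Finset.card_insert_of_notMem hxG] at hni
          have h5 := hr.le_insert (ofCodes G) x
          have h6 := hr.insert_le (ofCodes G) x
          omega
        refine ⟨fun c hc => by have := ih1 c hc; omega, ih2.trans hselmono, ih3, ih4, ?_⟩
        rw [hsel, hr.closure_mono ih2 h3]
        exact ih5
    · have hsel : selP (n := n) p (m + 1) = selP p m := by
        ext y
        simp only [selP, Finset.mem_filter, Finset.mem_univ, true_and]
        constructor
        · rintro ⟨h1, h2⟩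
          refine ⟨?_, h2⟩
          by_contra hcon
          have : (y : ℕ) = m := by omega
          rw [this] at h2
          exact hp h2
        · rintro ⟨h1, h2⟩
          exact ⟨by omega, h2⟩
      have hstep : Alg.greedy q p (m + 1) = Alg.greedy q p m := by
        simp only [Alg.greedy]
        rw [if_neg (by rintro ⟨h, _⟩; exact hp h)]
      rw [hstep, hsel]
      exact ⟨fun c hc => by have := ih1 c hc; omega, ih2, ih3, ih4, ih5⟩

/-- The size computed by the greedy algorithm is the rank. -/
theorem greedy_rank {n : ℕ} (M : Matroid (Fin n)) (q : Finset ℕ → Bool)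
    (hq : ∀ S, q S = true ↔ M.Indep {x : Fin n | (x : ℕ) ∈ S}) (p : ℕ → Bool) :
    (Alg.greedy q p n).2 = rkM M (univ.filter fun x : Fin n => p x = true) := by
  obtain ⟨_, _, h3, h4, h5⟩ := greedy_invariant M q hq p n le_rfl
  have h6 : selP (n := n) p n = univ.filter fun x : Fin n => p x = true := by
    ext y
    simp only [selP, Fin.is_lt, true_and, mem_filter, mem_univ]
  rw [h4, ← (indep_iff_rkM M _).1 h3, h5, h6]

theorem oracles_iff {n : ℕ} (M₁ M₂ : Matroid (Fin n)) (i : Bool) (S : Finset ℕ) :
    oracles M₁ M₂ i S = true ↔ (if i then M₂ else M₁).Indep {x : Fin n | (x : ℕ) ∈ S} := by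
  unfold oracles
  simp only [decide_eq_true_eq]

theorem greedy_rank_false {n : ℕ} (M₁ M₂ : Matroid (Fin n)) (p : ℕ → Bool) :
    (Alg.greedy (oracles M₁ M₂ false) p n).2 =
      rkM M₁ (univ.filter fun x : Fin n => p x = true) :=
  greedy_rank M₁ _ (fun S => by rw [oracles_iff]; simp) p

theorem greedy_rank_true {n : ℕ} (M₁ M₂ : Matroid (Fin n)) (p : ℕ → Bool) :
    (Alg.greedy (oracles M₁ M₂ true) p n).2 =
      rkM M₂ (univ.filter fun x : Fin n => p x = true) :=
  greedy_rank M₂ _ (fun S => by rw [oracles_iff]; simp) p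

theorem cnt_eq_card {n : ℕ} (p : ℕ → Bool) :
    Alg.cnt p n = (univ.filter fun x : Fin n => p x = true).card := by
  have h : ∀ m, Alg.cnt p m = ((Finset.range m).filter fun x => p x = true).card := by
    intro m
    induction m with
    | zero => simp [Alg.cnt]
    | succ m ih =>
      rw [Alg.cnt, ih, Finset.range_add_one, Finset.filter_insert]
      by_cases hp : p m = true
      · rw [if_pos hp, if_pos hp, Finset.card_insert_of_notMem]
        simp
      · rw [if_neg hp, if_neg hp, add_zero]
  rw [h]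
  symm
  refine Finset.card_bij (fun x _ => (x : ℕ)) ?_ ?_ ?_
  · intro x hx
    simp only [Finset.mem_filter, Finset.mem_univ, true_and] at hx
    rw [Finset.mem_filter, Finset.mem_range]
    exact ⟨x.2, hx⟩
  · intro x _ y _ hxy
    exact Fin.ext hxy
  · intro y hy
    rw [Finset.mem_filter, Finset.mem_range] at hy
    exact ⟨⟨y, hy.1⟩, by simpa only [mem_filter, mem_univ, true_and] using hy.2, rfl⟩

theorem mem_enc_even {n : ℕ} (Z : Finset (Fin n × Bool)) (x : Fin n) :
    ((x : ℕ) + x ∈ Alg.enc Z) ↔ (x, false) ∈ Z := by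
  unfold Alg.enc
  rw [Finset.mem_map]
  constructor
  · rintro ⟨⟨i, b⟩, hi, h⟩
    simp only [Function.Embedding.coeFn_mk, Alg.cd] at h
    have hb : b = false := by
      cases b
      · rfl
      · simp only [↓reduceIte] at h; omega
    subst hb
    have : i = x := Fin.ext (by simp at h; omega)
    rwa [this] at hi
  · intro h
    exact ⟨(x, false), h, by simp only [Function.Embedding.coeFn_mk, Alg.cd, Bool.false_eq_true, ↓reduceIte, add_zero]; ring⟩

theorem mem_enc_odd {n : ℕ} (Z : Finset (Fin n × Bool)) (x : Fin n) :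
    ((x : ℕ) + x + 1 ∈ Alg.enc Z) ↔ (x, true) ∈ Z := by
  unfold Alg.enc
  rw [Finset.mem_map]
  constructor
  · rintro ⟨⟨i, b⟩, hi, h⟩
    simp only [Function.Embedding.coeFn_mk, Alg.cd] at h
    have hb : b = true := by
      cases b
      · simp only [Bool.false_eq_true, ↓reduceIte, add_zero] at h; omega
      · rfl
    subst hb
    have : i = x := Fin.ext (by simp only [↓reduceIte, Nat.add_right_cancel_iff] at h; omega)
    rwa [this] at hi
  · intro h
    exact ⟨(x, true), h, by simp [Alg.cd]; ring⟩

/-- **F4**: the deficiency computed by the algorithm is the defect. -/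
theorem dfc_enc {n : ℕ} (M₁ M₂ : Matroid (Fin n)) (r a L : ℕ) (hr : rkM M₂ univ = r)
    (Z : Finset (Fin n × Bool)) :
    (Alg.Par.mk (oracles M₁ M₂) n r a L).dfc (Alg.enc Z) = dfct (rkM M₁) (rkM M₂) Z := by
  unfold Alg.Par.dfc dfct
  simp only
  rw [greedy_rank_false, greedy_rank_true, cnt_eq_card, ← hr]
  have h1 : (univ.filter fun x : Fin n =>
      (decide ((x : ℕ) + x ∈ Alg.enc Z)) = true) = part false Z := by
    ext x
    simp only [mem_enc_even, decide_eq_true_eq, mem_filter, mem_univ, true_and, mem_part]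
  have h2 : (univ.filter fun x : Fin n =>
      (decide ((x : ℕ) + x + 1 ∉ Alg.enc Z)) = true) = (part true Z)ᶜ := by
    ext x
    simp only [mem_enc_odd, decide_not, Bool.not_eq_eq_eq_not, Bool.not_true, decide_eq_false_iff_not, mem_filter, mem_univ, true_and, mem_compl, mem_part]
  rw [h1, h2]

/-! ### the rounded weights -/

/-- the parameter of the exact weights at stage `k` -/
noncomputable def tk (k n : ℕ) : ℝ := (2 : ℝ) ^ ((k : ℝ) / n)

theorem one_le_tk (k n : ℕ) : 1 ≤ tk k n :=
  Real.one_le_rpow (by norm_num) (by (clear * -; positivity))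

theorem tk_pow (k n d : ℕ) : tk k n ^ d = (2 : ℝ) ^ ((k : ℝ) * d / n) := by
  unfold tk
  rw [← Real.rpow_natCast, ← Real.rpow_mul (by norm_num)]
  congr 1
  ring

theorem tk_pow_n (k n : ℕ) (hn : 0 < n) : tk k n ^ n = 2 ^ k := by
  rw [tk_pow]
  have : (k : ℝ) * n / n = k := by
    have : (n : ℝ) ≠ 0 := by (clear * - hn; positivity)
    field_simp
  rw [this, Real.rpow_natCast]

/-- The rounded weight is between the exact one and twice the exact one. -/
theorem round_weight (k n d : ℕ) (hn : 0 < n) :
    (1 / tk k n) ^ d ≤ (1 / 2 : ℝ) ^ (k * d / n) ∧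
      (1 / 2 : ℝ) ^ (k * d / n) ≤ 2 * (1 / tk k n) ^ d := by
  have h1 : (1 / tk k n) ^ d = (2 : ℝ) ^ (-((k : ℝ) * d / n)) := by
    rw [one_div, inv_pow, tk_pow, Real.rpow_neg (by norm_num)]
  have h2 : (1 / 2 : ℝ) ^ (k * d / n) = (2 : ℝ) ^ (-(((k * d / n : ℕ) : ℝ))) := by
    rw [Real.rpow_neg (by norm_num), Real.rpow_natCast, one_div, inv_pow]
  rw [h1, h2]
  have hn' : (0 : ℝ) < n := by exact_mod_cast hn
  constructor
  · apply Real.rpow_le_rpow_of_exponent_le (by norm_num)
    have h3 : ((k * d / n : ℕ) : ℝ) ≤ (k : ℝ) * d / n := by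
      rw [le_div_iff₀ hn']
      exact_mod_cast Nat.div_mul_le_self (k * d) n
    (clear * - h3; linarith)
  · have h3 : (k : ℝ) * d / n ≤ ((k * d / n : ℕ) : ℝ) + 1 := by
      rw [div_le_iff₀ hn']
      have h4 : k * d < n * (k * d / n + 1) := by
        have := Nat.div_add_mod (k * d) n
        have := Nat.mod_lt (k * d) hn
        rw [Nat.mul_add, Nat.mul_one]
        omega
      have h5 : ((k * d : ℕ) : ℝ) ≤ ((n * (k * d / n + 1) : ℕ) : ℝ) := by exact_mod_cast h4.le
      push_cast at h5
      push_cast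
      linarith only [h5]
    calc (2 : ℝ) ^ (-(((k * d / n : ℕ) : ℝ))) ≤ (2 : ℝ) ^ (1 + -((k : ℝ) * d / n)) := by
          apply Real.rpow_le_rpow_of_exponent_le (by norm_num)
          linarith only [h3]
      _ = _ := by rw [Real.rpow_add (by norm_num), Real.rpow_one]

/-- `mu k` against the exact weight `wt (tk k n) (rN r₁ r₂)` on the window. -/
theorem mu_cmp {n : ℕ} (M₁ M₂ : Matroid (Fin n)) (r a L : ℕ) (hr : rkM M₂ univ = r) (k : ℕ)
    (hn : 0 < n) (Z : Finset (Fin n × Bool)) (hZ : Z.card = n) :
    wt (tk k n) (rN (rkM M₁) (rkM M₂)) Z / 2 ^ k ≤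
        (Alg.Par.mk (oracles M₁ M₂) n r a L).mu k (Alg.enc Z) ∧
      (Alg.Par.mk (oracles M₁ M₂) n r a L).mu k (Alg.enc Z) ≤
        2 * (wt (tk k n) (rN (rkM M₁) (rkM M₂)) Z / 2 ^ k) := by
  have h1 : wt (tk k n) (rN (rkM M₁) (rkM M₂)) Z / 2 ^ k =
      (1 / tk k n) ^ dfct (rkM M₁) (rkM M₂) Z := by
    rw [wt_rN (isRk_rkM M₁) (isRk_rkM M₂) (rkM_empty M₁)
      (lt_of_lt_of_le one_pos (one_le_tk k n)), hZ, tk_pow_n k n hn]
    field_simp
  rw [h1]
  unfold Alg.Par.mu
  rw [dfc_enc M₁ M₂ r a L hr]
  exact round_weight k n _ hn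

end Vale.Agent.P317
end

section

namespace Vale.Agent.P317

open Finset

/-- The greedy algorithm without restriction computes the rank of the first matroid. -/
theorem greedy_rank_univ {n : ℕ} (M₁ M₂ : Matroid (Fin n)) :
    (Alg.greedy (oracles M₁ M₂ false) (fun _ => true) n).2 = rkM M₁ univ := by
  rw [greedy_rank_false]
  congr 1
  simp only [filter_true]

theorem rkM_univ_le {n : ℕ} (M : Matroid (Fin n)) : rkM M univ ≤ n := by
  have h := greedy_rank M (fun S => by classical exact decide (M.Indep {x : Fin n | (x : ℕ) ∈ S}))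
    (fun S => by simp) (fun _ => true)
  have h2 : ∀ (q : Finset ℕ → Bool) (p : ℕ → Bool) m, (Alg.greedy q p m).2 ≤ m := by
    intro q p m
    induction m with
    | zero => simp [Alg.greedy]
    | succ m ih =>
      rw [Alg.greedy]
      split_ifs
      · simp only; omega
      · omega
  have h3 : (univ.filter fun x : Fin n => (fun _ => true) (x : ℕ) = true) = univ := by simp only [filter_true]
  rw [h3] at h
  rw [← h]
  exact h2 _ _ _

end Vale.Agent.P317
end
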