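import Vale.Agent.P317.MathlibUsed
import Vale.Agent.P317.Bdl.B1
import Vale.Agent.P317.Bdl.B2
attribute [-instance] ProperSMul.toContinuousSMul IsTopologicalTorsor.toContinuousSMul IdemSemiring.toCanonicallyOrderedAdd IdemSemiring.toMulLeftMono IdemSemiring.toMulRightMono AddQuantale.instAddLeftMono AddQuantale.instAddRightMono Quantale.instMulLeftMono Quantale.instMulRightMono FiniteDimensional.rclike_to_real IsScalarTower.complexToReal FiniteDimensional.complexToReal

section

set_option linter.unusedSimpArgs false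
set_option linter.unusedVariables false

namespace Vale.Agent.P317.Alg

open Rnd

variable {P : Par} {K : ℕ} {s : State} {q : Q}

theorem Rl.putU (h : Rl P K s q) (v : ℕ) : Rl P K (s.putNum 3 v) { q with u := v } := by
  obtain ⟨⟨h0, h5, h9, h17, h18⟩, h6, h8, h16, h19, h3, h4, h10, h11, h12, h13, h14, h15, t0,
    t1, t2⟩ := h
  constructor <;> simp [State.putNum, *]
  exact ⟨by simp [h0], by simp [h5], by simp [h9], by simp [h17], by simp [h18]⟩

theorem Rl.putV (h : Rl P K s q) (v : ℕ) : Rl P K (s.putNum 4 v) { q with v := v } := by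
  obtain ⟨⟨h0, h5, h9, h17, h18⟩, h6, h8, h16, h19, h3, h4, h10, h11, h12, h13, h14, h15, t0,
    t1, t2⟩ := h
  constructor <;> simp [State.putNum, *]
  exact ⟨by simp [h0], by simp [h5], by simp [h9], by simp [h17], by simp [h18]⟩

theorem Rl.putκ (h : Rl P K s q) (v : ℕ) : Rl P K (s.putNum 10 v) { q with κ := v } := by
  obtain ⟨⟨h0, h5, h9, h17, h18⟩, h6, h8, h16, h19, h3, h4, h10, h11, h12, h13, h14, h15, t0,
    t1, t2⟩ := h
  constructor <;> simp [State.putNum, *]
  exact ⟨by simp [h0], by simp [h5], by simp [h9], by simp [h17], by simp [h18]⟩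

theorem Rl.putk (h : Rl P K s q) (v : ℕ) : Rl P K (s.putNum 11 v) { q with k := v } := by
  obtain ⟨⟨h0, h5, h9, h17, h18⟩, h6, h8, h16, h19, h3, h4, h10, h11, h12, h13, h14, h15, t0,
    t1, t2⟩ := h
  constructor <;> simp [State.putNum, *]
  exact ⟨by simp [h0], by simp [h5], by simp [h9], by simp [h17], by simp [h18]⟩

theorem Rl.puti (h : Rl P K s q) (v : ℕ) : Rl P K (s.putNum 12 v) { q with i := v } := by
  obtain ⟨⟨h0, h5, h9, h17, h18⟩, h6, h8, h16, h19, h3, h4, h10, h11, h12, h13, h14, h15, t0,
    t1, t2⟩ := h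
  constructor <;> simp [State.putNum, *]
  exact ⟨by simp [h0], by simp [h5], by simp [h9], by simp [h17], by simp [h18]⟩

theorem Rl.putj (h : Rl P K s q) (v : ℕ) : Rl P K (s.putNum 13 v) { q with j := v } := by
  obtain ⟨⟨h0, h5, h9, h17, h18⟩, h6, h8, h16, h19, h3, h4, h10, h11, h12, h13, h14, h15, t0,
    t1, t2⟩ := h
  constructor <;> simp [State.putNum, *]
  exact ⟨by simp [h0], by simp [h5], by simp [h9], by simp [h17], by simp [h18]⟩

theorem Rl.putx (h : Rl P K s q) (v : ℕ) : Rl P K (s.putNum 14 v) { q with x := v } := by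
  obtain ⟨⟨h0, h5, h9, h17, h18⟩, h6, h8, h16, h19, h3, h4, h10, h11, h12, h13, h14, h15, t0,
    t1, t2⟩ := h
  constructor <;> simp [State.putNum, *]
  exact ⟨by simp [h0], by simp [h5], by simp [h9], by simp [h17], by simp [h18]⟩

theorem Rl.puty (h : Rl P K s q) (v : ℕ) : Rl P K (s.putNum 15 v) { q with y := v } := by
  obtain ⟨⟨h0, h5, h9, h17, h18⟩, h6, h8, h16, h19, h3, h4, h10, h11, h12, h13, h14, h15, t0,
    t1, t2⟩ := h
  constructor <;> simp [State.putNum, *]
  exact ⟨by simp [h0], by simp [h5], by simp [h9], by simp [h17], by simp [h18]⟩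

theorem Rl.putS (h : Rl P K s q) (v : Finset ℕ) : Rl P K (s.putSet 0 v) { q with S := v } := by
  obtain ⟨⟨h0, h5, h9, h17, h18⟩, h6, h8, h16, h19, h3, h4, h10, h11, h12, h13, h14, h15, t0,
    t1, t2⟩ := h
  constructor <;> simp [State.putSet, *]
  exact ⟨by simp [h0], by simp [h5], by simp [h9], by simp [h17], by simp [h18]⟩

theorem Rl.putI (h : Rl P K s q) (v : Finset ℕ) : Rl P K (s.putSet 1 v) { q with I := v } := by
  obtain ⟨⟨h0, h5, h9, h17, h18⟩, h6, h8, h16, h19, h3, h4, h10, h11, h12, h13, h14, h15, t0,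
    t1, t2⟩ := h
  constructor <;> simp [State.putSet, *]
  exact ⟨by simp [h0], by simp [h5], by simp [h9], by simp [h17], by simp [h18]⟩

theorem Rl.putD (h : Rl P K s q) (v : Finset ℕ) : Rl P K (s.putSet 2 v) { q with D := v } := by
  obtain ⟨⟨h0, h5, h9, h17, h18⟩, h6, h8, h16, h19, h3, h4, h10, h11, h12, h13, h14, h15, t0,
    t1, t2⟩ := h
  constructor <;> simp [State.putSet, *]
  exact ⟨by simp [h0], by simp [h5], by simp [h9], by simp [h17], by simp [h18]⟩

end Vale.Agent.P317.Alg
end

section

set_option linter.unusedSimpArgs false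
set_option linter.unusedVariables false
set_option linter.unnecessarySeqFocus false
set_option linter.unreachableTactic false
set_option linter.unusedTactic false

namespace Vale.Agent.P317.Alg

open Rnd

variable {P : Par} {K : ℕ}

theorem tE_mono {κ : ℕ} (h : κ ≤ K) : tE P κ ≤ tE P K := by
  unfold tE
  have : P.n * κ ≤ P.n * K := Nat.mul_le_mul_left _ h
  (clear * - h this; omega)

theorem tS_mono {κ : ℕ} (h : κ ≤ K) : tS P κ ≤ tS P K := by
  unfold tS
  have := tE_mono (P := P) h
  omega

/-! ### start -/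

def startBody : Cmd :=
  .seq (.add 21 20 20) (.seq (.coin 22) (.seq (.add 21 21 22) (.seq (.insert 0 21) (.add 20 20 5))))

theorem sim_startLoop (m : ℕ) : ∀ (s : State) (q : Q) (i : ℕ), Rl P K s q → s.num 20 = i →
    Sim (fun s' T => Rl P K s' { q with S := T } ∧ s'.time ≤ s.time + 6 * m)
      (iter (run P.o startBody) m s) (Par.start m i q.S) := by
  induction m with
  | zero => intro s q i h _; exact ⟨h, by omega⟩
  | succ m ih =>
    intro s q i h h20
    rw [iter_succ]
    have h5 := h.cf.one
    have hS := h.S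
    set a : ℕ → State := fun c => ((((s.tick.putNum 21 (i + i)).putNum 22 c).putNum 21
      (i + i + c)).putSet 0 (insert (i + i + c) q.S)).putNum 20 (i + 1) with ha
    have e : run P.o startBody s.tick = .flip (.leaf (a 0)) (.leaf (a 1)) := by
      simp only [startBody, State.tick, run, State.putNum, h20, State.putSet, bind_leaf, ne_eq, Nat.reduceEqDiff, not_false_eq_true, Function.update_of_ne, Function.update_self, bind_flip, add_zero, h5, hS, ha]
    have key : ∀ c : ℕ, Rl P K (a c) { q with S := insert (i + i + c) q.S } := by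
      intro c
      exact ((((h.tick.scr (by norm_num)).scr (by norm_num)).scr (by norm_num)).putS _).scr
        (by norm_num)
    have k20 : ∀ c : ℕ, (a c).num 20 = i + 1 := by intro c; simp only [ha, State.putNum, Function.update_self, Nat.add_left_cancel_iff]
    have kt : ∀ c : ℕ, (a c).time = s.time + 6 := by
      intro c; simp only [ha, State.putNum, State.putSet, State.tick, Nat.add_right_cancel_iff, Nat.add_left_cancel_iff]
    rw [e]
    simp only [bind_leaf, bind_flip, Par.start]
    refine ⟨?_, ?_⟩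
    · have := ih (a 0) _ (i + 1) (key 0) (k20 0)
      simp only [Nat.add_zero] at this
      refine this.mono ?_
      rintro s' T ⟨h1, h2⟩
      refine ⟨h1, ?_⟩
      rw [kt] at h2; omega
    · have := ih (a 1) _ (i + 1) (key 1) (k20 1)
      refine this.mono ?_
      rintro s' T ⟨h1, h2⟩
      refine ⟨h1, ?_⟩
      rw [kt] at h2; omega

theorem sim_start {s : State} {q : Q} (h : Rl P K s q) :
    Sim (fun s' T => Rl P K s' { q with S := T } ∧ s'.time ≤ s.time + (6 * P.n + 3))
      (run P.o startCode s) (Par.start P.n 0 ∅) := by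
  have e : run P.o startCode s = iter (run P.o startBody) P.n
      ((s.putSet 0 ∅).putNum 20 0).tick := by
    have : ((s.putSet 0 ∅).putNum 20 0).num 0 = P.n := by
      simp [State.putNum, State.putSet, h.cf.n]
    rw [← this]
    rfl
  rw [e]
  have hR : Rl P K ((s.putSet 0 ∅).putNum 20 0).tick { q with S := ∅ } :=
    ((h.putS ∅).scr (by norm_num)).tick
  refine (sim_startLoop P.n _ { q with S := ∅ } 0 hR (by simp [State.putNum, State.tick])).mono ?_
  rintro s' T ⟨h1, h2⟩
  refine ⟨h1, ?_⟩
  simp only [State.putNum, State.putSet, State.tick] at h2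
  omega

/-! ### chain -/

theorem sim_chain {s : State} {q : Q} (h : Rl P K s q) (hn : 0 < P.n) (hr : P.r ≤ P.n)
    (hκ : q.κ ≤ K) :
    Sim (fun s' T => Rl P K s' { q with S := T } ∧ s'.time ≤ s.time + (P.L * (tS P K + 1) + 1))
      (run P.o (.loop 8 stepCode) s) (rep (P.step q.I q.D q.κ) P.L q.S) := by
  have e : run P.o (.loop 8 stepCode) s = iter (run P.o stepCode) P.L s.tick := by
    rw [← h.L]; rfl
  rw [e]
  have hmain := sim_iterN (A := Finset ℕ) (R := fun i s' T => Rl P K s' { q with S := T } ∧
    s'.time ≤ s.time + (i * (tS P K + 1) + 1)) (g := run P.o stepCode)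
    (g' := P.step q.I q.D q.κ) (by
      rintro i s' T ⟨h1, h2⟩
      have := sim_step h1.tick hn hr
      refine this.mono ?_
      rintro s'' T' ⟨h3, h4⟩
      refine ⟨h3, ?_⟩
      have h5 : tS P q.κ ≤ tS P K := tS_mono hκ
      simp only [State.tick] at h4
      have h6 : (i + 1) * (tS P K + 1) = i * (tS P K + 1) + (tS P K + 1) := by ring
      rw [h6]
      change s''.time ≤ s'.time + 1 + tS P q.κ at h4
      omega) P.L 0 s.tick q.S ⟨h.tick, by simp [State.tick]⟩
  rw [Nat.zero_add] at hmain
  exact hmain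

theorem sim_stages (hn : 0 < P.n) (hr : P.r ≤ P.n) (m : ℕ) : ∀ (s : State) (q : Q),
    Rl P K s q → q.κ + m ≤ K + 1 →
    Sim (fun s' T => Rl P K s' { q with S := T, κ := q.κ + m } ∧
        s'.time ≤ s.time + m * (P.L * (tS P K + 1) + 3))
      (iter (run P.o (.seq (.loop 8 stepCode) (.add 10 10 5))) m s)
      (P.stages q.I q.D m q.κ q.S) := by
  induction m with
  | zero => intro s q h _; exact ⟨h, by omega⟩
  | succ m ih =>
    intro s q h hκ
    rw [iter_succ]
    have e : run P.o (.seq (.loop 8 stepCode) (.add 10 10 5)) s.tick =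
        (run P.o (.loop 8 stepCode) s.tick).bind (run P.o (.add 10 10 5)) := rfl
    rw [e, bind_assoc]
    have hst : P.stages q.I q.D (m + 1) q.κ q.S =
      (rep (P.step q.I q.D q.κ) P.L q.S).bind (P.stages q.I q.D m (q.κ + 1)) := rfl
    rw [hst]
    refine (sim_chain h.tick hn hr (by omega)).bind ?_
    rintro s₁ T ⟨h1, h2⟩
    have e2 : run P.o (.add 10 10 5) s₁ = .leaf (s₁.putNum 10 (q.κ + 1)) := by
      have a1 : s₁.num 10 = q.κ := h1.κ
      simp [run, a1, h1.cf.one]
    simp only [e2, bind_leaf]
    have h3 := ih (s₁.putNum 10 (q.κ + 1)) _ (h1.putκ (q.κ + 1)) (by simp only; omega)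
    refine h3.mono ?_
    rintro s₂ T' ⟨h4, h5⟩
    refine ⟨?_, ?_⟩
    · have : q.κ + 1 + m = q.κ + (m + 1) := by ring
      simp only [this] at h4
      exact h4
    · simp only [State.putNum, State.tick] at h5 h2
      have h6 : (m + 1) * (P.L * (tS P K + 1) + 3) =
        m * (P.L * (tS P K + 1) + 3) + (P.L * (tS P K + 1) + 3) := by ring
      rw [h6]
      omega

theorem sim_thread {s : State} {q : Q} (h : Rl P K s q) (hn : 0 < P.n) (hr : P.r ≤ P.n)
    (hk : q.k < K) :
    Sim (fun s' T => Rl P K s' { q with S := T, κ := q.k + 1 } ∧ s'.time ≤ s.time + τT P K)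
      (run P.o threadCode s) (P.thread q.I q.D q.k) := by
  have e : run P.o threadCode s = (run P.o startCode s).bind (fun s =>
      iter (run P.o (.seq (.loop 8 stepCode) (.add 10 10 5)))
        (((s.putNum 10 0).putNum 49 ((s.putNum 10 0).num 11 + (s.putNum 10 0).num 5)).num 49)
        ((s.putNum 10 0).putNum 49 ((s.putNum 10 0).num 11 + (s.putNum 10 0).num 5)).tick) := rfl
  rw [e]
  unfold Par.thread
  refine (sim_start h).bind ?_
  rintro s₁ T ⟨h1, h2⟩
  have a11 : s₁.num 11 = q.k := h1.k
  have a5 : s₁.num 5 = 1 := h1.cf.one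
  have e3 : (s₁.putNum 10 0).num 11 + (s₁.putNum 10 0).num 5 = q.k + 1 := by
    simp [State.putNum, a11, a5]
  rw [e3]
  have e4 : ((s₁.putNum 10 0).putNum 49 (q.k + 1)).num 49 = q.k + 1 := by simp [State.putNum]
  rw [e4]
  have hR : Rl P K ((s₁.putNum 10 0).putNum 49 (q.k + 1)).tick { q with S := T, κ := 0 } :=
    ((h1.putκ 0).scr (by norm_num)).tick
  have h3 := sim_stages (K := K) hn hr (q.k + 1) _ _ hR (by simp only; omega)
  refine h3.mono ?_
  rintro s₂ T' ⟨h4, h5⟩
  refine ⟨?_, ?_⟩
  · simp only [Nat.zero_add] at h4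
    exact h4
  · simp only [State.putNum, State.tick] at h5
    unfold τT
    have h6 : (q.k + 1) * (P.L * (tS P K + 1) + 3) ≤ (K + 1) * (P.L * (tS P K + 1) + 4) :=
      Nat.mul_le_mul (by omega) (by omega)
    omega

/-! ### bookkeeping -/

theorem run_evPair {s : State} {q : Q} (h : Rl P K s q) (hn : 0 < P.n) (hr : P.r ≤ P.n)
    (hκ : q.κ ≤ K) :
    Ex (run P.o evPair s) (fun s' => Rl P K s' { q with
        x := q.x + (if P.typ q.i q.j q.S then 1 else 0)
        y := q.y + (if P.col q.S then 1 else 0) } ∧ s'.time ≤ s.time + (tE P K + 8)) := by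
  have R1 : Rl P K (s.putSet 3 (s.set 0)) q := h.congr (fun r _ => by simp [State.putSet])
    (fun X hX => by
      have : X ≠ 3 := by omega
      simp [State.putSet, this])
  refine Ex.seq (Q := fun s' => s' = s.putSet 3 (s.set 0)) ⟨_, rfl, rfl⟩ ?_
  rintro s₁ rfl
  refine (run_eval R1.cf hn hr).seq ?_
  rintro s₂ ⟨f2, a30, -, -, a33, a34⟩
  have b3 : (s.putSet 3 (s.set 0)).set 3 = q.S := by simp [State.putSet, h.S]
  rw [b3] at a30 a33 a34
  have hk : (s.putSet 3 (s.set 0)).num 10 = q.κ := R1.κ
  rw [hk] at f2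
  have R2 : Rl P K s₂ q := R1.fr f2
  have ht : s₂.time ≤ s.time + (tE P K + 1) := by
    have := f2.time
    have := tE_mono (P := P) hκ
    simp only [State.putSet] at *
    omega
  have z2 := R2.cf.zero
  have o2 := R2.cf.one
  have i2 := R2.i
  have j2 := R2.j
  have x2 := R2.x
  have y2 := R2.y
  by_cases hD : P.nD q.S = 0
  · have e : run P.o (.cond 18 30
      (.cond 33 12 skp (.cond 12 33 skp (.cond 34 13 skp (.cond 13 34 skp (.add 14 14 5)))))
      (.add 15 15 5)) s₂ = .leaf (s₂.tick.putNum 15 (q.y + 1)) := by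
      simp [run, z2, a30, hD, State.tick, State.putNum, y2, o2]
    rw [e]
    refine ⟨_, rfl, ?_, ?_⟩
    · have h3 := R2.tick.puty (q.y + 1)
      have t1 : P.typ q.i q.j q.S = false := by simp [Par.typ, hD]
      have t2 : P.col q.S = true := by simp [Par.col, hD]
      rw [t1, t2]
      exact h3
    · simp only [State.putNum, State.tick]; omega
  · have hD' : 0 < P.nD q.S := by omega
    have t2 : P.col q.S = false := by simp [Par.col, hD]
    by_cases c1 : P.dI q.S = q.i ∧ P.eI q.S = q.j
    · have e : run P.o (.cond 18 30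
        (.cond 33 12 skp (.cond 12 33 skp (.cond 34 13 skp (.cond 13 34 skp (.add 14 14 5)))))
        (.add 15 15 5)) s₂ = .leaf (s₂.tick.tick.tick.tick.tick.putNum 14 (q.x + 1)) := by
        simp [run, z2, a30, hD', State.tick, State.putNum, x2, o2, a33, a34, i2, j2, c1.1, c1.2]
      rw [e]
      refine ⟨_, rfl, ?_, ?_⟩
      · have h3 := R2.tick.tick.tick.tick.tick.putx (q.x + 1)
        have t1 : P.typ q.i q.j q.S = true := by simp [Par.typ, hD, c1.1, c1.2]
        rw [t1, t2]
        exact h3
      · simp only [State.putNum, State.tick]; omega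
    · have t1 : P.typ q.i q.j q.S = false := by
        simp only [Par.typ, decide_eq_false_iff_not]
        rintro ⟨-, h1, h2⟩
        exact c1 ⟨h1, h2⟩
      rw [t1, t2]
      -- one of the four comparisons succeeds
      have key : ∃ s', run P.o (.cond 18 30
        (.cond 33 12 skp (.cond 12 33 skp (.cond 34 13 skp (.cond 13 34 skp (.add 14 14 5)))))
        (.add 15 15 5)) s₂ = .leaf s' ∧ (∀ r < 20, s'.num r = s₂.num r) ∧
          (∀ X < 3, s'.set X = s₂.set X) ∧ s'.time ≤ s₂.time + 6 := by
        by_cases d1 : P.dI q.S < q.i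
        · refine ⟨s₂.tick.tick.putNum 25 0, ?_, ?_, ?_, ?_⟩
          · simp [run, skp, z2, a30, hD', State.tick, State.putNum, a33, a34, i2, j2, d1]
          · intro r hr
            have : r ≠ 25 := by omega
            simp [State.tick, State.putNum, this]
          · intro X _; simp [State.tick, State.putNum]
          · simp only [State.tick, State.putNum]; omega
        · by_cases d2 : q.i < P.dI q.S
          · refine ⟨s₂.tick.tick.tick.putNum 25 0, ?_, ?_, ?_, ?_⟩
            · simp [run, skp, z2, a30, hD', State.tick, State.putNum, a33, a34, i2, j2, d1, d2]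
            · intro r hr
              have : r ≠ 25 := by omega
              simp [State.tick, State.putNum, this]
            · intro X _; simp [State.tick, State.putNum]
            · simp only [State.tick, State.putNum]; omega
          · by_cases d3 : P.eI q.S < q.j
            · refine ⟨s₂.tick.tick.tick.tick.putNum 25 0, ?_, ?_, ?_, ?_⟩
              · simp only [run, z2, a30, hD', ↓reduceIte, State.tick, a33, i2, d1, d2, a34, j2, d3, skp, State.putNum]
              · intro r hr
                have : r ≠ 25 := by omega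
                simp [State.tick, State.putNum, this]
              · intro X _; simp [State.tick, State.putNum]
              · simp only [State.tick, State.putNum]; omega
            · by_cases d4 : q.j < P.eI q.S
              · refine ⟨s₂.tick.tick.tick.tick.tick.putNum 25 0, ?_, ?_, ?_, ?_⟩
                · simp [run, skp, z2, a30, hD', State.tick, State.putNum, a33, a34, i2, j2, d1,
                    d2, d3, d4]
                · intro r hr
                  have : r ≠ 25 := by (clear * - hr; omega)
                  simp [State.tick, State.putNum, this]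
                · intro X _; simp [State.tick, State.putNum]
                · simp only [State.tick, State.putNum]; (clear * -; omega)
              · exact absurd ⟨by omega, by omega⟩ c1
      obtain ⟨s', k1, k2, k3, k4⟩ := key
      exact ⟨s', k1, R2.congr k2 k3, by omega⟩

theorem run_evDrop {s : State} {q : Q} (h : Rl P K s q) (hn : 0 < P.n) (hr : P.r ≤ P.n)
    (hk : q.k < K) :
    Ex (run P.o evDrop s) (fun s' => ∃ κ', Rl P K s' { q with
        x := q.x + (if P.drop q.k q.S then 1 else 0)
        y := q.y + (if P.col q.S then 1 else 0)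
        κ := κ' } ∧ s'.time ≤ s.time + (2 * tE P K + 12)) := by
  have R1 : Rl P K (s.putSet 3 (s.set 0)) q := h.congr (fun r _ => by simp [State.putSet])
    (fun X hX => by
      have : X ≠ 3 := by omega
      simp [State.putSet, this])
  refine Ex.seq (Q := fun s' => s' = s.putSet 3 (s.set 0)) ⟨_, rfl, rfl⟩ ?_
  rintro s₁ rfl
  refine Ex.seq (Q := fun s' => s' = (s.putSet 3 (s.set 0)).putNum 10 (q.k + 1)) ⟨_, rfl, by
    rw [R1.k, R1.cf.one]⟩ ?_
  rintro s₁ rfl
  have R1' := R1.putκ (q.k + 1)
  set s₁ := (s.putSet 3 (s.set 0)).putNum 10 (q.k + 1) with hs1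
  refine (run_eval R1'.cf hn hr).seq ?_
  rintro s₂ ⟨f2, a30, -, a32, -, -⟩
  have b3 : s₁.set 3 = q.S := by simp [hs1, State.putSet, State.putNum, h.S]
  have b2 : s₁.set 2 = q.D := R1'.D
  have hk1 : s₁.num 10 = q.k + 1 := R1'.κ
  rw [b3] at a30
  rw [b3, b2, hk1] at a32
  rw [hk1] at f2
  have R2 : Rl P K s₂ { q with κ := q.k + 1 } := R1'.fr f2
  refine Ex.seq (Q := fun s' => s' = s₂.putNum 48 (P.qe q.D (q.k + 1) q.S)) ⟨_, rfl, by
    rw [a32, R2.cf.zero]; rfl⟩ ?_
  rintro s₃ rfl
  have R3 := R2.scr (r := 48) (v := P.qe q.D (q.k + 1) q.S) (by norm_num)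
  refine Ex.seq (Q := fun s' => s' = (s₂.putNum 48 (P.qe q.D (q.k + 1) q.S)).putNum 10 q.k)
    ⟨_, rfl, by
      have h1 := R3.k
      have h2 := R3.cf.zero
      simp only at h1
      rw [h1, h2]; rfl⟩ ?_
  rintro s₃ rfl
  have R3' := R3.putκ q.k
  set s₃ := (s₂.putNum 48 (P.qe q.D (q.k + 1) q.S)).putNum 10 q.k with hs3
  refine (run_eval R3'.cf hn hr).seq ?_
  rintro s₄ ⟨f4, d30, -, d32, -, -⟩
  have e3 : s₃.set 3 = q.S := by
    have : s₂.set 3 = s₁.set 3 := f2.set 3 (by norm_num) (by norm_num)
    simp [hs3, State.putNum, this, b3]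
  have e2 : s₃.set 2 = q.D := R3'.D
  have e10 : s₃.num 10 = q.k := R3'.κ
  rw [e3] at d30
  rw [e3, e2, e10] at d32
  rw [e10] at f4
  have R4 : Rl P K s₄ { q with κ := q.k } := R3'.fr f4
  have d48 : s₄.num 48 = P.qe q.D (q.k + 1) q.S := by
    rw [f4.num 48 (by norm_num)]; simp only [hs3, State.putNum, ne_eq, Nat.reduceEqDiff, not_false_eq_true, Function.update_of_ne, Function.update_self]
  have ht : s₄.time ≤ s.time + (2 * tE P K + 4) := by
    have t2 := f2.time
    have t4 := f4.time
    have m1 := tE_mono (P := P) (K := K) (κ := q.k + 1) (by omega)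
    have m2 := tE_mono (P := P) (K := K) (κ := q.k) (by omega)
    simp only [hs1, hs3, State.putNum, State.putSet] at *
    (clear * - m1 m2 t2 t4; omega)
  have z4 := R4.cf.zero
  have o4 := R4.cf.one
  have x4 : s₄.num 14 = q.x := R4.x
  have y4 : s₄.num 15 = q.y := R4.y
  by_cases hD : P.nD q.S = 0
  · have t2 : P.col q.S = true := by simp [Par.col, hD]
    have q1 : P.qe q.D (q.k + 1) q.S = (q.k + 1) * P.dfc q.S / P.n := by simp only [Par.qe, hD, ↓reduceIte, add_zero]
    have q0 : P.qe q.D q.k q.S = q.k * P.dfc q.S / P.n := by simp [Par.qe, hD]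
    rw [q1] at d48
    rw [q0] at d32
    by_cases c1 : q.k * P.dfc q.S / P.n < (q.k + 1) * P.dfc q.S / P.n
    · have t1 : P.drop q.k q.S = true := by simp only [Par.drop, hD, c1, and_self, decide_true]
      have e : run P.o (.cond 18 30 skp
          (.seq (.add 15 15 5) (.cond 32 48 (.add 14 14 5) skp))) s₄ =
          .leaf (((s₄.tick.putNum 15 (q.y + 1)).tick).putNum 14 (q.x + 1)) := by
        simp only [run, z4, d30, hD, lt_self_iff_false, ↓reduceIte, State.putNum, State.tick, y4, o4, skp, bind_leaf, ne_eq, Nat.reduceEqDiff, not_false_eq_true, Function.update_of_ne, d32, d48, c1, x4]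
      rw [e]
      refine ⟨_, rfl, q.k, ?_, ?_⟩
      · rw [t1, t2]
        have := ((R4.tick.puty (q.y + 1)).tick).putx (q.x + 1)
        exact this
      · simp only [State.putNum, State.tick]; omega
    · have t1 : P.drop q.k q.S = false := by simp only [Par.drop, hD, c1, and_false, decide_false]
      have e : run P.o (.cond 18 30 skp
          (.seq (.add 15 15 5) (.cond 32 48 (.add 14 14 5) skp))) s₄ =
          .leaf (((s₄.tick.putNum 15 (q.y + 1)).tick).putNum 25 0) := by
        simp only [run, z4, d30, hD, lt_self_iff_false, ↓reduceIte, State.putNum, State.tick, y4, o4, skp, bind_leaf, ne_eq, Nat.reduceEqDiff, not_false_eq_true, Function.update_of_ne, d32, d48, c1]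
      rw [e]
      refine ⟨_, rfl, q.k, ?_, ?_⟩
      · rw [t1, t2]
        have := ((R4.tick.puty (q.y + 1)).tick).scr (r := 25) (v := 0) (by norm_num)
        exact this
      · simp only [State.putNum, State.tick]; omega
  · have hD' : 0 < P.nD q.S := by omega
    have t2 : P.col q.S = false := by simp [Par.col, hD]
    have t1 : P.drop q.k q.S = false := by simp only [Par.drop, hD, false_and, decide_false]
    have e : run P.o (.cond 18 30 skp
        (.seq (.add 15 15 5) (.cond 32 48 (.add 14 14 5) skp))) s₄ =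
        .leaf (s₄.tick.putNum 25 0) := by
      simp [run, skp, z4, d30, hD', State.tick, State.putNum]
    rw [e]
    refine ⟨_, rfl, q.k, ?_, ?_⟩
    · rw [t1, t2]
      have := (R4.tick).scr (r := 25) (v := 0) (by norm_num)
      exact this
    · simp only [State.putNum, State.tick]; omega

/-! ### experiments -/

/-- one round of an experiment -/
theorem sim_expt {s : State} {q : Q} {ev : Cmd} {p₁ p₂ : Finset ℕ → Bool}
    (h : Rt P K s q) (hn : 0 < P.n) (hr : P.r ≤ P.n) (hk : q.k < K)
    (hev : ∀ (s : State) (q' : Q), Rl P K s q' → q'.k = q.k → q'.i = q.i → q'.j = q.j →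
      q'.κ ≤ K →
      Ex (run P.o ev s) (fun s' => ∃ κ', Rl P K s' { q' with
        x := q'.x + (if p₁ q'.S then 1 else 0)
        y := q'.y + (if p₂ q'.S then 1 else 0)
        κ := κ' } ∧ s'.time ≤ s.time + (2 * tE P K + 12))) :
    Sim (fun s' c => Rt P K s' { q with x := c.1, y := c.2 } ∧ s'.time ≤ s.time + τX P K ∧
        c.1 ≤ P.L ∧ c.2 ≤ P.L)
      (run P.o (exptCode ev) s) (Par.expt (P.thread q.I q.D q.k) p₁ p₂ P.L (0, 0)) := by
  obtain ⟨S₀, κ₀, h⟩ := h
  have e : run P.o (exptCode ev) s = iter (run P.o (.seq threadCode ev)) P.L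
      ((s.putNum 14 0).putNum 15 0).tick := by
    have : ((s.putNum 14 0).putNum 15 0).num 8 = P.L := by simp [State.putNum, h.L]
    rw [← this]
    rfl
  rw [e]
  unfold Par.expt
  have hmain := sim_iterN (A := ℕ × ℕ) (R := fun i s' c => Rt P K s' { q with x := c.1, y := c.2 } ∧
    s'.time ≤ s.time + (i * (τT P K + 2 * tE P K + 15) + 3) ∧ c.1 ≤ i ∧ c.2 ≤ i)
    (g := run P.o (.seq threadCode ev))
    (g' := fun c => (P.thread q.I q.D q.k).bind fun S =>
      .leaf (c.1 + (if p₁ S then 1 else 0), c.2 + (if p₂ S then 1 else 0))) (by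
      rintro i s' c ⟨⟨S₁, κ₁, h1⟩, h2, h3, h4⟩
      have e2 : run P.o (.seq threadCode ev) s'.tick =
        (run P.o threadCode s'.tick).bind (run P.o ev) := rfl
      rw [e2]
      refine (sim_thread h1.tick hn hr hk).bind ?_
      rintro s₂ T ⟨k1, k2⟩
      refine (hev s₂ _ k1 rfl rfl rfl hk).leaf ?_
      rintro s₃ ⟨κ', m1, m2⟩
      refine ⟨⟨T, κ', m1⟩, ?_, ?_, ?_⟩
      · simp only [State.tick] at k2
        have h6 : (i + 1) * (τT P K + 2 * tE P K + 15) =
          i * (τT P K + 2 * tE P K + 15) + (τT P K + 2 * tE P K + 15) := by ring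
        rw [h6]
        omega
      · simp only; split_ifs <;> omega
      · simp only; split_ifs <;> omega) P.L 0
    ((s.putNum 14 0).putNum 15 0).tick (0, 0)
    ⟨⟨S₀, κ₀, ((h.putx 0).puty 0).tick⟩, by simp [State.putNum, State.tick], by simp, by simp⟩
  rw [Nat.zero_add] at hmain
  refine hmain.mono ?_
  rintro s' c ⟨h1, h2, h3, h4⟩
  refine ⟨h1, ?_, h3, h4⟩
  unfold τX
  have : P.L * (τT P K + 2 * tE P K + 15) ≤ P.L * (τT P K + 2 * tE P K + 20) :=
    Nat.mul_le_mul_left _ (by (clear * -; omega))
  omega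

theorem sim_exptPair {s : State} {q : Q} (h : Rt P K s q) (hn : 0 < P.n) (hr : P.r ≤ P.n)
    (hk : q.k < K) :
    Sim (fun s' c => Rt P K s' { q with x := c.1, y := c.2 } ∧ s'.time ≤ s.time + τX P K ∧
        c.1 ≤ P.L ∧ c.2 ≤ P.L)
      (run P.o (exptCode evPair) s)
      (Par.expt (P.thread q.I q.D q.k) (P.typ q.i q.j) P.col P.L (0, 0)) := by
  refine sim_expt h hn hr hk ?_
  intro s q' hq' e1 e2 e3 hκ
  refine (run_evPair hq' hn hr hκ).mono ?_
  rintro s' ⟨h1, h2⟩
  rw [← e2, ← e3]
  exact ⟨q'.κ, h1, by (clear * - h2; omega)⟩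

theorem sim_exptDrop {s : State} {q : Q} (h : Rt P K s q) (hn : 0 < P.n) (hr : P.r ≤ P.n)
    (hk : q.k < K) :
    Sim (fun s' c => Rt P K s' { q with x := c.1, y := c.2 } ∧ s'.time ≤ s.time + τX P K ∧
        c.1 ≤ P.L ∧ c.2 ≤ P.L)
      (run P.o (exptCode evDrop) s)
      (Par.expt (P.thread q.I q.D q.k) (P.drop q.k) P.col P.L (0, 0)) := by
  refine sim_expt h hn hr hk ?_
  intro s q' hq' e1 e2 e3 hκ
  refine (run_evDrop hq' hn hr (by omega)).mono ?_
  rintro s' ⟨κ', h1, h2⟩
  rw [← e1]
  exact ⟨κ', h1, h2⟩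

end Vale.Agent.P317.Alg
end

section

set_option linter.unusedVariables false

namespace Vale.Agent.P317.Alg

theorem tM_le {P : Par} {u : ℕ} (hu : 1 ≤ u) (hn : P.n ≤ u) (hL : P.L = u ^ 34)
    (ha : P.a ≤ 4 * u) : τM P (P.n * u) ≤ 20000 * u ^ 77 := by
  set K := P.n * u with hK
  have hpow : ∀ {a b : ℕ}, a ≤ b → u ^ a ≤ u ^ b := fun h => Nat.pow_le_pow_right hu h
  have h1 : ∀ b, 1 ≤ u ^ b := fun b => Nat.one_le_pow _ _ hu
  have hu' : ∀ {b : ℕ}, 1 ≤ b → u ≤ u ^ b := by
    intro b hb
    calc u = u ^ 1 := (pow_one u).symm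
      _ ≤ u ^ b := hpow hb
  have hKu : K ≤ u ^ 2 := by
    rw [hK, pow_two]; exact Nat.mul_le_mul hn le_rfl
  have hnK : P.n * K ≤ u ^ 3 := by
    calc P.n * K ≤ u * u ^ 2 := Nat.mul_le_mul hn hKu
      _ = u ^ 3 := by ring
  have htE : tE P K ≤ 240 * u ^ 3 := by
    unfold tE
    have a1 : P.n ≤ u ^ 3 := hn.trans (hu' (by norm_num))
    have a2 : K ≤ u ^ 3 := hKu.trans (hpow (by norm_num))
    have a3 := h1 3
    omega
  have htS : tS P K ≤ 600 * u ^ 3 := by
    unfold tS
    have a1 : P.a ≤ 4 * u ^ 3 := by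
      have := hu' (b := 3) (by (clear * -; norm_num))
      omega
    have a2 : K ≤ u ^ 3 := hKu.trans (hpow (by norm_num))
    have a3 := h1 3
    omega
  have hτT : τT P K ≤ 1300 * u ^ 39 := by
    unfold τT
    have a1 : K + 1 ≤ 2 * u ^ 2 := by have := h1 2; omega
    have a2 : P.L * (tS P K + 1) + 4 ≤ 605 * u ^ 37 := by
      have b1 : P.L * (tS P K + 1) ≤ u ^ 34 * (601 * u ^ 3) := by
        rw [hL]; apply Nat.mul_le_mul_left
        have := h1 3; omega
      have b2 : u ^ 34 * (601 * u ^ 3) = 601 * u ^ 37 := by ring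
      have b3 := h1 37
      (clear * - b1 b2 b3; omega)
    have a3 : (K + 1) * (P.L * (tS P K + 1) + 4) ≤ (2 * u ^ 2) * (605 * u ^ 37) :=
      Nat.mul_le_mul a1 a2
    have a4 : (2 * u ^ 2) * (605 * u ^ 37) = 1210 * u ^ 39 := by ring
    have a5 : P.n ≤ u ^ 39 := hn.trans (hu' (by norm_num))
    have a6 := h1 39
    (clear * - a3 a4 a5 a6; omega)
  have hτX : τX P K ≤ 1805 * u ^ 73 := by
    unfold τX
    have a1 : τT P K + 2 * tE P K + 20 ≤ 1800 * u ^ 39 := by
      have b1 : u ^ 3 ≤ u ^ 39 := hpow (by norm_num)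
      have b2 := h1 39
      omega
    have a2 : P.L * (τT P K + 2 * tE P K + 20) ≤ u ^ 34 * (1800 * u ^ 39) := by
      rw [hL]; exact Nat.mul_le_mul_left _ a1
    have a3 : u ^ 34 * (1800 * u ^ 39) = 1800 * u ^ 73 := by ring
    have a4 := h1 73
    omega
  have hτP : τP P K ≤ 1839 * u ^ 73 := by
    unfold τP
    have a1 : P.n ≤ u ^ 73 := hn.trans (hu' (by norm_num))
    have a2 : K ≤ u ^ 73 := hKu.trans (hpow (by norm_num))
    have a3 := h1 73
    omega
  have hτG : τG P K ≤ 18439 * u ^ 75 := by
    unfold τG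
    have a1 : P.n + 2 ≤ 3 * u := by (clear * - hu hn; omega)
    have a2 : τP P K + 5 ≤ 1844 * u ^ 73 := by have := h1 73; omega
    have a3 : (P.n + 2) * ((P.n + 2) * (τP P K + 5)) ≤ (3 * u) * ((3 * u) * (1844 * u ^ 73)) :=
      Nat.mul_le_mul a1 (Nat.mul_le_mul a1 a2)
    have a4 : (3 * u) * ((3 * u) * (1844 * u ^ 73)) = 16596 * u ^ 75 := by ring
    have a5 : u ^ 73 ≤ u ^ 75 := hpow (by norm_num)
    have a6 : P.L ≤ u ^ 75 := by rw [hL]; exact hpow (by norm_num)
    have a7 := h1 75
    (clear * - hL hτX a3 a4 a5 a6 a7; omega)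
  unfold τM
  have a1 : K * (τG P K + 5) ≤ u ^ 2 * (18444 * u ^ 75) := by
    apply Nat.mul_le_mul hKu
    have := h1 75; omega
  have a2 : u ^ 2 * (18444 * u ^ 75) = 18444 * u ^ 77 := by ring
  have a3 := h1 77
  (clear * - a1 a2 a3; omega)

end Vale.Agent.P317.Alg
end

section

open Finset

namespace Vale.Agent.P317.TL

variable {V : Type*} [Fintype V] [DecidableEq V]

/-- directional derivative of a set function in direction `v` -/
def D (v : V × Bool → ℝ) (F : Finset (V × Bool) → ℝ) (S : Finset (V × Bool)) : ℝ :=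
  ∑ e, if e ∈ S then 0 else v e * F (insert e S)

/-- sum of `f (S ∪ T)` over all transversals `T` of the cells `(j,false),(j,true)`, `j ∈ J` -/
def TS (J : Finset V) (f : Finset (V × Bool) → ℝ) (S : Finset (V × Bool)) : ℝ :=
  ∑ A ∈ J.powerset, f (S ∪ J.image (fun i => (i, decide (i ∈ A))))

/-- unit vector -/
def δ (e : V × Bool) : V × Bool → ℝ := fun x => if x = e then 1 else 0

/-! ### `TS` -/

omit [Fintype V] in
@[simp] lemma TS_empty (f : Finset (V × Bool) → ℝ) (S : Finset (V × Bool)) :
    TS ∅ f S = f S := by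
  simp [TS]

omit [Fintype V] in
lemma TS_insert {i : V} {J : Finset V} (hi : i ∉ J) (f : Finset (V × Bool) → ℝ)
    (S : Finset (V × Bool)) :
    TS (insert i J) f S = TS J f (insert (i, false) S) + TS J f (insert (i, true) S) := by
  unfold TS
  rw [Finset.sum_powerset_insert hi]
  congr 1
  · refine Finset.sum_congr rfl fun A hA => ?_
    have hiA : i ∉ A := fun h => hi (Finset.mem_powerset.mp hA h)
    congr 1
    rw [Finset.image_insert]
    simp only [hiA, decide_false]
    rw [Finset.union_insert, Finset.insert_union]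
  · refine Finset.sum_congr rfl fun A hA => ?_
    congr 1
    rw [Finset.image_insert]
    have : J.image (fun j => (j, decide (j ∈ insert i A))) =
        J.image (fun j => (j, decide (j ∈ A))) := by
      refine Finset.image_congr fun j hj => ?_
      have hji : j ≠ i := fun h => hi (h ▸ hj)
      simp [hji]
    rw [this]
    simp only [Finset.mem_insert_self, decide_true]
    rw [Finset.union_insert, Finset.insert_union]

omit [Fintype V] in
lemma TS_add (J : Finset V) (f g : Finset (V × Bool) → ℝ) (S : Finset (V × Bool)) :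
    TS J (fun T => f T + g T) S = TS J f S + TS J g S := by
  simp only [TS, sum_add_distrib]

omit [Fintype V] in
lemma TS_sub (J : Finset V) (f g : Finset (V × Bool) → ℝ) (S : Finset (V × Bool)) :
    TS J (fun T => f T - g T) S = TS J f S - TS J g S := by
  simp only [TS, sum_sub_distrib]

omit [Fintype V] in
lemma TS_mul (J : Finset V) (c : ℝ) (f : Finset (V × Bool) → ℝ) (S : Finset (V × Bool)) :
    TS J (fun T => c * f T) S = c * TS J f S := by
  simp only [TS, mul_sum]

omit [Fintype V] in
lemma TS_nonneg (J : Finset V) (f : Finset (V × Bool) → ℝ) (hf : ∀ T, 0 ≤ f T)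
    (S : Finset (V × Bool)) : 0 ≤ TS J f S :=
  Finset.sum_nonneg fun _ _ => hf _

omit [Fintype V] in
lemma TS_pos (J : Finset V) (f : Finset (V × Bool) → ℝ) (hf : ∀ T, 0 < f T)
    (S : Finset (V × Bool)) : 0 < TS J f S :=
  Finset.sum_pos (fun _ _ => hf _) ⟨∅, by simp⟩

omit [Fintype V] in
/-- congruence: the sets occurring in `TS J f S` meet the cell of `i ∉ J` only in `S` -/
lemma TS_congr (J : Finset V) {f g : Finset (V × Bool) → ℝ} (S : Finset (V × Bool))
    (h : ∀ T, S ⊆ T → (∀ e ∈ T, e.1 ∉ J → e ∈ S) → f T = g T) : TS J f S = TS J g S := by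
  refine Finset.sum_congr rfl fun A hA => h _ Finset.subset_union_left ?_
  intro e he heJ
  rcases Finset.mem_union.mp he with he | he
  · exact he
  · obtain ⟨j, hj, rfl⟩ := Finset.mem_image.mp he
    exact absurd hj heJ

omit [Fintype V] in
/-- pinning an element -/
lemma TS_pin (J : Finset V) (f : Finset (V × Bool) → ℝ) (S : Finset (V × Bool))
    (e : V × Bool) : TS J (fun T => f (insert e T)) S = TS J f (insert e S) := by
  unfold TS
  refine Finset.sum_congr rfl fun A _ => ?_
  rw [Finset.insert_union]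

omit [Fintype V] in
lemma TS_sq_le (J : Finset V) (w x : Finset (V × Bool) → ℝ) (hw : ∀ T, 0 ≤ w T)
    (S : Finset (V × Bool)) :
    (TS J (fun T => w T * x T) S) ^ 2 ≤ TS J w S * TS J (fun T => w T * x T ^ 2) S := by
  unfold TS
  have := Finset.sum_mul_sq_le_sq_mul_sq J.powerset
    (fun A => Real.sqrt (w (S ∪ J.image (fun i => (i, decide (i ∈ A))))))
    (fun A => Real.sqrt (w (S ∪ J.image (fun i => (i, decide (i ∈ A))))) *
      x (S ∪ J.image (fun i => (i, decide (i ∈ A)))))
  calc _ = (∑ A ∈ J.powerset, Real.sqrt (w (S ∪ J.image (fun i => (i, decide (i ∈ A))))) *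
        (Real.sqrt (w (S ∪ J.image (fun i => (i, decide (i ∈ A))))) *
      x (S ∪ J.image (fun i => (i, decide (i ∈ A)))))) ^ 2 := by
        congr 1
        refine Finset.sum_congr rfl fun A _ => ?_
        rw [← mul_assoc, Real.mul_self_sqrt (hw _)]
    _ ≤ _ := this
    _ = _ := by
        congr 1
        · refine Finset.sum_congr rfl fun A _ => ?_
          rw [Real.sq_sqrt (hw _)]
        · refine Finset.sum_congr rfl fun A _ => ?_
          rw [mul_pow, Real.sq_sqrt (hw _)]

/-! ### `D` -/

lemma D_add (v w : V × Bool → ℝ) (F : Finset (V × Bool) → ℝ) (S : Finset (V × Bool)) :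
    D (fun x => v x + w x) F S = D v F S + D w F S := by
  unfold D
  rw [← Finset.sum_add_distrib]
  refine Finset.sum_congr rfl fun e _ => ?_
  split_ifs <;> ring

lemma D_smul (c : ℝ) (v : V × Bool → ℝ) (F : Finset (V × Bool) → ℝ) (S : Finset (V × Bool)) :
    D (fun x => c * v x) F S = c * D v F S := by
  unfold D
  rw [Finset.mul_sum]
  refine Finset.sum_congr rfl fun e _ => ?_
  split_ifs <;> ring

lemma D_fun_add (v : V × Bool → ℝ) (F G : Finset (V × Bool) → ℝ) (S : Finset (V × Bool)) :
    D v (fun T => F T + G T) S = D v F S + D v G S := by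
  unfold D
  rw [← Finset.sum_add_distrib]
  refine Finset.sum_congr rfl fun e _ => ?_
  split_ifs <;> ring

lemma D_fun_smul (c : ℝ) (v : V × Bool → ℝ) (F : Finset (V × Bool) → ℝ)
    (S : Finset (V × Bool)) :
    D v (fun T => c * F T) S = c * D v F S := by
  unfold D
  rw [Finset.mul_sum]
  refine Finset.sum_congr rfl fun e _ => ?_
  split_ifs <;> ring

lemma D_δ (a : V × Bool) (F : Finset (V × Bool) → ℝ) (S : Finset (V × Bool)) :
    D (δ a) F S = if a ∈ S then 0 else F (insert a S) := by
  unfold D δ
  rw [Finset.sum_eq_single a]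
  · simp
  · intro b _ hb
    simp [hb]
  · simp only [mem_univ, not_true_eq_false, ↓reduceIte, one_mul, ite_eq_left_iff, IsEmpty.forall_iff]

lemma D_comm (v w : V × Bool → ℝ) (F : Finset (V × Bool) → ℝ) (S : Finset (V × Bool)) :
    D v (D w F) S = D w (D v F) S := by
  unfold D
  have h : ∀ (a b : V × Bool → ℝ), (∑ e, if e ∈ S then 0 else
      a e * ∑ x, if x ∈ insert e S then 0 else b x * F (insert x (insert e S))) =
      ∑ e, ∑ x, if e ∈ S ∨ x ∈ S ∨ x = e then 0 else a e * b x * F (insert x (insert e S)) := by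
    intro a b
    refine Finset.sum_congr rfl fun e _ => ?_
    by_cases he : e ∈ S
    · simp only [he, ↓reduceIte, true_or, sum_const_zero]
    · simp only [he, if_false, false_or, Finset.mem_insert]
      rw [Finset.mul_sum]
      refine Finset.sum_congr rfl fun x _ => ?_
      by_cases hx : x = e ∨ x ∈ S
      · rw [if_pos hx, if_pos (Or.symm hx), mul_zero]
      · rw [if_neg hx, if_neg (fun h => hx (Or.symm h))]
        ring
  rw [h v w, h w v, Finset.sum_comm]
  refine Finset.sum_congr rfl fun e _ => Finset.sum_congr rfl fun x _ => ?_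
  have : (x ∈ S ∨ e ∈ S ∨ e = x) ↔ (e ∈ S ∨ x ∈ S ∨ x = e) := by
    constructor
    · rintro (h | h | h)
      · exact Or.inr (Or.inl h)
      · exact Or.inl h
      · exact Or.inr (Or.inr h.symm)
    · rintro (h | h | h)
      · exact Or.inr (Or.inl h)
      · exact Or.inl h
      · exact Or.inr (Or.inr h.symm)
  by_cases hh : e ∈ S ∨ x ∈ S ∨ x = e
  · rw [if_pos hh, if_pos (this.mpr hh)]
  · rw [if_neg hh, if_neg (fun h => hh (this.mp h)), Finset.insert_comm]
    ring


/-! ### the second order expansions -/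

/-- Hodge-Riemann property on the neutral subspace (only the instances needed below) -/
def HR (n : ℕ) (W : Finset (V × Bool) → ℝ) : Prop :=
  ∀ (ρ : Finset (V × Bool)) (J : Finset V) (i : V) (y : V × Bool → ℝ), i ∉ J →
    (∀ e ∈ ρ, e.1 ∉ insert i J) → ρ.card + J.card + 2 = n →
    TS (insert i J) (D y W) ρ = 0 → TS J (D y (D y W)) ρ ≤ 0

/-- the energy of `u` across cell `i` -/
def En (W u : Finset (V × Bool) → ℝ) (i : V) (J : Finset V) (ρ : Finset (V × Bool)) : ℝ :=
  TS J (fun T => W (insert (i, false) (insert (i, true) T)) *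
    (u (insert (i, false) T) - u (insert (i, true) T)) ^ 2) ρ

lemma D_D_expand (c : ℝ) (v w : V × Bool → ℝ) (W : Finset (V × Bool) → ℝ)
    (S : Finset (V × Bool)) :
    D (fun x => v x + c * w x) (D (fun x => v x + c * w x) W) S =
      D v (D v W) S + 2 * c * D w (D v W) S + c ^ 2 * D w (D w W) S := by
  have h1 : (D (fun x => v x + c * w x) W) = fun T => D v W T + c * D w W T := by
    funext T
    rw [D_add, D_smul]
  rw [h1, D_fun_add, D_fun_smul, D_add, D_smul, D_add, D_smul, D_comm v w W S]
  ring

lemma D_δ_δ (a : V × Bool) (W : Finset (V × Bool) → ℝ) (S : Finset (V × Bool)) :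
    D (δ a) (D (δ a) W) S = 0 := by
  rw [D_δ]
  split_ifs
  · rfl
  · rw [D_δ]
    simp

/-- second derivative after changing `v` by a multiple of a unit vector -/
lemma D_D_add_δ (c : ℝ) (a : V × Bool) (v : V × Bool → ℝ) (W : Finset (V × Bool) → ℝ)
    (S : Finset (V × Bool)) (ha : a ∉ S) :
    D (fun x => v x + c * δ a x) (D (fun x => v x + c * δ a x) W) S =
      D v (D v W) S + 2 * c * D v W (insert a S) := by
  rw [D_D_expand, D_δ_δ, D_δ, if_neg ha]
  ring

/-- key inequality for the shift parameter -/
lemma shift_le {n : ℕ} {W : Finset (V × Bool) → ℝ} (hW : ∀ T, 0 < W T) (hHR : HR n W)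
    {ρ : Finset (V × Bool)} {J : Finset V} {i : V} {v : V × Bool → ℝ} (hi : i ∉ J)
    (hρ : ∀ e ∈ ρ, e.1 ∉ insert i J) (hn : ρ.card + J.card + 2 = n)
    (hneu : TS (insert i J) (D v W) ρ = 0) :
    (TS J (D v W) (insert (i, false) ρ)) ^ 2 ≤
      TS J (fun T => W (insert (i, false) (insert (i, true) T))) ρ *
        (1 / 2 * (- TS J (D v (D v W)) ρ)) := by
  set s := TS J (D v W) (insert (i, false) ρ) with hs
  set q := TS J (fun T => W (insert (i, false) (insert (i, true) T))) ρ with hq
  have hqpos : 0 < q := TS_pos _ _ (fun T => hW _) _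
  have hs' : TS J (D v W) (insert (i, true) ρ) = - s := by
    have := TS_insert hi (D v W) ρ
    rw [hneu] at this
    linarith only [this]
  -- membership facts
  have hmem : ∀ (b : Bool) (T : Finset (V × Bool)), ρ ⊆ T → (∀ e ∈ T, e.1 ∉ J → e ∈ ρ) →
      (i, b) ∉ T := by
    intro b T _ hT hh
    have := hT _ hh hi
    exact hρ _ this (Finset.mem_insert_self _ _)
  have hne : ((i, true) : V × Bool) ≠ (i, false) := by simp
  have hD0 : TS J (D (δ (i, false)) (D v W)) ρ = s := by
    rw [hs, ← TS_pin]
    refine TS_congr _ _ fun T h1 h2 => ?_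
    rw [D_δ, if_neg (hmem _ _ h1 h2)]
  have hD1 : TS J (D (δ (i, true)) (D v W)) ρ = - s := by
    rw [← hs', ← TS_pin]
    refine TS_congr _ _ fun T h1 h2 => ?_
    rw [D_δ, if_neg (hmem _ _ h1 h2)]
  have hD01 : TS J (D (δ (i, false)) (D (δ (i, true)) W)) ρ = q := by
    rw [hq]
    refine TS_congr _ _ fun T h1 h2 => ?_
    rw [D_δ, if_neg (hmem _ _ h1 h2), D_δ, if_neg]
    · rw [Finset.insert_comm]
    · intro h
      rcases Finset.mem_insert.mp h with h | h
      · exact hne h
      · exact hmem _ _ h1 h2 h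
  -- the direction `v + lam (δ₀ - δ₁)` is neutral for every lam
  set lam : ℝ := s / q with hlam
  let w : V × Bool → ℝ := fun x => δ (i, false) x + (-1) * δ (i, true) x
  have hneu2 : TS (insert i J) (D (fun x => v x + lam * w x) W) ρ = 0 := by
    have h1 : (D (fun x => v x + lam * w x) W) =
        fun T => D v W T + lam * D w W T := by
      funext T
      rw [D_add, D_smul]
    rw [h1, TS_add, TS_mul, hneu]
    have h2 : D w W = fun T => D (δ (i, false)) W T + (-1) * D (δ (i, true)) W T := by
      funext T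
      rw [D_add, D_smul]
    rw [h2, TS_add, TS_mul]
    have h3 : TS (insert i J) (D (δ (i, false)) W) ρ = q := by
      rw [TS_insert hi, ← TS_pin, ← TS_pin, ← TS_add, hq]
      refine TS_congr _ _ fun T h1 h2 => ?_
      rw [D_δ, D_δ, if_pos (Finset.mem_insert_self _ _), if_neg, zero_add]
      intro h
      rcases Finset.mem_insert.mp h with h | h
      · exact hne h.symm
      · exact hmem _ _ h1 h2 h
    have h4 : TS (insert i J) (D (δ (i, true)) W) ρ = q := by
      rw [TS_insert hi, ← TS_pin, ← TS_pin, ← TS_add, hq]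
      refine TS_congr _ _ fun T h1 h2 => ?_
      rw [D_δ, D_δ, if_pos (Finset.mem_insert_self _ (T)), if_neg, add_zero,
        Finset.insert_comm]
      intro h
      rcases Finset.mem_insert.mp h with h | h
      · exact hne h
      · exact hmem _ _ h1 h2 h
    rw [h3, h4]
    ring
  have key := hHR ρ J i _ hi hρ hn hneu2
  have hexp : TS J (D (fun x => v x + lam * w x) (D (fun x => v x + lam * w x) W)) ρ =
      TS J (D v (D v W)) ρ + 4 * lam * s - 2 * lam ^ 2 * q := by
    have h1 : (D (fun x => v x + lam * w x) (D (fun x => v x + lam * w x) W)) =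
        fun T => D v (D v W) T + 2 * lam * D w (D v W) T + lam ^ 2 * D w (D w W) T := by
      funext T
      rw [D_D_expand]
    rw [h1, TS_add, TS_add, TS_mul, TS_mul]
    have h2 : D w (D v W) = fun T => D (δ (i, false)) (D v W) T +
        (-1) * D (δ (i, true)) (D v W) T := by
      funext T
      rw [D_add, D_smul]
    have h3 : D w (D w W) = fun T => (-2) * D (δ (i, false)) (D (δ (i, true)) W) T := by
      funext T
      show D (fun x => δ (i, false) x + (-1) * δ (i, true) x)
        (D (fun x => δ (i, false) x + (-1) * δ (i, true) x) W) T = _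
      rw [D_D_expand, D_δ_δ, D_δ_δ, D_comm (δ (i, true))]
      ring
    rw [h2, h3, TS_add, TS_mul, TS_mul, hD0, hD1, hD01]
    ring
  rw [hexp] at key
  have hlq : lam * q = s := by rw [hlam]; (clear * - hqpos; field_simp)
  have h5 : TS J (D v (D v W)) ρ + 2 * (s * lam) ≤ 0 := by
    have : 4 * lam * s - 2 * lam ^ 2 * q = 2 * (s * lam) := by
      have : lam ^ 2 * q = lam * s := by rw [sq, mul_assoc, hlq]
      rw [mul_assoc 2, this]; ring
    linarith only [key, this]
  have h6 : s ^ 2 = q * (s * lam) := by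
    rw [← hlq]; ring
  rw [h6]
  exact mul_le_mul_of_nonneg_left (by linarith only [h5]) hqpos.le

lemma sqrt_add_sqrt_le {a b c d : ℝ} (ha : 0 ≤ a) (hb : 0 ≤ b) (hc : 0 ≤ c) (hd : 0 ≤ d) :
    Real.sqrt (a * b) + Real.sqrt (c * d) ≤ Real.sqrt ((a + c) * (b + d)) := by
  apply Real.le_sqrt_of_sq_le
  rw [Real.sqrt_mul ha, Real.sqrt_mul hc]
  have h1 := Real.sq_sqrt ha
  have h2 := Real.sq_sqrt hb
  have h3 := Real.sq_sqrt hc
  have h4 := Real.sq_sqrt hd
  nlinarith only [h1, h3, h2, h4, hc, sq_nonneg (Real.sqrt a * Real.sqrt d - Real.sqrt c * Real.sqrt b)]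

/-- **Key theorem TL\***. -/
theorem main {n : ℕ} {W : Finset (V × Bool) → ℝ} (hW : ∀ T, 0 < W T) (hHR : HR n W)
    (u : Finset (V × Bool) → ℝ) (J : Finset V) :
    ∀ (ρ : Finset (V × Bool)) (v : V × Bool → ℝ), (∀ e ∈ ρ, e.1 ∉ J) →
      ρ.card + J.card + 1 = n → TS J (D v W) ρ = 0 →
      |TS J (fun T => u T * D v W T) ρ| ≤
        ∑ i ∈ J, Real.sqrt ((1 / 2 * (- TS (J.erase i) (D v (D v W)) ρ)) *
          En W u i (J.erase i) ρ) := by
  induction J using Finset.induction_on with
  | empty =>
    intro ρ v _ _ h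
    simp only [TS_empty] at h
    simp only [TS_empty, h, mul_zero, abs_zero, one_div, notMem_empty, not_false_eq_true, erase_eq_of_notMem, mul_neg, neg_mul, sum_empty, Std.le_refl]
  | @insert i J hi ih =>
    intro ρ v hρ hn hneu
    have hcard : (insert i J).card = J.card + 1 := Finset.card_insert_of_notMem hi
    have hn' : ρ.card + J.card + 2 = n := by omega
    have hmem : ∀ (b : Bool) (T : Finset (V × Bool)), ρ ⊆ T →
        (∀ e ∈ T, e.1 ∉ J → e ∈ ρ) → (i, b) ∉ T := by
      intro b T _ hT hh
      have := hT _ hh hi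
      exact hρ _ this (Finset.mem_insert_self _ _)
    have hiρ : ∀ b : Bool, (i, b) ∉ ρ := fun b h => hρ _ h (Finset.mem_insert_self _ _)
    have hne : ((i, true) : V × Bool) ≠ (i, false) := by simp
    set s := TS J (D v W) (insert (i, false) ρ) with hs
    set q := TS J (fun T => W (insert (i, false) (insert (i, true) T))) ρ with hq
    have hqpos : 0 < q := TS_pos _ _ (fun T => hW _) _
    have hs' : TS J (D v W) (insert (i, true) ρ) = - s := by
      have := TS_insert hi (D v W) ρ
      rw [hneu] at this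
      linarith only [this]
    set τ : ℝ := s / q with hτ
    have hτq : τ * q = s := by rw [hτ]; (clear * - hqpos; field_simp)
    -- shifted directions
    let v0 : V × Bool → ℝ := fun x => v x + (-τ) * δ (i, true) x
    let v1 : V × Bool → ℝ := fun x => v x + τ * δ (i, false) x
    have hD0 : ∀ T, (i, true) ∉ T → D v0 W T = D v W T - τ * W (insert (i, true) T) := by
      intro T hT
      show D (fun x => v x + (-τ) * δ (i, true) x) W T = _
      rw [D_add, D_smul, D_δ, if_neg hT]
      ring
    have hD1 : ∀ T, (i, false) ∉ T → D v1 W T = D v W T + τ * W (insert (i, false) T) := by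
      intro T hT
      show D (fun x => v x + τ * δ (i, false) x) W T = _
      rw [D_add, D_smul, D_δ, if_neg hT]
    have hT0 : ∀ T, ρ ⊆ T → (∀ e ∈ T, e.1 ∉ J → e ∈ ρ) → (i, true) ∉ insert (i, false) T := by
      intro T h1 h2 h
      rcases Finset.mem_insert.mp h with h | h
      · exact hne h
      · exact hmem _ _ h1 h2 h
    have hT1 : ∀ T, ρ ⊆ T → (∀ e ∈ T, e.1 ∉ J → e ∈ ρ) → (i, false) ∉ insert (i, true) T := by
      intro T h1 h2 h
      rcases Finset.mem_insert.mp h with h | h
      · exact hne h.symm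
      · exact hmem _ _ h1 h2 h
    -- neutrality of the shifted directions
    have hneu0 : TS J (D v0 W) (insert (i, false) ρ) = 0 := by
      rw [← TS_pin]
      have : TS J (fun T => D v0 W (insert (i, false) T)) ρ =
          TS J (fun T => D v W (insert (i, false) T) -
            τ * W (insert (i, false) (insert (i, true) T))) ρ := by
        refine TS_congr _ _ fun T h1 h2 => ?_
        rw [hD0 _ (hT0 T h1 h2), Finset.insert_comm]
      rw [this, TS_sub, TS_mul, TS_pin, ← hs, ← hq, hτq, sub_self]
    have hneu1 : TS J (D v1 W) (insert (i, true) ρ) = 0 := by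
      rw [← TS_pin]
      have : TS J (fun T => D v1 W (insert (i, true) T)) ρ =
          TS J (fun T => D v W (insert (i, true) T) +
            τ * W (insert (i, false) (insert (i, true) T))) ρ := by
        refine TS_congr _ _ fun T h1 h2 => ?_
        rw [hD1 _ (hT1 T h1 h2)]
      rw [this, TS_add, TS_mul, TS_pin, hs', ← hq, hτq]
      ring
    -- decomposition
    have hdec : TS (insert i J) (fun T => u T * D v W T) ρ =
        TS J (fun T => u T * D v0 W T) (insert (i, false) ρ) +
        TS J (fun T => u T * D v1 W T) (insert (i, true) ρ) +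
        τ * TS J (fun T => W (insert (i, false) (insert (i, true) T)) *
          (u (insert (i, false) T) - u (insert (i, true) T))) ρ := by
      rw [TS_insert hi, ← TS_pin J _ ρ (i, false), ← TS_pin J _ ρ (i, true),
        ← TS_pin J _ ρ (i, false), ← TS_pin J _ ρ (i, true), ← TS_mul, ← TS_add, ← TS_add,
        ← TS_add]
      refine TS_congr _ _ fun T h1 h2 => ?_
      rw [hD0 _ (hT0 T h1 h2), hD1 _ (hT1 T h1 h2),
        Finset.insert_comm (i, true) (i, false) T]
      ring
    -- the two pinned instances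
    have hρ0 : ∀ (b : Bool), ∀ e ∈ insert (i, b) ρ, e.1 ∉ J := by
      intro b e he
      rcases Finset.mem_insert.mp he with rfl | he
      · exact hi
      · exact fun h => hρ e he (Finset.mem_insert_of_mem h)
    have hc0 : ∀ b : Bool, (insert (i, b) ρ).card + J.card + 1 = n := by
      intro b
      rw [Finset.card_insert_of_notMem (hiρ b)]
      omega
    have ih0 := ih (insert (i, false) ρ) v0 (hρ0 false) (hc0 false) hneu0
    have ih1 := ih (insert (i, true) ρ) v1 (hρ0 true) (hc0 true) hneu1
    -- last term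
    have hlast : |τ * TS J (fun T => W (insert (i, false) (insert (i, true) T)) *
          (u (insert (i, false) T) - u (insert (i, true) T))) ρ| ≤
        Real.sqrt ((1 / 2 * (- TS J (D v (D v W)) ρ)) * En W u i J ρ) := by
      apply Real.le_sqrt_of_sq_le
      rw [sq_abs, mul_pow]
      have h1 := TS_sq_le J (fun T => W (insert (i, false) (insert (i, true) T)))
        (fun T => (u (insert (i, false) T) - u (insert (i, true) T))) (fun T => (hW _).le) ρ
      rw [← hq] at h1
      have h2 := shift_le hW hHR hi hρ hn' hneu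
      rw [← hq, ← hs] at h2
      have hEn : 0 ≤ En W u i J ρ :=
        TS_nonneg _ _ (fun T => mul_nonneg (hW _).le (sq_nonneg _)) _
      calc _ ≤ τ ^ 2 * (q * En W u i J ρ) := by
            apply mul_le_mul_of_nonneg_left h1 (sq_nonneg _)
        _ = (τ ^ 2 * q) * En W u i J ρ := by ring
        _ ≤ _ := by
            apply mul_le_mul_of_nonneg_right _ hEn
            have : q * (τ ^ 2 * q) ≤ q * (1 / 2 * (- TS J (D v (D v W)) ρ)) := by
              calc q * (τ ^ 2 * q) = (τ * q) ^ 2 := by ring
                _ = s ^ 2 := by rw [hτq]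
                _ ≤ _ := h2
            exact le_of_mul_le_mul_left this hqpos
    -- assemble
    rw [Finset.sum_insert hi, Finset.erase_insert hi, hdec]
    have hsum : ∀ k ∈ J,
        Real.sqrt ((1 / 2 * (- TS (J.erase k) (D v0 (D v0 W)) (insert (i, false) ρ))) *
          En W u k (J.erase k) (insert (i, false) ρ)) +
        Real.sqrt ((1 / 2 * (- TS (J.erase k) (D v1 (D v1 W)) (insert (i, true) ρ))) *
          En W u k (J.erase k) (insert (i, true) ρ)) ≤
        Real.sqrt ((1 / 2 * (- TS ((insert i J).erase k) (D v (D v W)) ρ)) *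
          En W u k ((insert i J).erase k) ρ) := by
      intro k hk
      have hki : k ≠ i := fun h => hi (h ▸ hk)
      have hik : i ∉ J.erase k := fun h => hi (Finset.mem_of_mem_erase h)
      have her : (insert i J).erase k = insert i (J.erase k) := by
        rw [Finset.erase_insert_of_ne hki.symm]
      rw [her, TS_insert hik]
      have hEn : En W u k (insert i (J.erase k)) ρ =
          En W u k (J.erase k) (insert (i, false) ρ) +
          En W u k (J.erase k) (insert (i, true) ρ) := by
        unfold En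
        rw [TS_insert hik]
      rw [hEn]
      have hmem' : ∀ (b : Bool) (T : Finset (V × Bool)), ρ ⊆ T →
          (∀ e ∈ T, e.1 ∉ J.erase k → e ∈ ρ) → (i, b) ∉ T := by
        intro b T _ hT hh
        exact hiρ b (hT _ hh hik)
      have hR : TS (J.erase k) (D v (D v W)) (insert (i, false) ρ) +
          TS (J.erase k) (D v (D v W)) (insert (i, true) ρ) =
          TS (J.erase k) (D v0 (D v0 W)) (insert (i, false) ρ) +
          TS (J.erase k) (D v1 (D v1 W)) (insert (i, true) ρ) := by
        rw [← TS_pin (J.erase k) _ ρ (i, false), ← TS_pin (J.erase k) _ ρ (i, true),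
          ← TS_pin (J.erase k) _ ρ (i, false), ← TS_pin (J.erase k) _ ρ (i, true),
          ← TS_add, ← TS_add]
        refine TS_congr _ _ fun T h1 h2 => ?_
        have a0 : (i, true) ∉ insert (i, false) T := by
          intro h
          rcases Finset.mem_insert.mp h with h | h
          · exact hne h
          · exact hmem' _ _ h1 h2 h
        have a1 : (i, false) ∉ insert (i, true) T := by
          intro h
          rcases Finset.mem_insert.mp h with h | h
          · exact hne h.symm
          · exact hmem' _ _ h1 h2 h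
        show _ = D (fun x => v x + (-τ) * δ (i, true) x)
          (D (fun x => v x + (-τ) * δ (i, true) x) W) _ +
          D (fun x => v x + τ * δ (i, false) x)
          (D (fun x => v x + τ * δ (i, false) x) W) _
        rw [D_D_add_δ _ _ _ _ _ a0, D_D_add_δ _ _ _ _ _ a1,
          Finset.insert_comm (i, true) (i, false) T]
        ring
      rw [hR]
      have hkJ : insert k (J.erase k) = J := Finset.insert_erase hk
      have hck : (J.erase k).card + 1 = J.card := Finset.card_erase_add_one hk
      have n0 : TS (J.erase k) (D v0 (D v0 W)) (insert (i, false) ρ) ≤ 0 := by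
        refine hHR _ _ k v0 (Finset.notMem_erase _ _) ?_ ?_ ?_
        · rw [hkJ]; exact hρ0 false
        · have := hc0 false; omega
        · rw [hkJ]; exact hneu0
      have n1 : TS (J.erase k) (D v1 (D v1 W)) (insert (i, true) ρ) ≤ 0 := by
        refine hHR _ _ k v1 (Finset.notMem_erase _ _) ?_ ?_ ?_
        · rw [hkJ]; exact hρ0 true
        · have := hc0 true; omega
        · rw [hkJ]; exact hneu1
      have e0 : 0 ≤ En W u k (J.erase k) (insert (i, false) ρ) :=
        TS_nonneg _ _ (fun T => mul_nonneg (hW _).le (sq_nonneg _)) _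
      have e1 : 0 ≤ En W u k (J.erase k) (insert (i, true) ρ) :=
        TS_nonneg _ _ (fun T => mul_nonneg (hW _).le (sq_nonneg _)) _
      have := sqrt_add_sqrt_le (a := 1 / 2 * (- TS (J.erase k) (D v0 (D v0 W)) (insert (i, false) ρ)))
        (c := 1 / 2 * (- TS (J.erase k) (D v1 (D v1 W)) (insert (i, true) ρ)))
        (by linarith only [n0]) e0 (by linarith only [n1]) e1
      refine this.trans (le_of_eq ?_)
      congr 1
      ring
    have hsum2 := Finset.sum_le_sum hsum
    rw [Finset.sum_add_distrib] at hsum2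
    calc _ ≤ |TS J (fun T => u T * D v0 W T) (insert (i, false) ρ) +
          TS J (fun T => u T * D v1 W T) (insert (i, true) ρ)| +
          |τ * TS J (fun T => W (insert (i, false) (insert (i, true) T)) *
          (u (insert (i, false) T) - u (insert (i, true) T))) ρ| := abs_add_le _ _
      _ ≤ (|TS J (fun T => u T * D v0 W T) (insert (i, false) ρ)| +
          |TS J (fun T => u T * D v1 W T) (insert (i, true) ρ)|) +
          Real.sqrt ((1 / 2 * (- TS J (D v (D v W)) ρ)) * En W u i J ρ) :=
          add_le_add (abs_add_le _ _) hlast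
      _ ≤ _ := by linarith only [ih0, ih1, hsum2]

end Vale.Agent.P317.TL
end

section

open Finset

namespace Vale.Agent.P317.TL

variable {V : Type*} [Fintype V] [DecidableEq V]

/-- indicator of a cell -/
def cell (i : V) : V × Bool → ℝ := fun x => if x.1 = i then 1 else 0

/-- add both elements of a cell -/
def both (i : V) (T : Finset (V × Bool)) : Finset (V × Bool) :=
  insert (i, false) (insert (i, true) T)

omit [Fintype V] in
lemma both_comm (i j : V) (T : Finset (V × Bool)) : both i (both j T) = both j (both i T) := by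
  ext x
  simp only [both, Finset.mem_insert]
  (clear * -; tauto)

omit [Fintype V] in
lemma both_insert (i : V) (e : V × Bool) (T : Finset (V × Bool)) :
    both i (insert e T) = insert e (both i T) := by
  ext x
  simp only [both, Finset.mem_insert]
  tauto

omit [Fintype V] in
lemma cell_eq (i : V) : (cell i : V × Bool → ℝ) = fun x => δ (i, false) x + δ (i, true) x := by
  funext ⟨a, b⟩
  unfold cell δ
  by_cases h : a = i
  · subst h
    cases b <;> simp
  · simp [h]

lemma D_cell (i : V) (F : Finset (V × Bool) → ℝ) (S : Finset (V × Bool)) :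
    D (cell i) F S = (if (i, false) ∈ S then 0 else F (insert (i, false) S)) +
      (if (i, true) ∈ S then 0 else F (insert (i, true) S)) := by
  rw [cell_eq, D_add, D_δ, D_δ]

/-- weighted form, new cell -/
lemma TS_D_cell_new {i : V} {J : Finset V} (hi : i ∉ J) (u F : Finset (V × Bool) → ℝ)
    (S : Finset (V × Bool)) (hS : ∀ e ∈ S, e.1 ≠ i) :
    TS J (fun T => u T * D (cell i) F T) S =
      TS J (fun T => u T * (F (insert (i, false) T) + F (insert (i, true) T))) S := by
  refine TS_congr _ _ fun T _ h2 => ?_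
  have h : ∀ b : Bool, (i, b) ∉ T := fun b hb => hS _ (h2 _ hb hi) rfl
  rw [D_cell, if_neg (h _), if_neg (h _)]

lemma TS_D_cell_new' {i : V} {J : Finset V} (hi : i ∉ J) (F : Finset (V × Bool) → ℝ)
    (S : Finset (V × Bool)) (hS : ∀ e ∈ S, e.1 ≠ i) :
    TS J (D (cell i) F) S = TS (insert i J) F S := by
  have := TS_D_cell_new hi (fun _ => 1) F S hS
  simp only [one_mul] at this
  rw [this, TS_insert hi, TS_add, TS_pin, TS_pin]

/-- weighted form, doubled cell -/
lemma TS_D_cell_old {i : V} {J : Finset V} (hi : i ∈ J) (u F : Finset (V × Bool) → ℝ)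
    (S : Finset (V × Bool)) (hS : ∀ e ∈ S, e.1 ≠ i) :
    TS J (fun T => u T * D (cell i) F T) S =
      TS (J.erase i) (fun T => F (both i T) *
        (u (insert (i, false) T) + u (insert (i, true) T))) S := by
  have hne : ((i, true) : V × Bool) ≠ (i, false) := by simp
  conv_lhs => rw [← Finset.insert_erase hi]
  rw [TS_insert (Finset.notMem_erase _ _), ← TS_pin, ← TS_pin, ← TS_add]
  refine TS_congr _ _ fun T _ h2 => ?_
  have h : ∀ b : Bool, (i, b) ∉ T := fun b hb =>
    hS _ (h2 _ hb (Finset.notMem_erase _ _)) rfl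
  rw [D_cell, D_cell, if_pos (Finset.mem_insert_self _ _), if_neg, if_neg,
    if_pos (Finset.mem_insert_self _ _), Finset.insert_comm (i, true) (i, false) T]
  · unfold both; ring
  · intro hh
    rcases Finset.mem_insert.mp hh with hh | hh
    · exact hne hh.symm
    · exact h _ hh
  · intro hh
    rcases Finset.mem_insert.mp hh with hh | hh
    · exact hne hh
    · exact h _ hh

lemma TS_D_cell_old' {i : V} {J : Finset V} (hi : i ∈ J) (F : Finset (V × Bool) → ℝ)
    (S : Finset (V × Bool)) (hS : ∀ e ∈ S, e.1 ≠ i) :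
    TS J (D (cell i) F) S = 2 * TS (J.erase i) (fun T => F (both i T)) S := by
  have := TS_D_cell_old hi (fun _ => 1) F S hS
  simp only [one_mul] at this
  rw [this, ← TS_mul]
  refine TS_congr _ _ fun T _ _ => ?_
  ring

/-- `D (cell i) (D (cell i) F)` on sets without elements of the cell `i` -/
lemma D_cell_cell {i : V} (F : Finset (V × Bool) → ℝ) (T : Finset (V × Bool))
    (h : ∀ b : Bool, (i, b) ∉ T) : D (cell i) (D (cell i) F) T = 2 * F (both i T) := by
  have hne : ((i, true) : V × Bool) ≠ (i, false) := by simp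
  rw [D_cell, if_neg (h _), if_neg (h _), D_cell, D_cell, if_pos (Finset.mem_insert_self _ _),
    if_neg, if_neg, if_pos (Finset.mem_insert_self _ _),
    Finset.insert_comm (i, true) (i, false) T]
  · unfold both; ring
  · intro hh
    rcases Finset.mem_insert.mp hh with hh | hh
    · exact hne hh.symm
    · exact h _ hh
  · intro hh
    rcases Finset.mem_insert.mp hh with hh | hh
    · exact hne hh
    · exact h _ hh

/-- `D (cell i) (D (cell i) F)` vanishes on sets containing an element of the cell `i` -/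
lemma D_cell_cell_zero {i : V} (F : Finset (V × Bool) → ℝ) (T : Finset (V × Bool))
    {b : Bool} (h : (i, b) ∈ T) : D (cell i) (D (cell i) F) T = 0 := by
  rw [D_cell]
  have h1 : ∀ c : Bool, (i, c) ∈ T ∨ D (cell i) F (insert (i, c) T) = 0 := by
    intro c
    by_cases hc : (i, c) ∈ T
    · exact Or.inl hc
    · right
      rw [D_cell]
      have a0 : (i, false) ∈ insert (i, c) T := by
        cases b
        · exact Finset.mem_insert_of_mem h
        · cases c
          · exact Finset.mem_insert_self _ _
          · exact absurd h hc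
      have a1 : (i, true) ∈ insert (i, c) T := by
        cases b
        · cases c
          · exact absurd h hc
          · exact Finset.mem_insert_self _ _
        · exact Finset.mem_insert_of_mem h
      rw [if_pos a0, if_pos a1, add_zero]
  rcases h1 false with h0 | h0 <;> rcases h1 true with h2 | h2 <;> simp [h0, h2]

/-! ### partition functions -/

/-- total weight of the colourful sets -/
noncomputable def N0 (W : Finset (V × Bool) → ℝ) : ℝ := TS Finset.univ W ∅

/-- total weight of the sets with cell `i` doubled, cell `j` missing -/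
noncomputable def Nn (W : Finset (V × Bool) → ℝ) (i j : V) : ℝ :=
  TS ((Finset.univ.erase j).erase i) (fun T => W (both i T)) ∅

lemma N0_pos {W : Finset (V × Bool) → ℝ} (hW : ∀ T, 0 < W T) : 0 < N0 W := TS_pos _ _ hW _

lemma Nn_pos {W : Finset (V × Bool) → ℝ} (hW : ∀ T, 0 < W T) (i j : V) : 0 < Nn W i j :=
  TS_pos _ _ (fun _ => hW _) _

section forms

variable (W : Finset (V × Bool) → ℝ)

/-- the quadratic forms, polarised -/
noncomputable def Q (J : Finset V) (x y : V × Bool → ℝ) : ℝ := TS J (D x (D y W)) ∅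

lemma Q_comm (J : Finset V) (x y : V × Bool → ℝ) : Q W J x y = Q W J y x := by
  unfold Q
  exact TS_congr _ _ fun T _ _ => D_comm _ _ _ _

lemma Q_lin_right (J : Finset V) (c d : ℝ) (x y z : V × Bool → ℝ) :
    Q W J x (fun e => c * y e + d * z e) = c * Q W J x y + d * Q W J x z := by
  unfold Q
  rw [← TS_mul, ← TS_mul, ← TS_add]
  refine TS_congr _ _ fun T _ _ => ?_
  have : D (fun e => c * y e + d * z e) W = fun T => c * D y W T + d * D z W T := by
    funext S
    rw [D_add (fun e => c * y e) (fun e => d * z e), D_smul, D_smul]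
  rw [this, D_fun_add x (fun T => c * D y W T) (fun T => d * D z W T), D_fun_smul, D_fun_smul]

lemma Q_lin_left (J : Finset V) (c d : ℝ) (x y z : V × Bool → ℝ) :
    Q W J (fun e => c * y e + d * z e) x = c * Q W J y x + d * Q W J z x := by
  rw [Q_comm, Q_lin_right, Q_comm W J x y, Q_comm W J x z]

lemma Q_self_expand (J : Finset V) (c d : ℝ) (y z : V × Bool → ℝ) :
    Q W J (fun e => c * y e + d * z e) (fun e => c * y e + d * z e) =
      c ^ 2 * Q W J y y + 2 * (c * d) * Q W J y z + d ^ 2 * Q W J z z := by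
  rw [Q_lin_left, Q_lin_right, Q_lin_right, Q_comm W J z y]
  ring

lemma Q_cell_new {J : Finset V} {i : V} (hi : i ∉ J) (y : V × Bool → ℝ) :
    Q W J (cell i) y = TS (insert i J) (D y W) ∅ :=
  TS_D_cell_new' hi _ _ (by simp)

lemma Q_nonneg (hW : ∀ T, 0 < W T) (J : Finset V) {x y : V × Bool → ℝ} (hx : ∀ e, 0 ≤ x e)
    (hy : ∀ e, 0 ≤ y e) : 0 ≤ Q W J x y := by
  apply TS_nonneg
  intro T
  unfold D
  refine Finset.sum_nonneg fun e _ => ?_
  split_ifs
  · exact le_rfl
  · refine mul_nonneg (hx e) (Finset.sum_nonneg fun f _ => ?_)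
    split_ifs
    · exact le_rfl
    · exact mul_nonneg (hy f) (hW _).le

omit [Fintype V] in
lemma cell_nonneg (i : V) (e : V × Bool) : 0 ≤ cell i e := by
  unfold cell
  split_ifs <;> norm_num

/-- Lorentzian triangle inequality `Q(a,a) Q(b,c) ≤ 2 Q(a,b) Q(a,c)`, `a` a cell outside `J` -/
lemma lorentz {n : ℕ} (hW : ∀ T, 0 < W T) (hHR : HR n W) {J : Finset V} {i : V} (hi : i ∉ J)
    (hn : J.card + 2 = n) {b c : V × Bool → ℝ} (hb : ∀ e, 0 ≤ b e) (hc : ∀ e, 0 ≤ c e)
    (haa : 0 < Q W J (cell i) (cell i)) (hab : 0 < Q W J (cell i) b)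
    (hac : 0 < Q W J (cell i) c) :
    Q W J (cell i) (cell i) * Q W J b c ≤ 2 * (Q W J (cell i) b * Q W J (cell i) c) := by
  set aa := Q W J (cell i) (cell i) with haa'
  set ab := Q W J (cell i) b with hab'
  set ac := Q W J (cell i) c with hac'
  set lam := 2 * (ab * ac) / aa with hlam
  have hl : lam * aa = 2 * (ab * ac) := by rw [hlam]; (clear * - haa hac hab; field_simp)
  let z : V × Bool → ℝ := fun e => ac * b e + ab * c e
  let y : V × Bool → ℝ := fun e => 1 * z e + (-lam) * cell i e
  have hbb : 0 ≤ Q W J b b := Q_nonneg W hW J hb hb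
  have hcc : 0 ≤ Q W J c c := Q_nonneg W hW J hc hc
  have haz : Q W J (cell i) z = 2 * (ab * ac) := by
    show Q W J (cell i) (fun e => ac * b e + ab * c e) = _
    rw [Q_lin_right, ← hab', ← hac']
    ring
  have hneu : TS (insert i J) (D y W) ∅ = 0 := by
    rw [← Q_cell_new W hi y]
    show Q W J (cell i) (fun e => 1 * z e + (-lam) * cell i e) = 0
    rw [Q_lin_right, haz, ← haa', one_mul, neg_mul, hl, add_neg_cancel]
  have key : Q W J y y ≤ 0 := by
    have := hHR ∅ J i y hi (by simp) (by simpa using hn) hneu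
    exact this
  have hexp : Q W J y y = Q W J z z - 2 * lam * (2 * (ab * ac)) + lam ^ 2 * aa := by
    show Q W J (fun e => 1 * z e + (-lam) * cell i e) (fun e => 1 * z e + (-lam) * cell i e) = _
    rw [Q_self_expand, Q_comm W J z (cell i), haz, ← haa']
    ring
  have hzz : Q W J z z = ac ^ 2 * Q W J b b + 2 * (ac * ab) * Q W J b c + ab ^ 2 * Q W J c c := by
    show Q W J (fun e => ac * b e + ab * c e) (fun e => ac * b e + ab * c e) = _
    rw [Q_self_expand]
  rw [hexp, hzz] at key
  have h1 : lam ^ 2 * aa = lam * (2 * (ab * ac)) := by rw [sq, mul_assoc, hl]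
  rw [h1] at key
  have h2 : 0 ≤ ac ^ 2 * Q W J b b := mul_nonneg (sq_nonneg _) hbb
  have h3 : 0 ≤ ab ^ 2 * Q W J c c := mul_nonneg (sq_nonneg _) hcc
  have hP : 0 < ab * ac := mul_pos hab hac
  have h4 : 2 * (ab * ac) * (Q W J b c - lam) ≤ 0 := by nlinarith only [key, h2, h3]
  have h5 : Q W J b c ≤ lam := by
    by_contra hcon
    push Not at hcon
    have : 0 < 2 * (ab * ac) * (Q W J b c - lam) := by
      apply mul_pos <;> linarith only [hP, hcon]
    linarith only [key, h2, h3, this]
  calc aa * Q W J b c ≤ aa * lam := mul_le_mul_of_nonneg_left h5 haa.le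
    _ = 2 * (ab * ac) := by rw [mul_comm, hl]

/-- Cauchy-Schwarz form -/
lemma lorentz_sq {n : ℕ} (hHR : HR n W) {J : Finset V} {i : V} (hi : i ∉ J)
    (hn : J.card + 2 = n) (y : V × Bool → ℝ)
    (haa : 0 < Q W J (cell i) (cell i)) :
    Q W J (cell i) (cell i) * Q W J y y ≤ (Q W J (cell i) y) ^ 2 := by
  set aa := Q W J (cell i) (cell i) with haa'
  set ay := Q W J (cell i) y with hay'
  let z : V × Bool → ℝ := fun e => aa * y e + (-ay) * cell i e
  have hneu : TS (insert i J) (D z W) ∅ = 0 := by
    rw [← Q_cell_new W hi z]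
    show Q W J (cell i) (fun e => aa * y e + (-ay) * cell i e) = 0
    rw [Q_lin_right, ← haa', ← hay']
    ring
  have key : Q W J z z ≤ 0 := hHR ∅ J i z hi (by simp) (by simpa using hn) hneu
  have hexp : Q W J z z = aa ^ 2 * Q W J y y - aa * ay ^ 2 := by
    show Q W J (fun e => aa * y e + (-ay) * cell i e) (fun e => aa * y e + (-ay) * cell i e) = _
    rw [Q_self_expand, Q_comm W J y (cell i), ← haa', ← hay']
    ring
  rw [hexp] at key
  have : aa * (aa * Q W J y y) ≤ aa * ay ^ 2 := by nlinarith only [key]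
  exact le_of_mul_le_mul_left this haa

/-! values of the forms on cells; `J = univ \ {j,l}` -/

lemma Q_new_new {j l : V} (hjl : j ≠ l) :
    Q W ((Finset.univ.erase j).erase l) (cell j) (cell l) = N0 W := by
  rw [Q_cell_new W (by simp only [mem_erase, ne_eq, not_true_eq_false, mem_univ, and_true, and_false, not_false_eq_true])]
  rw [TS_D_cell_new']
  · unfold N0
    congr 1
    ext x
    simp only [Finset.mem_insert, Finset.mem_erase, Finset.mem_univ, and_true, iff_true]
    by_cases hx : x = l
    · exact Or.inl hx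
    · by_cases hx' : x = j
      · exact Or.inr (Or.inl hx')
      · exact Or.inr (Or.inr ⟨hx, hx'⟩)
  · simp only [mem_insert, hjl.symm, mem_erase, ne_eq, not_true_eq_false, not_false_eq_true, mem_univ, and_self, and_true, or_self]
  · simp

lemma Q_self_new {j l : V} :
    Q W ((Finset.univ.erase j).erase l) (cell l) (cell l) = 2 * Nn W l j := by
  unfold Q Nn
  rw [← TS_mul]
  refine TS_congr _ _ fun T _ h2 => ?_
  rw [D_cell_cell]
  intro b hb
  have := h2 _ hb (by simp only [mem_erase, ne_eq, not_true_eq_false, mem_univ, and_true, false_and, not_false_eq_true])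
  simp at this

lemma Q_self_new' {j l : V} :
    Q W ((Finset.univ.erase j).erase l) (cell j) (cell j) = 2 * Nn W j l := by
  rw [Finset.erase_right_comm]
  exact Q_self_new W

lemma Q_new_old {i j l : V} (hij : i ≠ j) (hil : i ≠ l) (hjl : j ≠ l) :
    Q W ((Finset.univ.erase j).erase l) (cell l) (cell i) = 2 * Nn W i j := by
  rw [Q_cell_new W (by simp only [mem_erase, ne_eq, not_true_eq_false, mem_univ, and_true, false_and, not_false_eq_true])]
  have : insert l ((Finset.univ.erase j).erase l) = Finset.univ.erase j := by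
    rw [Finset.insert_erase]
    simp only [mem_erase, ne_eq, hjl.symm, not_false_eq_true, mem_univ, and_self]
  rw [this, TS_D_cell_old' (by simp only [mem_erase, ne_eq, hij, not_false_eq_true, mem_univ, and_self]) _ _ (by simp)]
  rfl

lemma Q_new_old' {i j l : V} (hij : i ≠ j) (hil : i ≠ l) (hjl : j ≠ l) :
    Q W ((Finset.univ.erase j).erase l) (cell j) (cell i) = 2 * Nn W i l := by
  rw [Finset.erase_right_comm]
  exact Q_new_old W hil hij hjl.symm

lemma Q_old_old {i j l : V} (hij : i ≠ j) (hil : i ≠ l) :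
    Q W ((Finset.univ.erase j).erase l) (cell i) (cell i) = 0 := by
  have hi : i ∈ (Finset.univ.erase j).erase l := by simp only [mem_erase, ne_eq, hil, not_false_eq_true, hij, mem_univ, and_self]
  unfold Q
  rw [← Finset.insert_erase hi, TS_insert (Finset.notMem_erase _ _)]
  have : ∀ b : Bool, TS (((Finset.univ.erase j).erase l).erase i)
      (D (cell i) (D (cell i) W)) (insert (i, b) ∅) = 0 := by
    intro b
    have h0 : TS (((Finset.univ.erase j).erase l).erase i)
      (D (cell i) (D (cell i) W)) (insert (i, b) ∅) =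
      TS (((Finset.univ.erase j).erase l).erase i) (fun _ => 0 * (1:ℝ)) (insert (i, b) ∅) := by
      refine TS_congr _ _ fun T h1 _ => ?_
      rw [D_cell_cell_zero W T (b := b) (h1 (by simp)), zero_mul]
    rw [h0, TS_mul, zero_mul]
  rw [this, this, add_zero]

end forms

section main

variable {W : Finset (V × Bool) → ℝ}

lemma card_erase_erase {j l : V} (hjl : j ≠ l) :
    ((Finset.univ.erase j).erase l).card + 2 = Fintype.card V := by
  have h1 : ((Finset.univ.erase j).erase l).card + 1 = (Finset.univ.erase j).card :=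
    Finset.card_erase_add_one (by simp only [mem_erase, ne_eq, hjl.symm, not_false_eq_true, mem_univ, and_self])
  have h2 : (Finset.univ.erase j).card + 1 = (Finset.univ : Finset V).card :=
    Finset.card_erase_add_one (Finset.mem_univ _)
  rw [Finset.card_univ] at h2
  omega

/-- (a), first inequality: `4 N_ij N_ji ≤ N_0^2` -/
theorem Nn_mul_Nn_le (hW : ∀ T, 0 < W T) (hHR : HR (Fintype.card V) W) {i j : V} (hij : i ≠ j) :
    4 * (Nn W i j * Nn W j i) ≤ N0 W ^ 2 := by
  have h := lorentz_sq W hHR (J := (Finset.univ.erase j).erase i) (i := i) (by simp only [mem_erase, ne_eq, not_true_eq_false, mem_univ, and_true, false_and, not_false_eq_true])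
    (card_erase_erase hij.symm) (cell j) (by
      rw [Q_self_new]; have := Nn_pos hW i j; linarith)
  rw [Q_self_new, Q_self_new', Q_comm, Q_new_new W hij.symm] at h
  linarith

/-- (a), second inequality: `N_il N_lj ≤ N_0 N_ij` -/
theorem Nn_mul_Nn_le' (hW : ∀ T, 0 < W T) (hHR : HR (Fintype.card V) W) {i j l : V}
    (hij : i ≠ j) (hil : i ≠ l) (hjl : j ≠ l) :
    Nn W i l * Nn W l j ≤ N0 W * Nn W i j := by
  have h := lorentz W hW hHR (J := (Finset.univ.erase j).erase l) (i := l) (by simp only [mem_erase, ne_eq, not_true_eq_false, mem_univ, and_true, false_and, not_false_eq_true])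
    (card_erase_erase hjl) (b := cell i) (c := cell j) (cell_nonneg _) (cell_nonneg _) (by
      rw [Q_self_new]; have := Nn_pos hW l j; linarith) (by
      rw [Q_new_old W hij hil hjl]; have := Nn_pos hW i j; linarith) (by
      rw [Q_comm, Q_new_new W hjl]; exact N0_pos hW)
  rw [Q_self_new, Q_comm W _ (cell i) (cell j), Q_new_old' W hij hil hjl,
    Q_new_old W hij hil hjl, Q_comm W _ (cell l) (cell j), Q_new_new W hjl] at h
  linarith

/-- **(I1)** -/
theorem I1 (hW : ∀ T, 0 < W T) (hHR : HR (Fintype.card V) W) {i j : V} (hij : i ≠ j)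
    (u : Finset (V × Bool) → ℝ) :
    |TS (Finset.univ.erase j)
        (fun T => u T * (W (insert (j, false) T) + W (insert (j, true) T))) ∅ / N0 W -
      TS ((Finset.univ.erase j).erase i)
        (fun T => W (both i T) * (u (insert (i, false) T) + u (insert (i, true) T))) ∅ /
          (2 * Nn W i j)| ≤
      ∑ l ∈ Finset.univ.erase j,
        Real.sqrt (En W u l ((Finset.univ.erase j).erase l) ∅ / Nn W l j) := by
  have hN0 := N0_pos hW
  have hNij := Nn_pos hW i j
  set v : V × Bool → ℝ := fun e => (2 * Nn W i j) * cell j e + (- N0 W) * cell i e with hv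
  have hji : i ∈ Finset.univ.erase j := by simp only [mem_erase, ne_eq, hij, not_false_eq_true, mem_univ, and_self]
  have hDv : ∀ T, D v W T = (2 * Nn W i j) * D (cell j) W T + (- N0 W) * D (cell i) W T := by
    intro T
    rw [hv, D_add (fun e => (2 * Nn W i j) * cell j e) (fun e => (- N0 W) * cell i e),
      D_smul, D_smul]
  -- the pairing
  have hpair : ∀ g : Finset (V × Bool) → ℝ, TS (Finset.univ.erase j) (fun T => g T * D v W T) ∅ =
      (2 * Nn W i j) * TS (Finset.univ.erase j)
        (fun T => g T * (W (insert (j, false) T) + W (insert (j, true) T))) ∅ -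
      N0 W * TS ((Finset.univ.erase j).erase i)
        (fun T => W (both i T) * (g (insert (i, false) T) + g (insert (i, true) T))) ∅ := by
    intro g
    rw [← TS_D_cell_new (Finset.notMem_erase _ _) g W ∅ (by simp),
      ← TS_D_cell_old hji g W ∅ (by simp), ← TS_mul, ← TS_mul, ← TS_sub]
    refine TS_congr _ _ fun T _ _ => ?_
    rw [hDv]
    ring
  have hneu : TS (Finset.univ.erase j) (D v W) ∅ = 0 := by
    have h1 := hpair (fun _ => 1)
    simp only [one_mul] at h1
    have h2 : TS (Finset.univ.erase j)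
        (fun T => (W (insert (j, false) T) + W (insert (j, true) T))) ∅ = N0 W := by
      have := TS_insert (Finset.notMem_erase j (Finset.univ : Finset V)) W ∅
      rw [TS_add, TS_pin, TS_pin, ← this, Finset.insert_erase (Finset.mem_univ _)]
      rfl
    have h3 : TS ((Finset.univ.erase j).erase i)
        (fun T => W (both i T) * ((1:ℝ) + 1)) ∅ = 2 * Nn W i j := by
      unfold Nn
      rw [← TS_mul]
      exact TS_congr _ _ fun T _ _ => by ring
    rw [h2, h3] at h1
    rw [h1]
    ring
  have hcard : (Finset.univ.erase j).card + 1 = Fintype.card V := by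
    have h2 : (Finset.univ.erase j).card + 1 = (Finset.univ : Finset V).card :=
      Finset.card_erase_add_one (Finset.mem_univ _)
    rwa [Finset.card_univ] at h2
  have key := TL.main hW hHR u (Finset.univ.erase j) ∅ v (by simp only [notMem_empty, mem_erase, ne_eq, mem_univ, and_true, Decidable.not_not, IsEmpty.forall_iff, implies_true]) (by simpa only [card_empty, mem_univ, card_erase_of_mem, card_univ, zero_add] using hcard) hneu
  rw [hpair u] at key
  set A := TS (Finset.univ.erase j)
        (fun T => u T * (W (insert (j, false) T) + W (insert (j, true) T))) ∅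
  set B := TS ((Finset.univ.erase j).erase i)
        (fun T => W (both i T) * (u (insert (i, false) T) + u (insert (i, true) T))) ∅
  have hden : 0 < 2 * Nn W i j * N0 W := by positivity
  have hlhs : A / N0 W - B / (2 * Nn W i j) =
      (2 * Nn W i j * A - N0 W * B) / (2 * Nn W i j * N0 W) := by
    (clear * - hNij hN0; field_simp)
  rw [hlhs, abs_div, abs_of_pos hden, div_le_iff₀ hden, Finset.sum_mul]
  refine key.trans (Finset.sum_le_sum fun l hl => ?_)
  have hlj : l ≠ j := (Finset.mem_erase.mp hl).1
  have hE : 0 ≤ En W u l ((Finset.univ.erase j).erase l) ∅ :=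
    TS_nonneg _ _ (fun T => mul_nonneg (hW _).le (sq_nonneg _)) _
  have hNlj := Nn_pos hW l j
  -- bound of the coefficient
  have hR : 1 / 2 * (- TS ((Finset.univ.erase j).erase l) (D v (D v W)) ∅) ≤
      (2 * Nn W i j * N0 W) ^ 2 / Nn W l j := by
    have hQ : TS ((Finset.univ.erase j).erase l) (D v (D v W)) ∅ =
        Q W ((Finset.univ.erase j).erase l) v v := rfl
    rw [hQ, hv, Q_self_expand]
    by_cases hli : l = i
    · subst hli
      rw [Q_self_new', Q_new_new W hij.symm, Q_self_new]
      rw [le_div_iff₀ hNlj]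
      have := Nn_pos hW j l
      have h1 : 0 ≤ (2 * Nn W l j) ^ 2 * (2 * Nn W j l) := by (clear * - hNlj this; positivity)
      have h2 : 0 ≤ Nn W l j ^ 2 * N0 W ^ 2 := by (clear * - hNlj hN0; positivity)
      nlinarith only [hNlj, h1]
    · have hil : i ≠ l := fun h => hli h.symm
      rw [Q_self_new', Q_new_old' W hij hil hlj.symm, Q_old_old W hij hil]
      rw [le_div_iff₀ hNlj]
      have ha := Nn_mul_Nn_le' hW hHR hij hil hlj.symm
      have := Nn_pos hW j l
      have h1 : 0 ≤ (2 * Nn W i j) ^ 2 * (2 * Nn W j l) * Nn W l j := by (clear * - hNij this hNlj; positivity)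
      have h3 : (4 * Nn W i j * N0 W) * (Nn W i l * Nn W l j) ≤
          (4 * Nn W i j * N0 W) * (N0 W * Nn W i j) :=
        mul_le_mul_of_nonneg_left ha (by positivity)
      linarith
  calc _ ≤ Real.sqrt ((2 * Nn W i j * N0 W) ^ 2 / Nn W l j *
          En W u l ((Finset.univ.erase j).erase l) ∅) :=
        Real.sqrt_le_sqrt (mul_le_mul_of_nonneg_right hR hE)
    _ = Real.sqrt (En W u l ((Finset.univ.erase j).erase l) ∅ / Nn W l j *
          (2 * Nn W i j * N0 W) ^ 2) := by
        congr 1; ring
    _ = _ := by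
        rw [Real.sqrt_mul (div_nonneg hE hNlj.le), Real.sqrt_sq hden.le]

end main

end Vale.Agent.P317.TL
end

section

open Finset

namespace Vale.Agent.P317.TL

variable {V : Type*} [Fintype V] [DecidableEq V]

/-- the sum over transversals as a sum over a family of sets -/
theorem TS_eq_sum (J : Finset V) (g : Finset (V × Bool) → ℝ) (S : Finset (V × Bool))
    (hS : ∀ e ∈ S, e.1 ∉ J) :
    TS J g S = ∑ Z ∈ Finset.univ.filter (fun Z : Finset (V × Bool) =>
      (∀ k ∈ J, ((k, false) ∈ Z ↔ (k, true) ∉ Z)) ∧ ∀ e : V × Bool, e.1 ∉ J → (e ∈ Z ↔ e ∈ S)),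
      g Z := by
  unfold TS
  refine Finset.sum_nbij' (i := fun A => S ∪ J.image (fun i => (i, decide (i ∈ A))))
    (j := fun Z => J.filter (fun i => (i, true) ∈ Z)) ?_ ?_ ?_ ?_ ?_
  · intro A hA
    rw [Finset.mem_powerset] at hA
    simp only [Finset.mem_filter, Finset.mem_univ, true_and]
    have hmemJ : ∀ k ∈ J, ∀ b : Bool, ((k, b) ∈ S ∪ J.image (fun i => (i, decide (i ∈ A))) ↔
        b = decide (k ∈ A)) := by
      intro k hk b
      simp only [Finset.mem_union, Finset.mem_image, Prod.mk.injEq]
      constructor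
      · rintro (h | ⟨i, _, rfl, h⟩)
        · exact absurd hk (hS _ h)
        · exact h.symm
      · intro h
        exact Or.inr ⟨k, hk, rfl, h.symm⟩
    refine ⟨fun k hk => ?_, fun e he => ?_⟩
    · rw [hmemJ k hk, hmemJ k hk]
      by_cases h : k ∈ A <;> simp [h]
    · simp only [Finset.mem_union, Finset.mem_image]
      constructor
      · rintro (h | ⟨i, hi, rfl⟩)
        · exact h
        · exact absurd hi he
      · exact Or.inl
  · intro Z _
    rw [Finset.mem_powerset]
    exact Finset.filter_subset _ _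
  · intro A hA
    rw [Finset.mem_powerset] at hA
    ext k
    simp only [Finset.mem_filter, Finset.mem_union, Finset.mem_image, Prod.mk.injEq]
    constructor
    · rintro ⟨hk, h | ⟨i, _, rfl, h⟩⟩
      · exact absurd hk (hS _ h)
      · simpa using h
    · intro h
      exact ⟨hA h, Or.inr ⟨k, hA h, rfl, by simp [h]⟩⟩
  · intro Z hZ
    simp only [Finset.mem_filter, Finset.mem_univ, true_and] at hZ
    obtain ⟨h1, h2⟩ := hZ
    ext ⟨k, b⟩
    by_cases hk : k ∈ J
    · simp only [Finset.mem_union, Finset.mem_image, Finset.mem_filter, Prod.mk.injEq]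
      have h3 := h1 k hk
      have hkS : (k, b) ∉ S := fun h => hS _ h hk
      constructor
      · rintro (h | ⟨i, _, rfl, h⟩)
        · exact absurd h hkS
        · rw [← h]
          by_cases ht : (i, true) ∈ Z
          · simp [hk, ht]
          · have := h3.mpr ht
            simpa [hk, ht] using this
      · intro h
        refine Or.inr ⟨k, hk, rfl, ?_⟩
        cases b with
        | false =>
          have := h3.mp h
          simp [hk, this]
        | true => simp [hk, h]
    · have h3 := h2 (k, b) hk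
      rw [h3]
      simp only [Finset.mem_union, Finset.mem_image, Prod.mk.injEq]
      constructor
      · rintro (h | ⟨i, hi, rfl, _⟩)
        · exact h
        · exact absurd hi hk
      · exact Or.inl
  · intro A _
    rfl

theorem sum_Om0 (g : Finset (V × Bool) → ℝ) : ∑ Z ∈ Window.Om0 V, g Z = TS Finset.univ g ∅ := by
  rw [TS_eq_sum _ _ _ (by simp only [notMem_empty, mem_univ, not_true_eq_false, imp_self, implies_true])]
  refine Finset.sum_congr ?_ fun _ _ => rfl
  ext Z
  simp [Window.IsCol]

theorem sum_Om {i j : V} (hij : i ≠ j) (g : Finset (V × Bool) → ℝ) :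
    ∑ Z ∈ Window.Om i j, g Z =
      TS ((Finset.univ.erase j).erase i) (fun T => g (both i T)) ∅ := by
  have h1 : TS ((Finset.univ.erase j).erase i) (fun T => g (both i T)) ∅ =
      TS ((Finset.univ.erase j).erase i) g (both i ∅) := by
    have := TS_pin ((Finset.univ.erase j).erase i) (fun T => g (insert (i, false) T)) ∅ (i, true)
    unfold both
    rw [this, TS_pin]
  rw [h1, TS_eq_sum]
  · refine Finset.sum_congr ?_ fun _ _ => rfl
    ext Z
    simp only [Window.mem_Om, Window.IsNear, Finset.mem_filter, Finset.mem_univ, true_and,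
      Finset.mem_erase, and_true, both, Finset.mem_insert, Finset.notMem_empty, or_false]
    constructor
    · rintro ⟨a1, a2, a3, a4, a5⟩
      refine ⟨fun k hk => a5 k hk.1 hk.2, ?_⟩
      rintro ⟨k, b⟩ hk
      simp only [ne_eq, not_and, not_not] at hk
      by_cases hki : k = i
      · subst hki
        cases b <;> simp [a1, a2]
      · have hkj := hk hki
        subst hkj
        cases b <;> simp [a3, a4, hki]
    · rintro ⟨a1, a2⟩
      refine ⟨?_, ?_, ?_, ?_, fun k h1 h2 => a1 k ⟨h1, h2⟩⟩
      · rw [a2 (i, false) (by simp)]; simp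
      · rw [a2 (i, true) (by simp)]; simp
      · rw [a2 (j, false) (by simp)]; simp [hij.symm]
      · rw [a2 (j, true) (by simp)]; simp [hij.symm]
  · intro e he
    simp only [both, Finset.mem_insert, Finset.notMem_empty, or_false] at he
    rcases he with rfl | rfl <;> simp only [mem_erase, ne_eq, not_true_eq_false, mem_univ, and_true, false_and, not_false_eq_true]

theorem N0_eq (W : Finset (V × Bool) → ℝ) : N0 W = ∑ Z ∈ Window.Om0 V, W Z := (sum_Om0 W).symm

theorem Nn_eq (W : Finset (V × Bool) → ℝ) {i j : V} (hij : i ≠ j) :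
    Nn W i j = ∑ Z ∈ Window.Om i j, W Z := (sum_Om hij W).symm

omit [Fintype V] in
lemma both_erase_false {i : V} {T : Finset (V × Bool)} (h : ∀ b : Bool, (i, b) ∉ T) :
    (both i T).erase (i, false) = insert (i, true) T := by
  unfold both
  rw [Finset.erase_insert]
  simp [h]

omit [Fintype V] in
lemma both_erase_true {i : V} {T : Finset (V × Bool)} (h : ∀ b : Bool, (i, b) ∉ T) :
    (both i T).erase (i, true) = insert (i, false) T := by
  unfold both
  rw [Finset.insert_comm, Finset.erase_insert]
  simp [h]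

omit [Fintype V] in
lemma insert_sdiff_cell {i : V} {T : Finset (V × Bool)} (h : ∀ b : Bool, (i, b) ∉ T) (b : Bool) :
    (insert (i, b) T) \ Window.cell i = T := by
  ext x
  simp only [Window.cell, Finset.mem_sdiff, Finset.mem_insert, Finset.mem_singleton]
  constructor
  · rintro ⟨h1 | h1, h2⟩
    · exfalso
      apply h2
      rw [h1]
      cases b <;> simp
    · exact h1
  · intro hx
    refine ⟨Or.inr hx, ?_⟩
    rintro (h1 | h1)
    · exact h _ (h1 ▸ hx)
    · exact h _ (h1 ▸ hx)

/-- normalised energies agree -/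
theorem En_eq {W : Finset (V × Bool) → ℝ} {i j : V} (hij : i ≠ j)
    (u : Finset (V × Bool) → ℝ) :
    Window.En W u i j = En W u i ((Finset.univ.erase j).erase i) ∅ / Nn W i j := by
  unfold Window.En Window.av
  rw [sum_Om hij, ← Nn_eq W hij]
  congr 1
  unfold En
  refine TS_congr _ _ fun T _ h2 => ?_
  have h : ∀ b : Bool, (i, b) ∉ T := fun b hb => by
    have := h2 _ hb (by simp only [mem_erase, ne_eq, not_true_eq_false, mem_univ, and_true, false_and, not_false_eq_true])
    simp at this
  beta_reduce
  rw [both_erase_false h, both_erase_true h]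
  unfold both
  ring

/-- averages over the colourful sets of a function of the hub -/
theorem av_hub (W u : Finset (V × Bool) → ℝ) (j : V) :
    Window.av (Window.Om0 V) W (fun Z => u (Z \ Window.cell j)) =
      TS (Finset.univ.erase j)
        (fun T => u T * (W (insert (j, false) T) + W (insert (j, true) T))) ∅ / N0 W := by
  unfold Window.av
  rw [sum_Om0, ← N0_eq W]
  congr 1
  have h1 := TS_insert (Finset.notMem_erase j (Finset.univ : Finset V))
    (fun Z => W Z * u (Z \ Window.cell j)) ∅
  rw [Finset.insert_erase (Finset.mem_univ _)] at h1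
  rw [h1, ← TS_pin, ← TS_pin, ← TS_add]
  refine TS_congr _ _ fun T _ h2 => ?_
  have h : ∀ b : Bool, (j, b) ∉ T := fun b hb => by
    have := h2 _ hb (by simp only [mem_erase, ne_eq, not_true_eq_false, mem_univ, and_true, not_false_eq_true])
    simp at this
  rw [insert_sdiff_cell h, insert_sdiff_cell h]
  ring

/-- averages over near sets of the mean over the two hubs -/
theorem av_mean (W u : Finset (V × Bool) → ℝ) {i j : V} (hij : i ≠ j) :
    Window.av (Window.Om i j) W
        (fun Z => (u (Z.erase (i, false)) + u (Z.erase (i, true))) / 2) =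
      TS ((Finset.univ.erase j).erase i)
        (fun T => W (both i T) * (u (insert (i, false) T) + u (insert (i, true) T))) ∅ /
          (2 * Nn W i j) := by
  unfold Window.av
  rw [sum_Om hij, ← Nn_eq W hij]
  have : TS ((Finset.univ.erase j).erase i) (fun T => W (both i T) *
      ((u ((both i T).erase (i, false)) + u ((both i T).erase (i, true))) / 2)) ∅ =
      (1 / 2) * TS ((Finset.univ.erase j).erase i)
        (fun T => W (both i T) * (u (insert (i, false) T) + u (insert (i, true) T))) ∅ := by
    rw [← TS_mul]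
    refine TS_congr _ _ fun T _ h2 => ?_
    have h : ∀ b : Bool, (i, b) ∉ T := fun b hb => by
      have := h2 _ hb (by simp only [mem_erase, ne_eq, not_true_eq_false, mem_univ, and_true, false_and, not_false_eq_true])
      simp at this
    rw [both_erase_false h, both_erase_true h]
    ring
  rw [this]
  rw [mul_comm (2 : ℝ) (Nn W i j), ← div_div]
  ring

/-- **(I1)** in the window form -/
theorem I1_window {W : Finset (V × Bool) → ℝ} (hW : ∀ T, 0 < W T)
    (hHR : HR (Fintype.card V) W) : Window.I1 W := by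
  intro u i j hij
  rw [av_hub, av_mean W u hij]
  refine (I1 hW hHR hij u).trans (le_of_eq ?_)
  refine Finset.sum_congr rfl fun l hl => ?_
  rw [En_eq (Finset.mem_erase.mp hl).1]

/-- (a) in window form -/
theorem sum_Om_mul_le {W : Finset (V × Bool) → ℝ} (hW : ∀ T, 0 < W T)
    (hHR : HR (Fintype.card V) W) {i j : V} (hij : i ≠ j) :
    4 * ((∑ Z ∈ Window.Om i j, W Z) * ∑ Z ∈ Window.Om j i, W Z) ≤
      (∑ Z ∈ Window.Om0 V, W Z) ^ 2 := by
  rw [← Nn_eq W hij, ← Nn_eq W hij.symm, ← N0_eq]
  exact Nn_mul_Nn_le hW hHR hij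

end Vale.Agent.P317.TL
end
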