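import Vale.Agent.P317.MathlibUsed
import Vale.Agent.P317.Bdl.B3
import Vale.Agent.P317.Bdl.B2

section

/-!
# Annealing: the deterministic half of the analysis

Weights `mu_k(S) = 2^{-⌊k·def(S)/n⌋}`; masses of the types; the balanced invariant; telescoping;
final accuracy.
-/

open Finset

namespace Vale.Agent.P317.Anneal

/-! ### pure real-number lemmas -/

/-- `Z` is balanced with respect to `Z0` -/
def Bal (Z0 Z : ℝ) : Prop := Z0 / 8 ≤ Z ∧ Z ≤ 8 * Z0

/-- sharper balance after an accurate experiment -/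
def Bal4 (Z0 Z : ℝ) : Prop := Z0 / 4 ≤ Z ∧ Z ≤ 4 * Z0

/-- the exponent after applying the rule to the counts `x` (near type), `y` (colourful) -/
def upd (a : ℤ) (x y : ℕ) : ℤ := if 3 * y < x then a - 1 else if 3 * x < y then a + 1 else a

theorem bal4_of_accurate {Z0 E tot θ : ℝ} {m x y : ℕ} {a : ℤ} (hm : 0 < m)
    (htot : 0 < tot) (hZ0 : 0 < Z0)
    (hbal : Bal Z0 ((2 : ℝ) ^ a * E))
    (hx : |(x : ℝ) / m - ((2 : ℝ) ^ a * E) / tot| ≤ θ) (hy : |(y : ℝ) / m - Z0 / tot| ≤ θ)
    (hθ : 100 * θ ≤ Z0 / tot) :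
    Bal4 Z0 ((2 : ℝ) ^ (upd a x y) * E) := by
  have hm' : (0 : ℝ) < m := by exact_mod_cast hm
  set Z := (2 : ℝ) ^ a * E with hZ
  set p := Z / tot with hp
  set p0 := Z0 / tot with hp0
  have hZp : Z = p * tot := by rw [hp]; (clear * - htot; field_simp)
  have hZ0p : Z0 = p0 * tot := by rw [hp0]; field_simp
  have hp0pos : 0 < p0 := by positivity
  obtain ⟨hx1, hx2⟩ := abs_le.mp hx
  obtain ⟨hy1, hy2⟩ := abs_le.mp hy
  obtain ⟨hb1, hb2⟩ := hbal
  have hb1' : p0 / 8 ≤ p := by
    rw [hp, hp0, div_right_comm]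
    exact div_le_div_of_nonneg_right hb1 htot.le
  have hb2' : p ≤ 8 * p0 := by
    rw [hp, hp0, ← mul_div_assoc]
    exact div_le_div_of_nonneg_right hb2 htot.le
  have goal : ∀ c : ℝ, p0 / 4 ≤ c * p → c * p ≤ 4 * p0 → Bal4 Z0 (c * Z) := by
    intro c h1 h2
    constructor
    · rw [hZp, hZ0p]
      have := mul_le_mul_of_nonneg_right h1 htot.le
      linarith only [this]
    · rw [hZp, hZ0p]
      have := mul_le_mul_of_nonneg_right h2 htot.le
      linarith only [this]
  unfold upd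
  split_ifs with h1 h2
  · have h1' : 3 * ((y : ℝ) / m) < (x : ℝ) / m := by
      rw [← mul_div_assoc]
      exact div_lt_div_of_pos_right (by exact_mod_cast h1) hm'
    have : (2 : ℝ) ^ (a - 1) * E = (1 / 2) * Z := by
      rw [zpow_sub_one₀ (by norm_num), hZ]; ring
    rw [this]
    apply goal <;> linarith only [hb2', hθ, hp0pos, hx2, hy1, h1']
  · have h2' : 3 * ((x : ℝ) / m) < (y : ℝ) / m := by
      rw [← mul_div_assoc]
      exact div_lt_div_of_pos_right (by exact_mod_cast h2) hm'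
    have : (2 : ℝ) ^ (a + 1) * E = 2 * Z := by
      rw [zpow_add_one₀ (by norm_num), hZ]; ring
    rw [this]
    apply goal <;> linarith
  · have h1' : (x : ℝ) / m ≤ 3 * ((y : ℝ) / m) := by
      rw [← mul_div_assoc]
      exact div_le_div_of_nonneg_right (by exact_mod_cast not_lt.mp h1) hm'.le
    have h2' : (y : ℝ) / m ≤ 3 * ((x : ℝ) / m) := by
      rw [← mul_div_assoc]
      exact div_le_div_of_nonneg_right (by exact_mod_cast not_lt.mp h2) hm'.le
    rw [← hZ]
    have := goal 1 (by linarith only [hθ, hp0pos, hx2, hy1, h2']) (by linarith only [hθ, hp0pos, hx1, hy2, h1'])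
    rwa [one_mul] at this

theorem bal_of_bal4 {Z0 Z0' E E' c : ℝ} (hc : 0 ≤ c) (h : Bal4 Z0 (c * E))
    (h0 : Z0 / 2 ≤ Z0') (h0' : Z0' ≤ Z0) (h1 : E / 2 ≤ E') (h1' : E' ≤ E) :
    Bal Z0' (c * E') := by
  obtain ⟨a, b⟩ := h
  have e1 := mul_le_mul_of_nonneg_left h1 hc
  have e2 := mul_le_mul_of_nonneg_left h1' hc
  constructor <;> linarith only [h0', a, e1, h0, b, e2]

/-- estimate of the ratio `(2 p0 - pd) / (2 p0)` from counts -/
theorem ratio_estimate {p0 pd θ : ℝ} {m x y : ℕ} (hm : 0 < m)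
    (hp0 : 0 < p0) (hpd0 : 0 ≤ pd) (hpd : pd ≤ p0)
    (hx : |(x : ℝ) / m - pd| ≤ θ) (hy : |(y : ℝ) / m - p0| ≤ θ)
    (hθ : 100 * θ ≤ p0) :
    |(2 * (y : ℝ) - x) / (2 * y) - (2 * p0 - pd) / (2 * p0)| ≤
      (4 * θ / p0) * ((2 * p0 - pd) / (2 * p0)) := by
  have hm' : (0 : ℝ) < m := by exact_mod_cast hm
  obtain ⟨hx1, hx2⟩ := abs_le.mp hx
  obtain ⟨hy1, hy2⟩ := abs_le.mp hy
  set X := (x : ℝ) / m with hX
  set Y := (y : ℝ) / m with hY
  have hxX : (x : ℝ) = X * m := by rw [hX]; field_simp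
  have hyY : (y : ℝ) = Y * m := by rw [hY]; (clear * - hm; field_simp)
  have hYpos : 0 < Y := by linarith only [hp0, hθ, hy1]
  have hθ0 : 0 ≤ θ := (abs_nonneg _).trans hx
  have e1 : (2 * (y : ℝ) - x) / (2 * y) = 1 - X / (2 * Y) := by
    rw [hxX, hyY]
    (clear * - hm hYpos; field_simp)
  have e2 : (2 * p0 - pd) / (2 * p0) = 1 - pd / (2 * p0) := by
    (clear * - hp0; field_simp)
  rw [e1, e2]
  have e3 : (1 - X / (2 * Y)) - (1 - pd / (2 * p0)) = (pd * Y - X * p0) / (2 * p0 * Y) := by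
    field_simp
    ring
  rw [e3, abs_div, abs_of_pos (by (clear * - hp0 hYpos; positivity) : 0 < 2 * p0 * Y)]
  have h1 : |pd * Y - X * p0| ≤ 2 * θ * p0 := by
    have : pd * Y - X * p0 = pd * (Y - p0) - (X - pd) * p0 := by ring
    rw [this]
    calc |pd * (Y - p0) - (X - pd) * p0| ≤ |pd * (Y - p0)| + |(X - pd) * p0| := abs_sub _ _
      _ = pd * |Y - p0| + |X - pd| * p0 := by
          rw [abs_mul, abs_mul, abs_of_nonneg hpd0, abs_of_pos hp0]
      _ ≤ p0 * θ + θ * p0 := by
          (clear * - hpd hy hp0 hx; gcongr)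
      _ = _ := by ring
  have h2 : |pd * Y - X * p0| / (2 * p0 * Y) ≤ (2 * θ * p0) / (2 * p0 * Y) :=
    div_le_div_of_nonneg_right h1 (by (clear * - hp0 hYpos; positivity))
  refine h2.trans ?_
  have h3 : (2 * θ * p0) / (2 * p0 * Y) = θ / Y := by
    (clear * - hp0 hYpos; field_simp)
  rw [h3]
  have h4 : (1 : ℝ) / 2 ≤ 1 - pd / (2 * p0) := by
    have : pd / (2 * p0) ≤ 1 / 2 := by
      rw [div_le_div_iff₀ (by positivity) (by norm_num)]
      linarith only [hpd]
    linarith only [this]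
  have h5 : θ / Y ≤ (2 * θ / p0) := by
    rw [div_le_div_iff₀ hYpos hp0]
    nlinarith only [hy1, hθ, hy2]
  calc θ / Y ≤ (2 * θ / p0) := h5
    _ = (4 * θ / p0) * (1 / 2) := by ring
    _ ≤ _ := mul_le_mul_of_nonneg_left h4 (by (clear * - hθ0 hp0; positivity))

/-- telescoping of relative errors -/
theorem telescope {r q : ℕ → ℝ} {δ : ℝ} (K : ℕ) (hr : ∀ k < K, 0 < r k)
    (h : ∀ k < K, |q k - r k| ≤ δ * r k) :
    |(∏ k ∈ range K, q k) - ∏ k ∈ range K, r k| ≤ ((1 + δ) ^ K - 1) * ∏ k ∈ range K, r k := by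
  induction K with
  | zero => simp
  | succ K ih =>
    have ih' := ih (fun k hk => hr k (by omega)) (fun k hk => h k (by omega))
    have hK := h K (by omega)
    have hrK := hr K (by omega)
    rw [prod_range_succ, prod_range_succ]
    set P := ∏ k ∈ range K, q k
    set R := ∏ k ∈ range K, r k
    have hR : 0 ≤ R := prod_nonneg fun k hk => (hr k (by have := mem_range.mp hk; omega)).le
    have hqK : |q K| ≤ (1 + δ) * r K := by
      have := abs_le.mp hK
      rw [abs_le]
      constructor <;> linarith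
    have e : P * q K - R * r K = (P - R) * q K + R * (q K - r K) := by ring
    rw [e]
    calc |(P - R) * q K + R * (q K - r K)| ≤ |(P - R) * q K| + |R * (q K - r K)| := abs_add_le _ _
      _ = |P - R| * |q K| + R * |q K - r K| := by rw [abs_mul, abs_mul, abs_of_nonneg hR]
      _ ≤ (((1 + δ) ^ K - 1) * R) * ((1 + δ) * r K) + R * (δ * r K) := by
          have h1 : (0:ℝ) ≤ ((1 + δ) ^ K - 1) * R := (abs_nonneg _).trans ih'
          (clear * - ih' hqK h1 hK hR; gcongr)
      _ = _ := by ring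

theorem one_add_pow_sub_one_le {δ : ℝ} {K : ℕ} (hδ : 0 ≤ δ) (h : K * δ ≤ 1) :
    (1 + δ) ^ K - 1 ≤ 2 * (K * δ) := by
  have h1 : (1 + δ) ^ K ≤ Real.exp (K * δ) := by
    rw [Real.exp_nat_mul]
    apply pow_le_pow_left₀ (by linarith)
    rw [add_comm]
    exact Real.add_one_le_exp δ
  have h2 : Real.exp (K * δ) ≤ 1 + 2 * (K * δ) := by
    have h3 : |(K * δ : ℝ)| ≤ 1 := by rw [abs_of_nonneg (by positivity)]; exact h
    have h4 := Real.abs_exp_sub_one_le h3
    rw [abs_of_nonneg (by positivity : (0:ℝ) ≤ K * δ)] at h4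
    have := (abs_le.mp h4).2
    linarith only [this]
  linarith

/-- final accuracy -/
theorem final_accuracy {N e : ℕ} {Z est junk δ : ℝ} (he : 1 ≤ e) (hZ : Z = N + junk)
    (hj0 : 0 ≤ junk) (hj : junk * (16 * e) ≤ 1) (hδ0 : 0 ≤ δ) (hδ : δ * (4 * e) ≤ 1)
    (hest : |est - Z| ≤ δ * Z) :
    (N = 0 → est < 1 / 2) ∧ (N ≠ 0 → 1 / 2 ≤ est ∧ |est - N| ≤ N / e) := by
  have he' : (1 : ℝ) ≤ e := by exact_mod_cast he
  obtain ⟨h1, h2⟩ := abs_le.mp hest
  have hδ1 : δ ≤ 1 / 4 := by nlinarith only [hδ, he']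
  have hj1 : junk ≤ 1 / 16 := by nlinarith only [hj, he']
  constructor
  · intro hN
    subst hN
    simp only [Nat.cast_zero, zero_add] at hZ
    subst hZ
    nlinarith only [he', hδ1, hj, h2, hδ0]
  · intro hN
    have hN1 : (1 : ℝ) ≤ N := by exact_mod_cast Nat.one_le_iff_ne_zero.mpr hN
    have hZpos : 0 ≤ Z := by rw [hZ]; positivity
    refine ⟨by nlinarith only [hZ, he', hj0, h1, hN1, hδ], ?_⟩
    have hepos : (0 : ℝ) < e := by linarith only [he']
    have hδe : δ ≤ 1 / (4 * e) := by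
      rw [le_div_iff₀ (by positivity)]; exact hδ
    have hje : junk ≤ 1 / (16 * e) := by
      rw [le_div_iff₀ (by positivity)]; exact hj
    have k1 : |est - N| ≤ δ * Z + junk := by
      calc |est - N| = |(est - Z) + junk| := by rw [hZ]; congr 1; ring
        _ ≤ |est - Z| + |junk| := abs_add_le _ _
        _ ≤ _ := by rw [abs_of_nonneg hj0]; linarith only [hest]
    refine k1.trans ?_
    have hZ2 : Z ≤ 2 * N := by rw [hZ]; linarith only [hj1, hN1]
    have k2 : δ * Z ≤ (1 / (4 * e)) * (2 * N) := by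
      apply mul_le_mul hδe hZ2 hZpos (by positivity)
    have k3 : (1 / (4 * e)) * (2 * N) = (1 / 2) * (N / e : ℝ) := by
      field_simp
      ring
    have k4 : (1 : ℝ) / (16 * e) ≤ (1 / 2) * (N / e : ℝ) := by
      rw [div_le_iff₀ (by positivity)]
      have : (1 / 2) * (N / e : ℝ) * (16 * e) = 8 * N := by
        field_simp
        ring
      rw [this]
      linarith only [hN1]
    linarith only [hje, k2, k3, k4]

/-! ### the masses -/

section mass

variable {V : Type*} [Fintype V] [DecidableEq V]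

/-- the weight `2^{-⌊k d / n⌋}` -/
noncomputable def wt (n k d : ℕ) : ℝ := (1 / 2 : ℝ) ^ (k * d / n)

lemma wt_pos (n k d : ℕ) : 0 < wt n k d := by unfold wt; positivity

lemma wt_zero (n d : ℕ) : wt n 0 d = 1 := by simp only [wt, one_div, zero_mul, Nat.zero_div, pow_zero]

lemma floor_step {n k d : ℕ} (hn : 0 < n) (hd : d ≤ n) :
    (k + 1) * d / n = k * d / n ∨ (k + 1) * d / n = k * d / n + 1 := by
  have h1 : k * d / n ≤ (k + 1) * d / n := Nat.div_le_div_right (by linarith)
  have h2 : (k + 1) * d / n ≤ k * d / n + 1 := by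
    have : (k + 1) * d ≤ k * d + n := by nlinarith only [hd]
    calc (k + 1) * d / n ≤ (k * d + n) / n := Nat.div_le_div_right this
      _ = k * d / n + 1 := Nat.add_div_right _ hn
  omega

lemma wt_step {n k d : ℕ} (hn : 0 < n) (hd : d ≤ n) :
    wt n (k + 1) d = wt n k d -
      (if (k + 1) * d / n > k * d / n then wt n k d else 0) / 2 := by
  unfold wt
  rcases floor_step hn hd (k := k) with h | h
  · rw [h]; simp
  · rw [h, if_pos (by omega)]
    rw [pow_succ]; ring

lemma wt_step_le {n k d : ℕ} (hn : 0 < n) (hd : d ≤ n) : wt n (k + 1) d ≤ wt n k d := by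
  rw [wt_step hn hd]
  have := wt_pos n k d
  split_ifs <;> linarith only [this]

lemma wt_step_ge {n k d : ℕ} (hn : 0 < n) (hd : d ≤ n) : wt n k d / 2 ≤ wt n (k + 1) d := by
  rw [wt_step hn hd]
  have := wt_pos n k d
  split_ifs <;> linarith only [this]

/-- mass of a family of sets at stage `k` -/
noncomputable def mass {X : Type*} (A : Finset X) (df : X → ℕ) (n k : ℕ) : ℝ :=
  ∑ S ∈ A, wt n k (df S)

variable {X : Type*} {A : Finset X} {df : X → ℕ} {n k : ℕ}

lemma mass_pos (hA : A.Nonempty) : 0 < mass A df n k := sum_pos (fun _ _ => wt_pos _ _ _) hA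

lemma mass_nonneg : 0 ≤ mass A df n k := sum_nonneg (fun _ _ => (wt_pos _ _ _).le)

lemma mass_zero : mass A df n 0 = A.card := by
  simp only [mass, wt_zero, sum_const, nsmul_eq_mul, mul_one]

lemma mass_step_le (hn : 0 < n) (hd : ∀ S ∈ A, df S ≤ n) :
    mass A df n (k + 1) ≤ mass A df n k :=
  sum_le_sum fun _ hS => wt_step_le hn (hd _ hS)

lemma mass_step_ge (hn : 0 < n) (hd : ∀ S ∈ A, df S ≤ n) :
    mass A df n k / 2 ≤ mass A df n (k + 1) := by
  unfold mass
  rw [sum_div]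
  exact sum_le_sum fun _ hS => wt_step_ge hn (hd _ hS)

/-- the mass of the members of `A` whose weight drops between stages `k` and `k+1` -/
noncomputable def drop (A : Finset X) (df : X → ℕ) (n k : ℕ) : ℝ :=
  mass (A.filter (fun S => (k + 1) * df S / n > k * df S / n)) df n k

lemma mass_step_eq (hn : 0 < n) (hd : ∀ S ∈ A, df S ≤ n) :
    mass A df n (k + 1) = mass A df n k - drop A df n k / 2 := by
  unfold mass drop
  rw [mass, sum_filter, sum_div, ← sum_sub_distrib]
  refine sum_congr rfl fun S hS => ?_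
  rw [wt_step hn (hd S hS)]

lemma drop_nonneg : 0 ≤ drop A df n k := mass_nonneg

lemma drop_le : drop A df n k ≤ mass A df n k :=
  sum_le_sum_of_subset_of_nonneg (filter_subset _ _) fun _ _ _ => (wt_pos _ _ _).le

/-- at stage `n u` the mass is the number of deficiency zero sets plus junk -/
lemma mass_final {u : ℕ} (hn : 0 < n) :
    ∃ junk : ℝ, mass A df n (n * u) = (A.filter (fun S => df S = 0)).card + junk ∧ 0 ≤ junk ∧
      junk ≤ A.card * (1 / 2 : ℝ) ^ u := by
  refine ⟨∑ S ∈ A.filter (fun S => ¬ df S = 0), wt n (n * u) (df S), ?_, ?_, ?_⟩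
  · unfold mass
    rw [← sum_filter_add_sum_filter_not A (fun S => df S = 0)]
    congr 1
    rw [Finset.cast_card]
    refine sum_congr rfl fun S hS => ?_
    rw [(mem_filter.mp hS).2]
    simp only [wt, one_div, mul_zero, Nat.zero_div, pow_zero]
  · exact sum_nonneg fun _ _ => (wt_pos _ _ _).le
  · calc ∑ S ∈ A.filter (fun S => ¬ df S = 0), wt n (n * u) (df S)
        ≤ ∑ S ∈ A.filter (fun S => ¬ df S = 0), (1 / 2 : ℝ) ^ u := by
          refine sum_le_sum fun S hS => ?_
          have h0 : 1 ≤ df S := Nat.one_le_iff_ne_zero.mpr (mem_filter.mp hS).2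
          unfold wt
          have : n * u * df S / n = u * df S := by
            rw [mul_assoc, Nat.mul_div_cancel_left _ hn]
          rw [this]
          apply pow_le_pow_of_le_one (by norm_num) (by norm_num)
          exact Nat.le_mul_of_pos_right _ h0
      _ ≤ ∑ S ∈ A, (1 / 2 : ℝ) ^ u :=
          sum_le_sum_of_subset_of_nonneg (filter_subset _ _) fun _ _ _ => by positivity
      _ = _ := by rw [sum_const, nsmul_eq_mul]

end mass

/-! ### cardinalities of the types -/

section card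

variable {V : Type*} [Fintype V] [DecidableEq V]

omit [Fintype V] in
lemma TS_one (J : Finset V) (S : Finset (V × Bool)) : TL.TS J (fun _ => (1 : ℝ)) S = 2 ^ J.card := by
  unfold TL.TS
  rw [sum_const, card_powerset, nsmul_eq_mul, mul_one]
  push_cast
  rfl

theorem card_Om0 : (Window.Om0 V).card = 2 ^ Fintype.card V := by
  have h := TL.sum_Om0 (V := V) (fun _ => (1 : ℝ))
  rw [TS_one, sum_const, nsmul_eq_mul, mul_one, card_univ] at h
  exact_mod_cast h

theorem card_Om {i j : V} (hij : i ≠ j) : (Window.Om i j).card * 4 = 2 ^ Fintype.card V := by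
  have h := TL.sum_Om (V := V) hij (fun _ => (1 : ℝ))
  rw [TS_one, sum_const, nsmul_eq_mul, mul_one] at h
  have h' : (Window.Om i j).card = 2 ^ ((univ.erase j).erase i).card := by exact_mod_cast h
  have hc := TL.card_erase_erase hij.symm
  rw [h', ← hc, pow_add]
  (clear * -; norm_num)

end card

end Vale.Agent.P317.Anneal
end

section

/-!
# Facts on the window, the weights and the masses (interface between `Law` and the analysis)
-/

namespace Vale.Agent.P317.Alg

open Finset Window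

/-! ### counting -/

theorem cnt_eq_card (p : ℕ → Bool) (m : ℕ) : cnt p m = ((range m).filter (fun i => p i = true)).card := by
  induction m with
  | zero => rfl
  | succ m ih =>
    rw [cnt, ih, range_add_one, filter_insert]
    by_cases h : p m = true
    · rw [if_pos h, if_pos h, card_insert_of_notMem (by simp)]
    · rw [if_neg h, if_neg h, add_zero]

theorem cnt_congr {p q : ℕ → Bool} {m : ℕ} (h : ∀ i < m, p i = q i) : cnt p m = cnt q m := by
  induction m with
  | zero => rfl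
  | succ m ih => rw [cnt, cnt, ih (fun i hi => h i (by omega)), h m (by omega)]

theorem cnt_le' (p : ℕ → Bool) (m : ℕ) : cnt p m ≤ m := by
  induction m with
  | zero => rfl
  | succ m ih => rw [cnt]; split <;> omega

theorem cnt_eq_zero_iff (p : ℕ → Bool) (m : ℕ) : cnt p m = 0 ↔ ∀ i < m, p i = false := by
  induction m with
  | zero => simp [cnt]
  | succ m ih =>
    rw [cnt, Nat.add_eq_zero_iff, ih]
    constructor
    · rintro ⟨h1, h2⟩ i hi
      rcases Nat.lt_succ_iff_lt_or_eq.mp hi with h | rfl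
      · exact h1 i h
      · by_contra h
        simp only [Bool.not_eq_false] at h
        simp [h] at h2
    · intro h
      exact ⟨fun i hi => h i (by omega), by simp [h m (by omega)]⟩

theorem cnt_unique {p : ℕ → Bool} {m i : ℕ} (hi : i < m) (hp : p i = true)
    (hu : ∀ j < m, p j = true → j = i) : cnt p m = 1 := by
  rw [cnt_eq_card, card_eq_one]
  refine ⟨i, ?_⟩
  ext j
  simp only [mem_filter, mem_range, mem_singleton]
  constructor
  · rintro ⟨h1, h2⟩; exact hu j h1 h2
  · rintro rfl; exact ⟨hi, hp⟩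

theorem lst_unique {p : ℕ → Bool} {m i : ℕ} (hi : i < m) (hp : p i = true)
    (hu : ∀ j < m, p j = true → j = i) : lst p m = i := by
  induction m with
  | zero => omega
  | succ m ih =>
    rw [lst]
    by_cases h : p m = true
    · rw [if_pos h]; exact hu m (by omega) h
    · rw [if_neg h]
      have hne : i ≠ m := by rintro rfl; exact h hp
      exact ih (by omega) (fun j hj => hu j (by omega))

theorem lst_lt {p : ℕ → Bool} {m : ℕ} (hm : 0 < m) : lst p m < m := by
  induction m with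
  | zero => omega
  | succ m ih =>
    rw [lst]
    by_cases h : p m = true
    · rw [if_pos h]; omega
    · rw [if_neg h]
      rcases Nat.eq_zero_or_pos m with rfl | h0
      · simp [lst]
      · have := ih h0; omega

/-! ### codes -/

section enc

variable {n : ℕ}

theorem mem_enc_false (Z : Finset (Fin n × Bool)) (i : Fin n) :
    (i : ℕ) + i ∈ enc Z ↔ (i, false) ∈ Z := by
  have : ((i : ℕ) + i) = cd (i, false) := by simp [cd]; ring
  rw [this, enc]
  exact mem_map' _

theorem mem_enc_true (Z : Finset (Fin n × Bool)) (i : Fin n) :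
    (i : ℕ) + i + 1 ∈ enc Z ↔ (i, true) ∈ Z := by
  have : ((i : ℕ) + i + 1) = cd (i, true) := by simp [cd]; ring
  rw [this, enc]
  exact mem_map' _

theorem enc_injective : Function.Injective (enc : Finset (Fin n × Bool) → Finset ℕ) :=
  Finset.map_injective _

theorem isD_enc (Z : Finset (Fin n × Bool)) (i : Fin n) :
    isD (enc Z) i = true ↔ (i, false) ∈ Z ∧ (i, true) ∈ Z := by
  rw [isD, decide_eq_true_eq, mem_enc_false, mem_enc_true]

theorem isE_enc (Z : Finset (Fin n × Bool)) (i : Fin n) :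
    isE (enc Z) i = true ↔ (i, false) ∉ Z ∧ (i, true) ∉ Z := by
  rw [isE, decide_eq_true_eq, mem_enc_false, mem_enc_true]

end enc

namespace Par

variable (P : Par)

theorem nD_enc_col {Z : Finset (Fin P.n × Bool)} (hZ : IsCol Z) : P.nD (enc Z) = 0 := by
  rw [nD, cnt_eq_zero_iff]
  intro i hi
  have := isD_enc Z ⟨i, hi⟩
  by_contra h
  simp only [Bool.not_eq_false] at h
  have h2 := this.mp h
  exact (hZ ⟨i, hi⟩).mp h2.1 h2.2

theorem isD_near {i j : Fin P.n} {Z : Finset (Fin P.n × Bool)} (hZ : IsNear i j Z) :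
    isD (enc Z) i = true ∧ ∀ l < P.n, isD (enc Z) l = true → l = i := by
  refine ⟨(isD_enc Z i).mpr ⟨hZ.1, hZ.2.1⟩, fun l hl h => ?_⟩
  have h2 := (isD_enc Z ⟨l, hl⟩).mp h
  by_contra hne
  have hli : (⟨l, hl⟩ : Fin P.n) ≠ i := fun e => hne (by rw [← e])
  have hlj : (⟨l, hl⟩ : Fin P.n) ≠ j := by
    rintro e
    exact hZ.2.2.1 (e ▸ h2.1)
  exact (hZ.2.2.2.2 _ hli hlj).mp h2.1 h2.2

theorem isE_near {i j : Fin P.n} {Z : Finset (Fin P.n × Bool)} (hZ : IsNear i j Z) :
    isE (enc Z) j = true ∧ ∀ l < P.n, isE (enc Z) l = true → l = j := by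
  refine ⟨(isE_enc Z j).mpr ⟨hZ.2.2.1, hZ.2.2.2.1⟩, fun l hl h => ?_⟩
  have h2 := (isE_enc Z ⟨l, hl⟩).mp h
  by_contra hne
  have hlj : (⟨l, hl⟩ : Fin P.n) ≠ j := fun e => hne (by rw [← e])
  have hli : (⟨l, hl⟩ : Fin P.n) ≠ i := by
    rintro e
    exact h2.1 (e ▸ hZ.1)
  exact h2.1 ((hZ.2.2.2.2 _ hli hlj).mpr h2.2)

theorem nD_enc_near {i j : Fin P.n} {Z : Finset (Fin P.n × Bool)} (hZ : IsNear i j Z) :
    P.nD (enc Z) = 1 :=
  cnt_unique i.2 (P.isD_near hZ).1 (P.isD_near hZ).2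

theorem dI_enc_near {i j : Fin P.n} {Z : Finset (Fin P.n × Bool)} (hZ : IsNear i j Z) :
    P.dI (enc Z) = i :=
  lst_unique i.2 (P.isD_near hZ).1 (P.isD_near hZ).2

theorem eI_enc_near {i j : Fin P.n} {Z : Finset (Fin P.n × Bool)} (hZ : IsNear i j Z) :
    P.eI (enc Z) = j :=
  lst_unique j.2 (P.isE_near hZ).1 (P.isE_near hZ).2

theorem ne_of_near {i j : Fin P.n} {Z : Finset (Fin P.n × Bool)} (hZ : IsNear i j Z) : i ≠ j := by
  rintro rfl
  exact hZ.2.2.1 hZ.1

/-! ### events -/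

theorem col_enc_col {Z : Finset (Fin P.n × Bool)} (hZ : IsCol Z) : P.col (enc Z) = true := by
  simp [col, P.nD_enc_col hZ]

theorem col_enc_near {i j : Fin P.n} {Z : Finset (Fin P.n × Bool)} (hZ : IsNear i j Z) :
    P.col (enc Z) = false := by
  simp [col, P.nD_enc_near hZ]

theorem typ_enc_col {Z : Finset (Fin P.n × Bool)} (hZ : IsCol Z) (i j : ℕ) :
    P.typ i j (enc Z) = false := by
  simp [typ, P.nD_enc_col hZ]

theorem typ_enc_near {i j : Fin P.n} {Z : Finset (Fin P.n × Bool)} (hZ : IsNear i j Z)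
    (i' j' : Fin P.n) : P.typ i' j' (enc Z) = decide (i' = i ∧ j' = j) := by
  simp only [typ, P.nD_enc_near hZ, P.dI_enc_near hZ, P.eI_enc_near hZ]
  congr 1
  simp only [ne_eq, one_ne_zero, not_false_eq_true, true_and, Fin.val_inj, eq_iff_iff]
  constructor
  · rintro ⟨rfl, rfl⟩; exact ⟨rfl, rfl⟩
  · rintro ⟨rfl, rfl⟩; exact ⟨rfl, rfl⟩

theorem drop_enc_near {i j : Fin P.n} {Z : Finset (Fin P.n × Bool)} (hZ : IsNear i j Z) (k : ℕ) :
    P.drop k (enc Z) = false := by
  simp only [drop, P.nD_enc_near hZ, one_ne_zero, false_and, decide_false]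

theorem drop_enc_col {Z : Finset (Fin P.n × Bool)} (hZ : IsCol Z) (k : ℕ) :
    P.drop k (enc Z) =
      decide (k * P.dfc (enc Z) / P.n < (k + 1) * P.dfc (enc Z) / P.n) := by
  simp only [drop, P.nD_enc_col hZ, true_and]

/-! ### weights -/

theorem mu_pos (k : ℕ) (S : Finset ℕ) : 0 < P.mu k S := by unfold mu; positivity

theorem wt_pos (I D : Finset ℕ) (k : ℕ) (S : Finset ℕ) : 0 < P.wt I D k S := by
  unfold wt; positivity

theorem mu_zero (S : Finset ℕ) : P.mu 0 S = 1 := by simp only [mu, one_div, zero_mul, Nat.zero_div, pow_zero]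

theorem wt_col (I D : Finset ℕ) (k : ℕ) {Z : Finset (Fin P.n × Bool)} (hZ : IsCol Z) :
    P.wt I D k (enc Z) = P.mu k (enc Z) := by
  simp only [wt, pe, P.nD_enc_col hZ, ↓reduceIte, pow_zero, qe, add_zero, one_div, mu, inv_pow]

/-- exponent factor of the type `(i, j)` -/
noncomputable def ef (I D : Finset ℕ) (k i j : ℕ) : ℝ :=
  2 ^ (2 + hist I P.n k i j) / 2 ^ (hist D P.n k i j)

theorem ef_pos (I D : Finset ℕ) (k i j : ℕ) : 0 < P.ef I D k i j := by unfold ef; positivity

theorem wt_near (I D : Finset ℕ) (k : ℕ) {i j : Fin P.n} {Z : Finset (Fin P.n × Bool)}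
    (hZ : IsNear i j Z) :
    P.wt I D k (enc Z) = P.ef I D k i j * P.mu k (enc Z) := by
  simp only [wt, pe, qe, mu, ef, P.nD_enc_near hZ, P.dI_enc_near hZ, P.eI_enc_near hZ,
    one_ne_zero, if_false, pow_add, one_div, inv_pow]
  field_simp

/-- mass of the type `(i, j)`, without type weight -/
noncomputable def zm (k : ℕ) (i j : Fin P.n) : ℝ := ∑ Z ∈ Om i j, P.mu k (enc Z)

theorem zt_eq (I D : Finset ℕ) (k : ℕ) (i j : Fin P.n) :
    P.zt I D k i j = P.ef I D k i j * P.zm k i j := by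
  unfold zt zm
  rw [mul_sum]
  exact sum_congr rfl fun Z hZ => P.wt_near I D k (mem_Om.mp hZ)

theorem z0_eq (I D : Finset ℕ) (k : ℕ) : ∑ Z ∈ Om0 (Fin P.n), P.wt I D k (enc Z) = P.z0 k := by
  unfold z0
  exact sum_congr rfl fun Z hZ => P.wt_col I D k (mem_Om0.mp hZ)

end Par

/-! ### the window -/

section window

variable {n : ℕ}

theorem disj_Om0_Om (i j : Fin n) : Disjoint (Om0 (Fin n)) (Om i j) := by
  rw [Finset.disjoint_left]
  intro Z h1 h2
  rw [mem_Om0] at h1
  rw [mem_Om] at h2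
  exact (h1 i).mp h2.1 h2.2.1

theorem near_unique {i j i' j' : Fin n} {Z : Finset (Fin n × Bool)} (h : IsNear i j Z)
    (h' : IsNear i' j' Z) : i = i' ∧ j = j' := by
  have hi : i = i' := by
    by_contra hne
    by_cases hj : i = j'
    · exact h'.2.2.1 (hj ▸ h.1)
    · exact (h'.2.2.2.2 i hne hj).mp h.1 h.2.1
  have hj : j = j' := by
    by_contra hne
    by_cases hi' : j = i'
    · exact h.2.2.1 (hi' ▸ h'.1)
    · exact h.2.2.1 ((h'.2.2.2.2 j hi' hne).mpr h.2.2.2.1)
  exact ⟨hi, hj⟩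

theorem mem_prs {p : Fin n × Fin n} : p ∈ prs n ↔ p.1 ≠ p.2 := by simp only [prs, ne_eq, mem_filter, mem_univ, true_and]

/-- a sum over the window -/
theorem sum_win (f : Finset (Fin n × Bool) → ℝ) :
    ∑ Z ∈ win n, f Z = ∑ Z ∈ Om0 (Fin n), f Z + ∑ p ∈ prs n, ∑ Z ∈ Om p.1 p.2, f Z := by
  unfold win
  rw [sum_union, sum_biUnion]
  · intro p hp q hq hpq
    rw [Function.onFun, Finset.disjoint_left]
    intro Z h1 h2
    rw [mem_Om] at h1 h2
    exact hpq (Prod.ext (near_unique h1 h2).1 (near_unique h1 h2).2)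
  · rw [Finset.disjoint_biUnion_right]
    intro p _
    exact disj_Om0_Om _ _

/-- colourful sets from functions `Fin n → Bool` -/
def colSet (c : Fin n → Bool) : Finset (Fin n × Bool) := univ.filter fun e => c e.1 = e.2

theorem card_Om0 : (Om0 (Fin n)).card = 2 ^ n := by
  have : (Om0 (Fin n)).card = (univ : Finset (Fin n → Bool)).card := by
    refine (Finset.card_bij (fun c _ => colSet c) ?_ ?_ ?_).symm
    · intro c _
      rw [mem_Om0]
      intro k
      simp only [colSet, mem_filter, mem_univ, true_and, Bool.not_eq_true]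
    · intro c _ d _ h
      funext k
      have : (k, c k) ∈ colSet d := by
        have h1 : (k, c k) ∈ colSet c := by simp only [colSet, mem_filter, mem_univ, and_self]
        rw [← h]; exact h1
      simp only [colSet, mem_filter, mem_univ, true_and] at this
      exact this.symm
    · intro Z hZ
      rw [mem_Om0] at hZ
      refine ⟨fun k => decide ((k, true) ∈ Z), mem_univ _, ?_⟩
      ext ⟨k, b⟩
      simp only [colSet, mem_filter, mem_univ, true_and]
      have := hZ k
      cases b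
      · simp [this]
      · simp
  rw [this]
  simp only [card_univ, Fintype.card_pi, Fintype.card_bool, prod_const, Fintype.card_fin]

end window

end Vale.Agent.P317.Alg
end

section

/-!
# Annealing: invariants of the algorithm on the event that all experiments are accurate
-/

open Finset

namespace Vale.Agent.P317.Alg

open Window Anneal

namespace Par

variable (P : Par)

/-! ### masses -/

/-- exponent of the type weight -/
def xp (H : Finset ℕ × Finset ℕ) (k : ℕ) (i j : Fin P.n) : ℤ :=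
  2 + (hist H.1 P.n k i j : ℤ) - (hist H.2 P.n k i j : ℤ)

lemma wt_Om0 (I D : Finset ℕ) (k : ℕ) {Z : Finset (Fin P.n × Bool)} (hZ : Z ∈ Om0 (Fin P.n)) :
    P.wt I D k (enc Z) = P.mu k (enc Z) := P.wt_col I D k (mem_Om0.mp hZ)

lemma ef_eq (H : Finset ℕ × Finset ℕ) (k : ℕ) (i j : Fin P.n) :
    P.ef H.1 H.2 k i j = (2 : ℝ) ^ P.xp H k i j := by
  unfold ef xp
  rw [zpow_sub₀ (by norm_num), zpow_add₀ (by norm_num), pow_add, zpow_natCast, zpow_natCast]
  norm_num

lemma zt_eq' (H : Finset ℕ × Finset ℕ) (k : ℕ) (i j : Fin P.n) :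
    P.zt H.1 H.2 k i j = (2 : ℝ) ^ P.xp H k i j * P.zm k i j := by
  rw [zt_eq, ef_eq]

lemma z0_eq_mass (k : ℕ) :
    P.z0 k = mass (Om0 (Fin P.n)) (fun Z => P.dfc (enc Z)) P.n k := rfl

lemma zm_eq_mass (k : ℕ) (i j : Fin P.n) :
    P.zm k i j = mass (Om i j) (fun Z => P.dfc (enc Z)) P.n k := rfl

lemma Om0_nonempty : (Om0 (Fin P.n)).Nonempty := by
  rw [← Finset.card_pos, Alg.card_Om0]
  positivity

lemma z0_pos (k : ℕ) : 0 < P.z0 k := by
  rw [z0_eq_mass]
  exact mass_pos P.Om0_nonempty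

lemma zm_nonneg (k : ℕ) (i j : Fin P.n) : 0 ≤ P.zm k i j := mass_nonneg

lemma zz_eq (H : Finset ℕ × Finset ℕ) (k : ℕ) :
    P.zz H.1 H.2 k = P.z0 k + ∑ p ∈ prs P.n, P.zt H.1 H.2 k p.1 p.2 := by
  unfold zz
  rw [sum_win]
  congr 1
  exact sum_congr rfl fun Z hZ => P.wt_Om0 _ _ _ hZ

lemma zt_nonneg (H : Finset ℕ × Finset ℕ) (k : ℕ) (i j : Fin P.n) : 0 ≤ P.zt H.1 H.2 k i j := by
  rw [zt_eq']
  exact mul_nonneg (by positivity) (P.zm_nonneg _ _ _)

lemma zz_pos (H : Finset ℕ × Finset ℕ) (k : ℕ) : 0 < P.zz H.1 H.2 k := by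
  rw [zz_eq]
  have := P.z0_pos k
  have h2 : 0 ≤ ∑ p ∈ prs P.n, P.zt H.1 H.2 k p.1 p.2 := sum_nonneg fun p _ => P.zt_nonneg _ _ _ _
  linarith

/-- lower bound of the colourful mass -/
lemma p0_ge (H : Finset ℕ × Finset ℕ) (k : ℕ) (hn : 0 < P.n) (hB : P.Bal H.1 H.2 k) :
    1 / (9 * (P.n : ℝ) ^ 2) ≤ P.z0 k / P.zz H.1 H.2 k := by
  have hn1 : (1 : ℝ) ≤ P.n := by exact_mod_cast hn
  rw [div_le_div_iff₀ (by positivity) (P.zz_pos H k), one_mul, zz_eq]
  have h1 : ∑ p ∈ prs P.n, P.zt H.1 H.2 k p.1 p.2 ≤ ∑ p ∈ prs P.n, 8 * P.z0 k := by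
    refine sum_le_sum fun p hp => ?_
    exact (hB p.1 p.2 (by simpa only [ne_eq, prs, mem_filter, mem_univ, true_and] using hp)).2
  rw [sum_const, nsmul_eq_mul] at h1
  have h2 : ((prs P.n).card : ℝ) ≤ (P.n : ℝ) ^ 2 := by
    have : (prs P.n).card ≤ (univ : Finset (Fin P.n × Fin P.n)).card := card_le_card (filter_subset _ _)
    rw [card_univ, Fintype.card_prod, Fintype.card_fin] at this
    rw [sq]
    exact_mod_cast this
  have h3 := P.z0_pos k
  have h4 : ((prs P.n).card : ℝ) * (8 * P.z0 k) ≤ (P.n : ℝ) ^ 2 * (8 * P.z0 k) :=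
    mul_le_mul_of_nonneg_right h2 (by (clear * - h3; positivity))
  have h5 : P.z0 k * 1 ≤ P.z0 k * (P.n : ℝ) ^ 2 :=
    mul_le_mul_of_nonneg_left (by nlinarith only [hn1]) h3.le
  linarith only [h1, h4, h5]

/-! ### laws of the observed events -/

lemma law_col (H : Finset ℕ × Finset ℕ) (k : ℕ) :
    P.law H.1 H.2 k (fun S => if P.col S then 1 else 0) = P.z0 k / P.zz H.1 H.2 k := by
  unfold law
  rw [sum_win]
  congr 1
  have h1 : ∑ Z ∈ Om0 (Fin P.n), P.wt H.1 H.2 k (enc Z) * (if P.col (enc Z) then (1 : ℝ) else 0) =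
      P.z0 k := by
    refine sum_congr rfl fun Z hZ => ?_
    rw [P.wt_Om0 _ _ _ hZ, P.col_enc_col (mem_Om0.mp hZ)]
    simp
  have h2 : ∑ p ∈ prs P.n, ∑ Z ∈ Om p.1 p.2,
      P.wt H.1 H.2 k (enc Z) * (if P.col (enc Z) then (1 : ℝ) else 0) = 0 := by
    refine sum_eq_zero fun p _ => sum_eq_zero fun Z hZ => ?_
    rw [P.col_enc_near (mem_Om.mp hZ)]
    simp
  rw [h1, h2, add_zero]

lemma law_typ (H : Finset ℕ × Finset ℕ) (k : ℕ) {i j : Fin P.n} (hij : i ≠ j) :
    P.law H.1 H.2 k (fun S => if P.typ i j S then 1 else 0) =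
      P.zt H.1 H.2 k i j / P.zz H.1 H.2 k := by
  unfold law
  rw [sum_win]
  congr 1
  have h1 : ∑ Z ∈ Om0 (Fin P.n),
      P.wt H.1 H.2 k (enc Z) * (if P.typ i j (enc Z) then (1 : ℝ) else 0) = 0 := by
    refine sum_eq_zero fun Z hZ => ?_
    rw [P.typ_enc_col (mem_Om0.mp hZ)]
    simp
  have h2 : ∑ p ∈ prs P.n, ∑ Z ∈ Om p.1 p.2,
      P.wt H.1 H.2 k (enc Z) * (if P.typ i j (enc Z) then (1 : ℝ) else 0) =
      P.zt H.1 H.2 k i j := by
    rw [sum_eq_single (i, j)]
    · unfold zt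
      refine sum_congr rfl fun Z hZ => ?_
      rw [P.typ_enc_near (mem_Om.mp hZ)]
      simp
    · rintro ⟨a, b⟩ _ hab
      refine sum_eq_zero fun Z hZ => ?_
      rw [P.typ_enc_near (mem_Om.mp hZ)]
      have : ¬ (i = a ∧ j = b) := by
        rintro ⟨rfl, rfl⟩
        exact hab rfl
      simp [this]
    · intro h
      exact absurd (by simpa only [prs, ne_eq, mem_filter, mem_univ, true_and] using hij) h
  rw [h1, h2, zero_add]

/-- mass of the colourful sets whose weight drops -/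
noncomputable def dr (k : ℕ) : ℝ :=
  Anneal.drop (Om0 (Fin P.n)) (fun Z => P.dfc (enc Z)) P.n k

lemma law_drop (H : Finset ℕ × Finset ℕ) (k : ℕ) :
    P.law H.1 H.2 k (fun S => if P.drop k S then 1 else 0) = P.dr k / P.zz H.1 H.2 k := by
  unfold law
  rw [sum_win]
  congr 1
  have h1 : ∑ Z ∈ Om0 (Fin P.n), P.wt H.1 H.2 k (enc Z) * (if P.drop k (enc Z) then (1 : ℝ) else 0) =
      P.dr k := by
    unfold dr Anneal.drop mass
    rw [sum_filter]
    refine sum_congr rfl fun Z hZ => ?_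
    rw [P.wt_Om0 _ _ _ hZ, P.drop_enc_col (mem_Om0.mp hZ)]
    simp only [decide_eq_true_eq, gt_iff_lt]
    split_ifs with h
    · rw [mul_one]
      rfl
    · rw [mul_zero]
  have h2 : ∑ p ∈ prs P.n, ∑ Z ∈ Om p.1 p.2,
      P.wt H.1 H.2 k (enc Z) * (if P.drop k (enc Z) then (1 : ℝ) else 0) = 0 := by
    refine sum_eq_zero fun p _ => sum_eq_zero fun Z hZ => ?_
    rw [P.drop_enc_near (mem_Om.mp hZ)]
    simp
  rw [h1, h2, add_zero]

end Par

end Vale.Agent.P317.Alg
end

section

/-!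
# Annealing: the invariants kept by accurate experiments, and the final accuracy
-/

open Finset

namespace Vale.Agent.P317.Alg

open Window Anneal

/-! ### bookkeeping of the history -/

lemma an_code_inj {n l i j l' i' j' : ℕ} (hi : i < n) (hj : j < n) (hi' : i' < n) (hj' : j' < n)
    (h : code n l i j = code n l' i' j') : l = l' ∧ i = i' ∧ j = j' := by
  unfold code at h
  have hn : 0 < n := by omega
  have h1 : j = j' := by
    have := congrArg (· % n) h
    simpa only [Nat.mul_comm, Nat.add_mod, Nat.mul_mod_right, Nat.mod_eq_of_lt hj, zero_add,     Nat.mod_eq_of_lt hj'] using this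
  subst h1
  have h2 : l * n + i = l' * n + i' := by
    have := Nat.add_right_cancel h
    exact Nat.eq_of_mul_eq_mul_right hn this
  have h3 : i = i' := by
    have := congrArg (· % n) h2
    simpa [Nat.mul_comm, Nat.add_mod, Nat.mod_eq_of_lt hi, Nat.mod_eq_of_lt hi'] using this
  subst h3
  have := Nat.add_right_cancel h2
  exact ⟨Nat.eq_of_mul_eq_mul_right hn this, rfl, rfl⟩

lemma an_hist_succ (H : Finset ℕ) (n k i j : ℕ) :
    hist H n (k + 1) i j = hist H n k i j + if code n k i j ∈ H then 1 else 0 := by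
  unfold hist
  rw [cnt]
  simp

lemma an_hist_congr {H H' : Finset ℕ} {n k i j : ℕ}
    (h : ∀ l < k, (code n l i j ∈ H ↔ code n l i j ∈ H')) : hist H n k i j = hist H' n k i j := by
  unfold hist
  refine cnt_congr fun l hl => ?_
  rw [decide_eq_decide]
  exact h l hl

namespace Par

variable (P : Par)

/-- the counts `c` of an experiment for the events `p` and `col` are within `θ` of the law -/
def Acc (θ : ℝ) (H : Finset ℕ × Finset ℕ) (k : ℕ) (p : Finset ℕ → Bool) (c : ℕ × ℕ) : Prop :=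
  |(c.1 : ℝ) / P.L - P.law H.1 H.2 k (fun S => if p S then 1 else 0)| ≤ θ ∧
    |(c.2 : ℝ) / P.L - P.law H.1 H.2 k (fun S => if P.col S then 1 else 0)| ≤ θ

/-- invariant in the middle of stage `k`: the ordered pairs in `done` have been processed -/
structure Mid (k : ℕ) (H : Finset ℕ × Finset ℕ) (done : Fin P.n → Fin P.n → Prop) : Prop where
  bal : ∀ κ ≤ k, P.Bal H.1 H.2 κ
  fut : ∀ l, k < l → ∀ i j : Fin P.n, code P.n l i j ∉ H.1 ∧ code P.n l i j ∉ H.2
  undone : ∀ i j : Fin P.n, i ≠ j → ¬ done i j → code P.n k i j ∉ H.1 ∧ code P.n k i j ∉ H.2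
  isdone : ∀ i j : Fin P.n, i ≠ j → done i j →
    Bal4 (P.z0 k) ((2 : ℝ) ^ P.xp H (k + 1) i j * P.zm k i j)

/-- invariant at the beginning of stage `k` -/
structure St (k : ℕ) (H : Finset ℕ × Finset ℕ) : Prop where
  bal : ∀ κ ≤ k, P.Bal H.1 H.2 κ
  fut : ∀ l, k ≤ l → ∀ i j : Fin P.n, code P.n l i j ∉ H.1 ∧ code P.n l i j ∉ H.2

/-- invariant for the fraction -/
def Fr (δ : ℝ) (k : ℕ) (f : ℕ × ℕ) : Prop :=
  0 < f.2 ∧ |(f.1 : ℝ) / f.2 - P.z0 k| ≤ ((1 + δ) ^ k - 1) * P.z0 k

variable {P}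

lemma Mid.congr_done {k : ℕ} {H : Finset ℕ × Finset ℕ} {d d' : Fin P.n → Fin P.n → Prop}
    (h : P.Mid k H d) (hd : ∀ i j, i ≠ j → (d' i j ↔ d i j)) : P.Mid k H d' where
  bal := h.bal
  fut := h.fut
  undone := fun i j hij hnd => h.undone i j hij (fun hh => hnd ((hd i j hij).mpr hh))
  isdone := fun i j hij hdd => h.isdone i j hij ((hd i j hij).mp hdd)

lemma St.mid {k : ℕ} {H : Finset ℕ × Finset ℕ} (h : P.St k H) : P.Mid k H (fun _ _ => False) where
  bal := h.bal
  fut := fun l hl => h.fut l hl.le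
  undone := fun i j _ _ => h.fut k le_rfl i j
  isdone := fun _ _ _ hd => hd.elim

lemma mem_upd_fst {k i j : ℕ} {H : Finset ℕ × Finset ℕ} {c : ℕ × ℕ} {x : ℕ} :
    x ∈ (P.upd k i j H c).1 ↔ x ∈ H.1 ∨ (3 * c.1 < c.2 ∧ x = code P.n k i j) := by
  unfold upd
  dsimp only
  split_ifs with h
  · rw [mem_insert]; tauto
  · tauto

lemma mem_upd_snd {k i j : ℕ} {H : Finset ℕ × Finset ℕ} {c : ℕ × ℕ} {x : ℕ} :
    x ∈ (P.upd k i j H c).2 ↔ x ∈ H.2 ∨ (3 * c.2 < c.1 ∧ x = code P.n k i j) := by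
  unfold upd
  dsimp only
  split_ifs with h
  · rw [mem_insert]; tauto
  · tauto

/-- the exponents up to stage `k` do not see the update -/
lemma xp_upd_le {k κ : ℕ} (hκ : κ ≤ k) {i j : Fin P.n} {H : Finset ℕ × Finset ℕ} {c : ℕ × ℕ}
    (a b : Fin P.n) : P.xp (P.upd k i j H c) κ a b = P.xp H κ a b := by
  unfold xp
  have h1 : hist (P.upd k i j H c).1 P.n κ a b = hist H.1 P.n κ a b := by
    refine an_hist_congr fun l hl => ?_
    rw [mem_upd_fst]
    constructor
    · rintro (h | ⟨_, h⟩)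
      · exact h
      · have := (an_code_inj a.2 b.2 i.2 j.2 h).1
        omega
    · exact Or.inl
  have h2 : hist (P.upd k i j H c).2 P.n κ a b = hist H.2 P.n κ a b := by
    refine an_hist_congr fun l hl => ?_
    rw [mem_upd_snd]
    constructor
    · rintro (h | ⟨_, h⟩)
      · exact h
      · have := (an_code_inj a.2 b.2 i.2 j.2 h).1
        omega
    · exact Or.inl
  rw [h1, h2]

/-- other pairs do not see the update -/
lemma xp_upd_ne {k : ℕ} {i j : Fin P.n} {H : Finset ℕ × Finset ℕ} {c : ℕ × ℕ}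
    {a b : Fin P.n} (hab : ¬ (a = i ∧ b = j)) (κ : ℕ) :
    P.xp (P.upd k i j H c) κ a b = P.xp H κ a b := by
  unfold xp
  have h1 : hist (P.upd k i j H c).1 P.n κ a b = hist H.1 P.n κ a b := by
    refine an_hist_congr fun l hl => ?_
    rw [mem_upd_fst]
    constructor
    · rintro (h | ⟨_, h⟩)
      · exact h
      · have := (an_code_inj a.2 b.2 i.2 j.2 h).2
        exact absurd ⟨Fin.ext this.1, Fin.ext this.2⟩ hab
    · exact Or.inl
  have h2 : hist (P.upd k i j H c).2 P.n κ a b = hist H.2 P.n κ a b := by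
    refine an_hist_congr fun l hl => ?_
    rw [mem_upd_snd]
    constructor
    · rintro (h | ⟨_, h⟩)
      · exact h
      · have := (an_code_inj a.2 b.2 i.2 j.2 h).2
        exact absurd ⟨Fin.ext this.1, Fin.ext this.2⟩ hab
    · exact Or.inl
  rw [h1, h2]

/-- the new exponent of the processed pair -/
lemma xp_upd_self {k : ℕ} {i j : Fin P.n} {H : Finset ℕ × Finset ℕ} {c : ℕ × ℕ}
    (hk : code P.n k i j ∉ H.1 ∧ code P.n k i j ∉ H.2) :
    P.xp (P.upd k i j H c) (k + 1) i j = Anneal.upd (P.xp H k i j) c.1 c.2 := by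
  have e := xp_upd_le (P := P) (le_refl k) (i := i) (j := j) (H := H) (c := c) i j
  unfold xp at e ⊢
  rw [an_hist_succ, an_hist_succ]
  have m1 : code P.n k i j ∈ (P.upd k i j H c).1 ↔ 3 * c.1 < c.2 := by
    rw [mem_upd_fst]
    constructor
    · rintro (h | h)
      · exact absurd h hk.1
      · exact h.1
    · exact fun h => Or.inr ⟨h, rfl⟩
  have m2 : code P.n k i j ∈ (P.upd k i j H c).2 ↔ 3 * c.2 < c.1 := by
    rw [mem_upd_snd]
    constructor
    · rintro (h | h)
      · exact absurd h hk.2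
      · exact h.1
    · exact fun h => Or.inr ⟨h, rfl⟩
  unfold Anneal.upd
  simp only [m1, m2]
  push_cast
  split_ifs <;> omega

lemma zt_congr {H H' : Finset ℕ × Finset ℕ} {κ : ℕ} {a b : Fin P.n}
    (h : P.xp H κ a b = P.xp H' κ a b) : P.zt H.1 H.2 κ a b = P.zt H'.1 H'.2 κ a b := by
  rw [zt_eq', zt_eq', h]

/-- an accurate experiment keeps the invariant -/
theorem pair_ok {θ : ℝ} (hn : 0 < P.n) (hL : 0 < P.L) (hθ : 900 * (P.n : ℝ) ^ 2 * θ ≤ 1)
    {k : ℕ} {H : Finset ℕ × Finset ℕ} {done : Fin P.n → Fin P.n → Prop} (hM : P.Mid k H done)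
    {i j : Fin P.n} (hij : i ≠ j) (hnd : ¬ done i j) {c : ℕ × ℕ}
    (hc : P.Acc θ H k (P.typ i j) c) :
    P.Mid k (P.upd k i j H c) (fun a b => done a b ∨ (a = i ∧ b = j)) where
  bal := fun κ hκ a b hab => by
    have := hM.bal κ hκ a b hab
    rwa [zt_congr (P := P) (xp_upd_le hκ a b)]
  fut := fun l hl a b => by
    have h := hM.fut l hl a b
    constructor
    · rw [mem_upd_fst]
      rintro (h1 | ⟨_, h1⟩)
      · exact h.1 h1
      · have := (an_code_inj a.2 b.2 i.2 j.2 h1).1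
        omega
    · rw [mem_upd_snd]
      rintro (h1 | ⟨_, h1⟩)
      · exact h.2 h1
      · have := (an_code_inj a.2 b.2 i.2 j.2 h1).1
        omega
  undone := fun a b hab' hab => by
    rw [not_or] at hab
    have h := hM.undone a b hab' hab.1
    constructor
    · rw [mem_upd_fst]
      rintro (h1 | ⟨_, h1⟩)
      · exact h.1 h1
      · have := (an_code_inj a.2 b.2 i.2 j.2 h1).2
        exact hab.2 ⟨Fin.ext this.1, Fin.ext this.2⟩
    · rw [mem_upd_snd]
      rintro (h1 | ⟨_, h1⟩)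
      · exact h.2 h1
      · have := (an_code_inj a.2 b.2 i.2 j.2 h1).2
        exact hab.2 ⟨Fin.ext this.1, Fin.ext this.2⟩
  isdone := fun a b hab hd => by
    by_cases he : a = i ∧ b = j
    · obtain ⟨rfl, rfl⟩ := he
      rw [xp_upd_self (hM.undone _ _ hab hnd)]
      have hn1 : (1 : ℝ) ≤ P.n := by exact_mod_cast hn
      have hp0 := P.p0_ge H k hn (hM.bal k le_rfl)
      obtain ⟨h1, h2⟩ := hc
      rw [P.law_typ H k hab, zt_eq'] at h1
      rw [P.law_col H k] at h2
      refine bal4_of_accurate hL (P.zz_pos H k) (P.z0_pos k) ?_ h1 h2 ?_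
      · have := hM.bal k le_rfl a b hab
        rw [zt_eq'] at this
        constructor
        · (clear * - this; linarith [this.1])
        · exact this.2
      · refine le_trans ?_ hp0
        rw [le_div_iff₀ (by positivity)]
        nlinarith only [hθ]
    · rw [xp_upd_ne he]
      rcases hd with hd | hd
      · exact hM.isdone a b hab hd
      · exact absurd hd he

/-- end of the updates of stage `k` -/
theorem Mid.finish (hn : 0 < P.n)
    (hd : ∀ Z ∈ win P.n, P.dfc (enc Z) ≤ P.n) {k : ℕ} {H : Finset ℕ × Finset ℕ}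
    {done : Fin P.n → Fin P.n → Prop} (hM : P.Mid k H done) (hall : ∀ i j, i ≠ j → done i j) :
    P.St (k + 1) H where
  bal := fun κ hκ => by
    rcases Nat.lt_succ_iff_lt_or_eq.mp (Nat.lt_succ_of_le hκ) with h | h
    · exact hM.bal κ (by omega)
    · subst h
      intro i j hij
      have h4 := hM.isdone i j hij (hall i j hij)
      have hd0 : ∀ Z ∈ Om0 (Fin P.n), P.dfc (enc Z) ≤ P.n := fun Z hZ =>
        hd Z (by unfold win; exact mem_union_left _ hZ)
      have hd1 : ∀ Z ∈ Om i j, P.dfc (enc Z) ≤ P.n := fun Z hZ =>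
        hd Z (by
          unfold win
          refine mem_union_right _ (mem_biUnion.mpr ⟨(i, j), ?_, hZ⟩)
          rw [mem_prs]; exact hij)
      have := bal_of_bal4 (by positivity) h4
        (Z0' := P.z0 (k + 1)) (E' := P.zm (k + 1) i j)
        (by rw [z0_eq_mass, z0_eq_mass]; exact mass_step_ge hn hd0)
        (by rw [z0_eq_mass, z0_eq_mass]; exact mass_step_le hn hd0)
        (by rw [zm_eq_mass, zm_eq_mass]; exact mass_step_ge hn hd1)
        (by rw [zm_eq_mass, zm_eq_mass]; exact mass_step_le hn hd1)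
      rw [zt_eq']
      exact ⟨by linarith only [this.1], this.2⟩
  fut := fun l hl => hM.fut l (by omega)

lemma frac_mul {F q z r δ : ℝ} {k : ℕ} (hz : 0 < z) (hr : 0 < r) (hδ0 : 0 ≤ δ)
    (hF : |F - z| ≤ ((1 + δ) ^ k - 1) * z) (hq : |q - r| ≤ δ * r) :
    |F * q - z * r| ≤ ((1 + δ) ^ (k + 1) - 1) * (z * r) := by
  have hF' : |F| ≤ (1 + δ) ^ k * z := by
    obtain ⟨b1, b2⟩ := abs_le.mp hF
    have hk : 1 ≤ (1 + δ) ^ k := one_le_pow₀ (by linarith only [hδ0])
    rw [abs_le]
    constructor <;> nlinarith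
  have e : F * q - z * r = F * (q - r) + (F - z) * r := by ring
  rw [e]
  calc |F * (q - r) + (F - z) * r| ≤ |F * (q - r)| + |(F - z) * r| := abs_add_le _ _
    _ = |F| * |q - r| + |F - z| * r := by
        rw [abs_mul, abs_mul, abs_of_pos hr]
    _ ≤ ((1 + δ) ^ k * z) * (δ * r) + (((1 + δ) ^ k - 1) * z) * r := by
        have : (0:ℝ) ≤ (1 + δ) ^ k * z := (abs_nonneg _).trans hF'
        gcongr
    _ = _ := by ring

/-- one factor of the telescoping product, pure numbers -/
lemma frac_core {n p0 pd θ δ : ℝ} {m x y : ℕ} (hn1 : 1 ≤ n) (hm : 0 < m)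
    (hθ : 900 * n ^ 2 * θ ≤ 1) (hδ : 36 * n ^ 2 * θ ≤ δ) (hp0 : 1 / (9 * n ^ 2) ≤ p0)
    (hpd0 : 0 ≤ pd) (hpd : pd ≤ p0)
    (hx : |(x : ℝ) / m - pd| ≤ θ) (hy : |(y : ℝ) / m - p0| ≤ θ) :
    0 < y ∧ x ≤ 2 * y ∧
      |(2 * (y : ℝ) - x) / (2 * y) - (2 * p0 - pd) / (2 * p0)| ≤
        δ * ((2 * p0 - pd) / (2 * p0)) := by
  have hm' : (0 : ℝ) < m := by exact_mod_cast hm
  have hθ0 : 0 ≤ θ := (abs_nonneg _).trans hx
  have hp0pos : 0 < p0 := lt_of_lt_of_le (by positivity) hp0
  have h100 : 100 * θ ≤ p0 := by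
    refine le_trans ?_ hp0
    rw [le_div_iff₀ (by positivity)]
    linarith
  have hr := ratio_estimate hm hp0pos hpd0 hpd hx hy h100
  have hcoef : 4 * θ / p0 ≤ δ := by
    refine le_trans ?_ hδ
    rw [div_le_iff₀ hp0pos]
    have h3 : 1 ≤ 9 * n ^ 2 * p0 := by
      have := mul_le_mul_of_nonneg_left hp0 (by positivity : (0:ℝ) ≤ 9 * n ^ 2)
      rwa [mul_one_div_cancel (by positivity)] at this
    have h4 : 4 * θ * 1 ≤ 4 * θ * (9 * n ^ 2 * p0) :=
      mul_le_mul_of_nonneg_left h3 (by positivity)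
    linarith only [h4]
  have hrpos : 0 ≤ (2 * p0 - pd) / (2 * p0) := div_nonneg (by linarith only [hpd, hp0pos]) (by linarith only [hp0pos])
  refine ⟨?_, ?_, hr.trans (mul_le_mul_of_nonneg_right hcoef hrpos)⟩
  · have h1 := (abs_le.mp hy).1
    have h2 : 0 < (y : ℝ) / m := by linarith only [hp0pos, h100, h1]
    have : (0:ℝ) < y := by
      by_contra hcon
      push Not at hcon
      have : (y : ℝ) / m ≤ 0 := div_nonpos_of_nonpos_of_nonneg hcon hm'.le
      linarith only [hp0pos, h100, h1, this]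
    exact_mod_cast this
  · have h5 : (x : ℝ) / m ≤ 2 * ((y : ℝ) / m) := by
      have a1 := (abs_le.mp hx).2
      have a2 := (abs_le.mp hy).1
      linarith only [hpd, hp0pos, h100, a1, a2]
    rw [← mul_div_assoc, div_le_div_iff_of_pos_right hm'] at h5
    exact_mod_cast h5

/-- the fraction after an accurate experiment -/
theorem frac_ok {θ δ : ℝ} (hn : 0 < P.n) (hL : 0 < P.L) (hθ : 900 * (P.n : ℝ) ^ 2 * θ ≤ 1)
    (hδ : 36 * (P.n : ℝ) ^ 2 * θ ≤ δ)
    (hd : ∀ Z ∈ win P.n, P.dfc (enc Z) ≤ P.n) {k : ℕ} {H : Finset ℕ × Finset ℕ}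
    (hB : P.Bal H.1 H.2 k) {c : ℕ × ℕ} (hc : P.Acc θ H k (P.drop k) c) {f : ℕ × ℕ}
    (hf : P.Fr δ k f) :
    P.Fr δ (k + 1) (f.1 * (2 * c.2 - c.1), f.2 * (2 * c.2)) := by
  have hn1 : (1 : ℝ) ≤ P.n := by exact_mod_cast hn
  have hp0 := P.p0_ge H k hn hB
  obtain ⟨h1, h2⟩ := hc
  have hθ0 : 0 ≤ θ := (abs_nonneg _).trans h1
  rw [P.law_drop H k] at h1
  rw [P.law_col H k] at h2
  have hzzp : 0 < P.zz H.1 H.2 k := P.zz_pos H k
  have hz0 : 0 < P.z0 k := P.z0_pos k
  have hz1 : 0 < P.z0 (k + 1) := P.z0_pos _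
  have hdr0 : 0 ≤ P.dr k := drop_nonneg
  have hdr1 : P.dr k ≤ P.z0 k := drop_le
  have hd0 : ∀ Z ∈ Om0 (Fin P.n), P.dfc (enc Z) ≤ P.n := fun Z hZ =>
    hd Z (by unfold win; exact mem_union_left _ hZ)
  have hstep : P.z0 (k + 1) = P.z0 k - P.dr k / 2 := mass_step_eq hn hd0
  have hδ0 : 0 ≤ δ := le_trans (by (clear * - hn hθ0; positivity)) hδ
  obtain ⟨hc2, hle, hr⟩ := frac_core hn1 hL hθ hδ hp0 (div_nonneg hdr0 hzzp.le)
    (div_le_div_of_nonneg_right hdr1 hzzp.le) h1 h2
  have hratio : (2 * (P.z0 k / P.zz H.1 H.2 k) - P.dr k / P.zz H.1 H.2 k) /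
      (2 * (P.z0 k / P.zz H.1 H.2 k)) = P.z0 (k + 1) / P.z0 k := by
    rw [hstep]
    (clear * - hzzp hz0; field_simp)
  rw [hratio] at hr
  obtain ⟨hf2, hf3⟩ := hf
  refine ⟨Nat.mul_pos hf2 (by omega), ?_⟩
  have hcast : ((f.1 * (2 * c.2 - c.1) : ℕ) : ℝ) / ((f.2 * (2 * c.2) : ℕ) : ℝ) =
      ((f.1 : ℝ) / f.2) * ((2 * (c.2 : ℝ) - c.1) / (2 * c.2)) := by
    push_cast [Nat.cast_sub hle]
    rw [mul_div_mul_comm]
  have hzr : P.z0 (k + 1) = P.z0 k * (P.z0 (k + 1) / P.z0 k) := by (clear * - hz0 hz1; field_simp)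
  have := frac_mul hz0 (div_pos hz1 hz0) hδ0 hf3 hr
  rw [← hzr] at this
  show |((f.1 * (2 * c.2 - c.1) : ℕ) : ℝ) / ((f.2 * (2 * c.2) : ℕ) : ℝ) - P.z0 (k + 1)| ≤ _
  rw [hcast]
  exact this

/-- beginning of the algorithm -/
theorem st_zero : P.St 0 (∅, ∅) where
  bal := fun κ hκ => by
    obtain rfl : κ = 0 := by omega
    intro i j hij
    rw [P.zt_eq' (∅, ∅) 0 i j]
    have h1 : P.xp (∅, ∅) 0 i j = 2 := by simp [xp, hist, cnt]
    have h2 : P.zm 0 i j * 4 = P.z0 0 := by
      rw [zm_eq_mass, z0_eq_mass, mass_zero, mass_zero, Alg.card_Om0]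
      have := Anneal.card_Om hij
      rw [Fintype.card_fin] at this
      exact_mod_cast this
    rw [h1]
    have h3 := P.z0_pos 0
    constructor <;> norm_num <;> linarith only [h2, h3]
  fut := fun l _ i j => by simp

theorem fr_zero {δ : ℝ} : P.Fr δ 0 (2 ^ P.n, 1) := by
  refine ⟨by norm_num, ?_⟩
  rw [z0_eq_mass, mass_zero, Alg.card_Om0]
  simp only [Nat.cast_pow, Nat.cast_ofNat, Nat.cast_one, div_one, sub_self, abs_zero, pow_zero, zero_mul, Std.le_refl]

/-- accuracy of an output fraction -/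
def Good (N e : ℕ) (o : ℕ × ℕ) : Prop := 0 < o.2 ∧ |(o.1 : ℝ) / o.2 - N| ≤ N / e

variable (P) in
/-- number of colourful sets of deficiency zero -/
noncomputable def nb : ℕ := ((Om0 (Fin P.n)).filter (fun Z => P.dfc (enc Z) = 0)).card

theorem final_ok {δ : ℝ} {e u : ℕ} (he : 1 ≤ e) (hδ0 : 0 ≤ δ)
    (hδ : 8 * ((P.n * u : ℕ) : ℝ) * δ * e ≤ 1) (hu : P.n + e + 16 ≤ u)
    (h0 : P.n = 0 → P.dfc ∅ = 0) {f : ℕ × ℕ} (hf : P.Fr δ (P.n * u) f) :
    Good P.nb e (if 2 * f.1 < f.2 then 0 else f.1, f.2) := by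
  have he' : (1 : ℝ) ≤ e := by exact_mod_cast he
  set K := P.n * u with hK
  obtain ⟨junk, hj1, hj2, hj3⟩ : ∃ junk : ℝ, P.z0 K = P.nb + junk ∧ 0 ≤ junk ∧
      junk * (16 * e) ≤ 1 := by
    rcases Nat.eq_zero_or_pos P.n with hn | hn
    · refine ⟨0, ?_, le_rfl, by norm_num⟩
      have hK0 : K = 0 := by rw [hK, hn, zero_mul]
      rw [hK0, z0_eq_mass, mass_zero, add_zero]
      unfold nb
      congr 2
      symm
      rw [filter_eq_self]
      intro Z _
      have : IsEmpty (Fin P.n) := by rw [hn]; infer_instance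
      have hZ : Z = ∅ := by
        ext ⟨a, b⟩
        exact this.elim a
      rw [hZ]
      have he0 : enc (∅ : Finset (Fin P.n × Bool)) = ∅ := by simp [enc]
      rw [he0]
      exact h0 hn
    · obtain ⟨junk, h1, h2, h3⟩ := mass_final (A := Om0 (Fin P.n))
        (df := fun Z => P.dfc (enc Z)) (u := u) hn
      refine ⟨junk, by rw [z0_eq_mass, hK, h1]; rfl, h2, ?_⟩
      rw [Alg.card_Om0] at h3
      have hpow : ((2 ^ P.n : ℕ) : ℝ) * (1 / 2 : ℝ) ^ u ≤ 1 / (2 : ℝ) ^ (e + 16) := by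
        have : (2 : ℝ) ^ (P.n + (e + 16)) ≤ 2 ^ u := by
          apply pow_le_pow_right₀ (by norm_num)
          omega
        rw [pow_add] at this
        push_cast
        rw [one_div_pow, le_div_iff₀ (by positivity), mul_one_div, div_mul_eq_mul_div,
          div_le_one (by positivity)]
        exact this
      have h4 : junk ≤ 1 / (2 : ℝ) ^ (e + 16) := h3.trans hpow
      have h5 : (e : ℝ) ≤ 2 ^ e := by exact_mod_cast Nat.lt_two_pow_self.le
      calc junk * (16 * e) ≤ 1 / (2 : ℝ) ^ (e + 16) * (16 * 2 ^ e) := by (clear * - h4 h5 he; gcongr)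
        _ ≤ 1 := by
            rw [pow_add, one_div_mul_eq_div, div_le_one (by positivity)]
            have : (0:ℝ) < 2 ^ e := by positivity
            nlinarith only [h5]
  obtain ⟨hf2, hf3⟩ := hf
  have hKδ : (K : ℝ) * δ ≤ 1 := by
    have : 0 ≤ (K : ℝ) * δ := by (clear * - hδ0; positivity)
    nlinarith only [he', hδ]
  have hpow := one_add_pow_sub_one_le (K := K) hδ0 hKδ
  have hz := P.z0_pos K
  have hest : |(f.1 : ℝ) / f.2 - P.z0 K| ≤ (2 * (K * δ)) * P.z0 K :=
    hf3.trans (mul_le_mul_of_nonneg_right hpow hz.le)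
  have hfin := final_accuracy (N := P.nb) (Z := P.z0 K) he hj1 hj2 hj3
    (δ := 2 * (K * δ)) (by (clear * - hδ0; positivity)) (by linarith only [hδ]) hest
  have hf2' : (0 : ℝ) < f.2 := by exact_mod_cast hf2
  refine ⟨hf2, ?_⟩
  by_cases hN : P.nb = 0
  · have h1 := hfin.1 hN
    have h2 : 2 * f.1 < f.2 := by
      rw [div_lt_div_iff₀ hf2' (by norm_num)] at h1
      have : (2 * f.1 : ℝ) < f.2 := by linarith only [h1]
      exact_mod_cast this
    dsimp only
    rw [if_pos h2, hN]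
    simp
  · have h1 := hfin.2 hN
    have h2 : ¬ 2 * f.1 < f.2 := by
      intro hcon
      have h3 : (2 * f.1 : ℝ) < f.2 := by exact_mod_cast hcon
      have h4 : (f.1 : ℝ) / f.2 < 1 / 2 := by
        rw [div_lt_div_iff₀ hf2' (by norm_num)]
        linarith only [h3]
      linarith only [h1, h4]
    dsimp only
    rw [if_neg h2]
    exact h1.2

end Par

end Vale.Agent.P317.Alg
end

section

/-!
# The probabilistic half: union bound over the tree of the algorithm
-/

open Finset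

namespace Vale.Agent.P317.Alg

open Window Anneal Rnd

/-! ### failure probabilities -/

open Classical in
/-- probability that `p` fails -/
noncomputable def fail {α : Type} (p : α → Prop) (t : Rnd α) : ℝ :=
  ex (fun a => if p a then 0 else 1) t

open Classical in
lemma fail_leaf {α : Type} {p : α → Prop} {a : α} (h : p a) : fail p (.leaf a) = 0 := by
  simp [fail, h]

lemma fail_nonneg {α : Type} (p : α → Prop) (t : Rnd α) : 0 ≤ fail p t := by
  classical
  have : ex (fun _ => (0 : ℝ)) t ≤ fail p t := ex_mono (fun a => by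
    split_ifs <;> norm_num) t
  rwa [ex_const] at this

lemma fail_le_one {α : Type} (p : α → Prop) (t : Rnd α) : fail p t ≤ 1 := by
  classical
  have : fail p t ≤ ex (fun _ => (1 : ℝ)) t := ex_mono (fun a => by
    split_ifs <;> norm_num) t
  rwa [ex_const] at this

lemma fail_mono {α : Type} {p q : α → Prop} (h : ∀ a, p a → q a) (t : Rnd α) :
    fail q t ≤ fail p t := by
  classical
  refine ex_mono (fun a => ?_) t
  by_cases hp : p a
  · simp [hp, h a hp]
  · simp only [hp, if_false]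
    split_ifs <;> norm_num

lemma fail_bind {α β : Type} {p : α → Prop} {q : β → Prop} {t : Rnd α} {g : α → Rnd β} {a b : ℝ}
    (ht : fail p t ≤ a) (hg : ∀ x, p x → fail q (g x) ≤ b) (hb : 0 ≤ b) :
    fail q (t.bind g) ≤ a + b := by
  classical
  have h1 : fail q (t.bind g) = ex (fun x => fail q (g x)) t := by
    unfold fail
    rw [ex_bind]
  rw [h1]
  have h2 : ex (fun x => fail q (g x)) t ≤ ex (fun x => (if p x then (0 : ℝ) else 1) + b) t := by
    refine ex_mono (fun x => ?_) t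
    by_cases hx : p x
    · simp only [hx, if_true, zero_add]
      exact hg x hx
    · simp only [hx, if_false]
      have := fail_le_one q (g x)
      linarith only [hb, this]
  refine h2.trans ?_
  rw [ex_add, ex_const]
  have : ex (fun x => if p x then (0 : ℝ) else 1) t = fail p t := rfl
  rw [this]
  linarith only [ht]

lemma prob_add_fail {α : Type} (p : α → Prop) (t : Rnd α) : prob p t + fail p t = 1 := by
  classical
  rw [prob_eq_ex]
  unfold fail
  rw [← ex_add]
  have : (fun a => (if p a then (1 : ℝ) else 0) + if p a then (0 : ℝ) else 1) = fun _ => 1 := by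
    funext a
    split_ifs <;> norm_num
  rw [this, ex_const]

/-! ### tails for independent trials -/

/-- number of successes in `m` independent trials -/
def trials (t : Rnd (Finset ℕ)) (p : Finset ℕ → Bool) : ℕ → ℕ → Rnd ℕ :=
  rep (fun c => t.bind fun S => .leaf (c + (if p S then 1 else 0)))

lemma ex_exp_rep (t : Rnd (Finset ℕ)) (p q : Finset ℕ → Bool) (f : ℕ × ℕ → ℕ)
    (w : Finset ℕ → Bool)
    (hf : ∀ c S, f (c.1 + (if p S then 1 else 0), c.2 + (if q S then 1 else 0)) =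
      f c + if w S then 1 else 0) (s : ℝ) (m : ℕ) :
    ∀ c : ℕ × ℕ, ex (fun c => Real.exp (s * f c)) (Par.expt t p q m c) =
      Real.exp (s * f c) * (ex (fun S => Real.exp (s * if w S then 1 else 0)) t) ^ m := by
  induction m with
  | zero => intro c; simp only [Par.expt, rep, ex_leaf, mul_ite, mul_one, mul_zero, pow_zero]
  | succ m ih =>
    intro c
    unfold Par.expt rep
    rw [ex_bind, ex_bind]
    have h1 : (fun S => ex (fun a => ex (fun c => Real.exp (s * f c))
        (rep (fun c => t.bind fun S =>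
          .leaf (c.1 + (if p S then 1 else 0), c.2 + (if q S then 1 else 0))) m a))
        (Rnd.leaf (c.1 + (if p S then 1 else 0), c.2 + (if q S then 1 else 0)))) =
        fun S => (Real.exp (s * f c) *
          (ex (fun S => Real.exp (s * if w S then 1 else 0)) t) ^ m) *
            Real.exp (s * if w S then 1 else 0) := by
      funext S
      rw [ex_leaf]
      have := ih (c.1 + (if p S then 1 else 0), c.2 + (if q S then 1 else 0))
      unfold Par.expt at this
      rw [this, hf c S]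
      push_cast
      rw [mul_add, Real.exp_add]
      ring
    rw [h1, ex_mul_left, pow_succ]
    ring

lemma exp_le_quad {s : ℝ} (hs : |s| ≤ 1) : Real.exp s ≤ 1 + s + s ^ 2 := by
  have := Real.abs_exp_sub_one_sub_id_le hs
  have := (abs_le.mp this).2
  linarith

lemma mgf_le (t : Rnd (Finset ℕ)) (w : Finset ℕ → Bool) {s : ℝ} (hs : |s| ≤ 1) :
    ex (fun S => Real.exp (s * if w S then 1 else 0)) t ≤
      Real.exp (s * ex (fun S => if w S then 1 else 0) t + s ^ 2) := by
  set r := ex (fun S => if w S then (1 : ℝ) else 0) t with hr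
  have hr0 : 0 ≤ r := by
    have := ex_mono (f := fun _ => (0:ℝ)) (g := fun S => if w S then (1 : ℝ) else 0)
      (fun S => by split_ifs <;> norm_num) t
    rwa [ex_const] at this
  have hr1 : r ≤ 1 := by
    have := ex_mono (g := fun _ => (1:ℝ)) (f := fun S => if w S then (1 : ℝ) else 0)
      (fun S => by split_ifs <;> norm_num) t
    rwa [ex_const] at this
  have h1 : (fun S => Real.exp (s * if w S then 1 else 0)) =
      fun S => 1 + (Real.exp s - 1) * (if w S then 1 else 0) := by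
    funext S
    split_ifs <;> simp
  rw [h1, ex_add, ex_const, ex_mul_left, ← hr]
  have h2 : (Real.exp s - 1) * r ≤ s * r + s ^ 2 := by
    have := exp_le_quad hs
    have h3 : (Real.exp s - 1) * r ≤ (s + s ^ 2) * r :=
      mul_le_mul_of_nonneg_right (by linarith) hr0
    have h4 : s ^ 2 * r ≤ s ^ 2 * 1 := mul_le_mul_of_nonneg_left hr1 (sq_nonneg _)
    linarith only [h3, h4]
  have h3 := Real.add_one_le_exp (s * r + s ^ 2)
  linarith

/-- one-sided tail -/
lemma tail_le (t : Rnd (Finset ℕ)) (p q : Finset ℕ → Bool) (f : ℕ × ℕ → ℕ)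
    (w : Finset ℕ → Bool)
    (hf : ∀ c S, f (c.1 + (if p S then 1 else 0), c.2 + (if q S then 1 else 0)) =
      f c + if w S then 1 else 0) (hf0 : f (0, 0) = 0) {η : ℝ} (hη0 : 0 ≤ η) (hη1 : η ≤ 1)
    (m : ℕ) (σ : ℝ) (hσ : σ = 1 ∨ σ = -1) :
    fail (fun c : ℕ × ℕ => σ * (f c : ℝ) ≤
      m * (σ * ex (fun S => if w S then 1 else 0) t + η)) (Par.expt t p q m (0, 0)) ≤
      Real.exp (-(m * η ^ 2 / 4)) := by
  classical
  set r := ex (fun S => if w S then (1 : ℝ) else 0) t with hr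
  set s : ℝ := η / 2 with hs
  have hσ1 : |σ| = 1 := by rcases hσ with h | h <;> simp [h]
  have hσ2 : σ ^ 2 = 1 := by rcases hσ with h | h <;> simp only [h, even_two, Even.neg_pow, one_pow]
  have hs1 : |s * σ| ≤ 1 := by
    rw [abs_mul, hσ1, mul_one, abs_of_nonneg (by (clear * - hη0; positivity))]
    linarith only [hη1, hs]
  have h1 : fail (fun c : ℕ × ℕ => σ * (f c : ℝ) ≤ m * (σ * r + η)) (Par.expt t p q m (0, 0)) ≤
      ex (fun c => Real.exp (-(s * (m * (σ * r + η)))) * Real.exp ((s * σ) * f c))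
        (Par.expt t p q m (0, 0)) := by
    refine ex_mono (fun c => ?_) _
    beta_reduce
    rw [← Real.exp_add]
    split_ifs with h
    · positivity
    · rw [not_le] at h
      apply Real.one_le_exp
      have : s * (m * (σ * r + η)) ≤ s * (σ * f c) :=
        mul_le_mul_of_nonneg_left h.le (by positivity)
      linarith only [this]
  refine h1.trans ?_
  rw [ex_mul_left, ex_exp_rep t p q f w hf, hf0]
  have h2 := mgf_le t w hs1
  rw [← hr] at h2
  have h3 : 0 ≤ ex (fun S => Real.exp (s * σ * if w S then 1 else 0)) t := by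
    have := ex_mono (f := fun _ => (0:ℝ)) (g := fun S => Real.exp (s * σ * if w S then 1 else 0))
      (fun S => (Real.exp_pos _).le) t
    rwa [ex_const] at this
  have h4 := pow_le_pow_left₀ h3 h2 m
  rw [← Real.exp_nat_mul] at h4
  simp only [Nat.cast_zero, mul_zero, Real.exp_zero, one_mul]
  calc Real.exp (-(s * (m * (σ * r + η)))) *
        (ex (fun S => Real.exp (s * σ * if w S then 1 else 0)) t) ^ m
      ≤ Real.exp (-(s * (m * (σ * r + η)))) * Real.exp (m * (s * σ * r + (s * σ) ^ 2)) :=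
        mul_le_mul_of_nonneg_left h4 (Real.exp_pos _).le
    _ = Real.exp (-(m * η ^ 2 / 4)) := by
        rw [← Real.exp_add, mul_pow, hσ2, hs]
        congr 1
        ring

lemma fail_and {α : Type} (p q : α → Prop) (t : Rnd α) :
    fail (fun a => p a ∧ q a) t ≤ fail p t + fail q t := by
  classical
  unfold fail
  rw [← ex_add]
  refine ex_mono (fun a => ?_) t
  by_cases hp : p a <;> by_cases hq : q a <;> simp [hp, hq]

/-- two-sided tail for one of the two counts -/
lemma tail_two (t : Rnd (Finset ℕ)) (p q : Finset ℕ → Bool) (f : ℕ × ℕ → ℕ)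
    (w : Finset ℕ → Bool)
    (hf : ∀ c S, f (c.1 + (if p S then 1 else 0), c.2 + (if q S then 1 else 0)) =
      f c + if w S then 1 else 0) (hf0 : f (0, 0) = 0) {η : ℝ} (hη0 : 0 ≤ η) (hη1 : η ≤ 1)
    {m : ℕ} (hm : 0 < m) :
    fail (fun c : ℕ × ℕ => |(f c : ℝ) / m - ex (fun S => if w S then 1 else 0) t| ≤ η)
      (Par.expt t p q m (0, 0)) ≤ 2 * Real.exp (-(m * η ^ 2 / 4)) := by
  have hm' : (0 : ℝ) < m := by exact_mod_cast hm
  set r := ex (fun S => if w S then (1 : ℝ) else 0) t with hr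
  have h1 := tail_le t p q f w hf hf0 hη0 hη1 m 1 (Or.inl rfl)
  have h2 := tail_le t p q f w hf hf0 hη0 hη1 m (-1) (Or.inr rfl)
  rw [← hr] at h1 h2
  refine (fail_mono ?_ _).trans ((fail_and _ _ _).trans (add_le_add h1 h2 |>.trans (by linarith only [])))
  rintro c ⟨a, b⟩
  rw [abs_le]
  constructor
  · have : r - η ≤ (f c : ℝ) / m := by
      rw [le_div_iff₀ hm']
      linarith only [b]
    linarith only [this]
  · have : (f c : ℝ) / m ≤ r + η := by
      rw [div_le_iff₀ hm']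
      linarith only [a]
    linarith only [this]

namespace Par

variable {P : Par}

/-- the failure probability of one experiment -/
noncomputable def φ (P : Par) (θ : ℝ) : ℝ := 4 * Real.exp (-(P.L * (θ / 2) ^ 2 / 4))

lemma φ_nonneg (θ : ℝ) : 0 ≤ P.φ θ := by unfold φ; positivity

/-- black box: the thread law -/
def TL (P : Par) (θ : ℝ) (K : ℕ) : Prop :=
  ∀ k < K, ∀ I D : Finset ℕ, (∀ κ ≤ k, P.Bal I D κ) → ∀ p : Finset ℕ → Bool,
    |ex (fun S => if p S then 1 else 0) (P.thread I D k) -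
      P.law I D k (fun S => if p S then 1 else 0)| ≤ θ / 2

/-- one experiment -/
theorem expt_ok {θ : ℝ} {K : ℕ} (hθ0 : 0 ≤ θ) (hθ1 : θ ≤ 1) (hL : 0 < P.L) (hT : P.TL θ K)
    {k : ℕ} (hk : k < K) {H : Finset ℕ × Finset ℕ} (hB : ∀ κ ≤ k, P.Bal H.1 H.2 κ)
    (p : Finset ℕ → Bool) :
    fail (P.Acc θ H k p) (expt (P.thread H.1 H.2 k) p P.col P.L (0, 0)) ≤ P.φ θ := by
  have h1 := tail_two (P.thread H.1 H.2 k) p P.col (fun c => c.1) p (fun c S => rfl) rfl
    (η := θ / 2) (by linarith only [hθ0]) (by linarith only [hθ1]) hL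
  have h2 := tail_two (P.thread H.1 H.2 k) p P.col (fun c => c.2) P.col (fun c S => rfl) rfl
    (η := θ / 2) (by linarith only [hθ0]) (by linarith only [hθ1]) hL
  have t1 := hT k hk H.1 H.2 hB p
  have t2 := hT k hk H.1 H.2 hB P.col
  refine (fail_mono ?_ _).trans ((fail_and _ _ _).trans (add_le_add h1 h2 |>.trans ?_))
  · rintro c ⟨a, b⟩
    constructor
    · have := abs_add_le ((c.1 : ℝ) / P.L - ex (fun S => if p S then 1 else 0)
        (P.thread H.1 H.2 k)) (ex (fun S => if p S then 1 else 0) (P.thread H.1 H.2 k) -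
        P.law H.1 H.2 k (fun S => if p S then 1 else 0))
      rw [sub_add_sub_cancel] at this
      linarith only [t1, a, this]
    · have := abs_add_le ((c.2 : ℝ) / P.L - ex (fun S => if P.col S then 1 else 0)
        (P.thread H.1 H.2 k)) (ex (fun S => if P.col S then 1 else 0) (P.thread H.1 H.2 k) -
        P.law H.1 H.2 k (fun S => if P.col S then 1 else 0))
      rw [sub_add_sub_cancel] at this
      linarith only [t2, b, this]
  · unfold φ
    linarith only []

/-- processed pairs before `(i, j)` in lexicographic order -/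
def Dn (P : Par) (i j : ℕ) (a b : Fin P.n) : Prop := (a : ℕ) < i ∨ ((a : ℕ) = i ∧ (b : ℕ) < j)

section run

variable {θ δ : ℝ} {K : ℕ} (hn : 0 < P.n) (hL : 0 < P.L) (hθ0 : 0 ≤ θ)
  (hθ : 900 * (P.n : ℝ) ^ 2 * θ ≤ 1) (hδ : 36 * (P.n : ℝ) ^ 2 * θ ≤ δ)
  (hd : ∀ Z ∈ win P.n, P.dfc (enc Z) ≤ P.n) (hT : P.TL θ K)

include hn hθ hθ0 in
lemma θ_le_one : θ ≤ 1 := by
  have hn1 : (1 : ℝ) ≤ P.n := by exact_mod_cast hn
  have h1 : 1 ≤ (P.n : ℝ) ^ 2 := one_le_pow₀ hn1
  nlinarith only [hθ, h1]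

include hn hL hθ0 hθ hT

theorem pair_fail {k : ℕ} (hk : k < K) {i j : ℕ} (hi : i < P.n) (hj : j < P.n)
    {H : Finset ℕ × Finset ℕ} (hM : P.Mid k H (P.Dn i j)) :
    fail (fun H' => P.Mid k H' (P.Dn i (j + 1))) (P.pair k i j H) ≤ P.φ θ := by
  unfold pair
  by_cases hij : i = j
  · rw [if_pos hij, fail_leaf]
    · exact φ_nonneg θ
    · refine hM.congr_done fun a b hab => ?_
      unfold Dn
      constructor
      · rintro (h | ⟨h1, h2⟩)
        · exact Or.inl h
        · refine Or.inr ⟨h1, ?_⟩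
          rcases Nat.lt_succ_iff_lt_or_eq.mp h2 with h | h
          · exact h
          · exfalso
            apply hab
            apply Fin.ext
            omega
      · rintro (h | ⟨h1, h2⟩)
        · exact Or.inl h
        · exact Or.inr ⟨h1, by omega⟩
  · rw [if_neg hij]
    have hθ1 := θ_le_one (P := P) hn hθ0 hθ
    have := fail_bind (q := fun H' => P.Mid k H' (P.Dn i (j + 1)))
      (g := fun c => .leaf (P.upd k i j H c)) (b := 0)
      (expt_ok hθ0 hθ1 hL hT hk hM.bal (P.typ i j)) (fun c hc => by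
        rw [fail_leaf]
        have h1 := pair_ok (P := P) hn hL hθ hM (i := ⟨i, hi⟩) (j := ⟨j, hj⟩)
          (fun h => hij (Fin.mk.inj_iff.mp h)) (by
            unfold Dn
            simp) (c := c) hc
        refine h1.congr_done fun a b _ => ?_
        unfold Dn
        constructor
        · rintro (h | ⟨h1, h2⟩)
          · exact Or.inl (Or.inl h)
          · rcases Nat.lt_succ_iff_lt_or_eq.mp h2 with h | h
            · exact Or.inl (Or.inr ⟨h1, h⟩)
            · exact Or.inr ⟨Fin.ext h1, Fin.ext h⟩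
        · rintro ((h | ⟨h1, h2⟩) | ⟨h1, h2⟩)
          · exact Or.inl h
          · exact Or.inr ⟨h1, by omega⟩
          · subst h1; subst h2
            exact Or.inr ⟨rfl, Nat.lt_succ_self _⟩) le_rfl
    linarith only [this]

theorem row_fail {k : ℕ} (hk : k < K) {i : ℕ} (hi : i < P.n) (m : ℕ) :
    ∀ (j : ℕ) (H : Finset ℕ × Finset ℕ), j + m = P.n → P.Mid k H (P.Dn i j) →
      fail (fun H' => P.Mid k H' (P.Dn (i + 1) 0)) (P.row k i m j H) ≤ m * P.φ θ := by
  induction m with
  | zero =>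
    intro j H hj hM
    unfold row
    rw [fail_leaf]
    · simp
    · refine hM.congr_done fun a b _ => ?_
      unfold Dn
      have := b.2
      omega
  | succ m ih =>
    intro j H hj hM
    unfold row
    have := fail_bind (q := fun H' => P.Mid k H' (P.Dn (i + 1) 0))
      (g := P.row k i m (j + 1)) (b := m * P.φ θ)
      (pair_fail hn hL hθ0 hθ hT hk hi (by omega) hM) (fun H' hH' => ih (j + 1) H' (by omega) hH')
      (mul_nonneg (Nat.cast_nonneg _) (φ_nonneg θ))
    push_cast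
    linarith only [this]

theorem rows_fail {k : ℕ} (hk : k < K) (m : ℕ) :
    ∀ (i : ℕ) (H : Finset ℕ × Finset ℕ), i + m = P.n → P.Mid k H (P.Dn i 0) →
      fail (fun H' => P.Mid k H' (P.Dn P.n 0)) (P.rows k m i H) ≤ m * (P.n * P.φ θ) := by
  induction m with
  | zero =>
    intro i H hi hM
    unfold rows
    rw [fail_leaf]
    · simp
    · rw [add_zero] at hi
      rwa [hi] at hM
  | succ m ih =>
    intro i H hi hM
    unfold rows
    have := fail_bind (q := fun H' => P.Mid k H' (P.Dn P.n 0))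
      (g := P.rows k m (i + 1)) (b := m * (P.n * P.φ θ))
      (row_fail hn hL hθ0 hθ hT hk (i := i) (by omega) P.n 0 H (by omega) hM)
      (fun H' hH' => ih (i + 1) H' (by omega) hH')
      (mul_nonneg (Nat.cast_nonneg _) (mul_nonneg (Nat.cast_nonneg _) (φ_nonneg θ)))
    push_cast
    linarith only [this]

include hδ hd

theorem stage_fail {k : ℕ} (hk : k < K) {H : Finset ℕ × Finset ℕ} {f : ℕ × ℕ}
    (hS : P.St k H) (hf : P.Fr δ k f) :
    fail (fun r => P.St (k + 1) r.1 ∧ P.Fr δ (k + 1) r.2) (P.stage k H f) ≤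
      ((P.n : ℝ) ^ 2 + 1) * P.φ θ := by
  have hθ1 := θ_le_one (P := P) hn hθ0 hθ
  unfold stage
  have hM0 : P.Mid k H (P.Dn 0 0) := by
    refine hS.mid.congr_done fun a b _ => ?_
    unfold Dn
    simp
  have h1 := rows_fail hn hL hθ0 hθ hT hk P.n 0 H (by omega) hM0
  have h2 := fail_bind (q := fun r => P.St (k + 1) r.1 ∧ P.Fr δ (k + 1) r.2)
    (g := fun H' => (expt (P.thread H'.1 H'.2 k) (P.drop k) P.col P.L (0, 0)).bind fun c =>
      .leaf (H', (f.1 * (2 * c.2 - c.1), f.2 * (2 * c.2)))) (b := P.φ θ) h1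
    (fun H' hH' => by
      have h3 := fail_bind (q := fun r => P.St (k + 1) r.1 ∧ P.Fr δ (k + 1) r.2)
        (g := fun c : ℕ × ℕ => .leaf (H', (f.1 * (2 * c.2 - c.1), f.2 * (2 * c.2)))) (b := 0)
        (expt_ok hθ0 hθ1 hL hT hk hH'.bal (P.drop k)) (fun c hc => by
          rw [fail_leaf]
          refine ⟨hH'.finish hn hd fun a b _ => Or.inl a.2, ?_⟩
          exact frac_ok hn hL hθ hδ hd (hH'.bal k le_rfl) hc hf) le_rfl
      linarith only [h3]) (φ_nonneg θ)
  refine h2.trans (le_of_eq ?_)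
  ring

theorem main_fail (m : ℕ) :
    ∀ (k : ℕ) (H : Finset ℕ × Finset ℕ) (f : ℕ × ℕ), k + m ≤ K → P.St k H → P.Fr δ k f →
      fail (fun r => P.St (k + m) r.1 ∧ P.Fr δ (k + m) r.2) (P.main m k H f) ≤
        m * (((P.n : ℝ) ^ 2 + 1) * P.φ θ) := by
  induction m with
  | zero =>
    intro k H f _ hS hf
    unfold main
    rw [fail_leaf]
    · simp
    · exact ⟨hS, hf⟩
  | succ m ih =>
    intro k H f hk hS hf
    unfold main
    have h := fail_bind (q := fun r => P.St (k + (m + 1)) r.1 ∧ P.Fr δ (k + (m + 1)) r.2)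
      (g := fun r => P.main m (k + 1) r.1 r.2) (b := m * (((P.n : ℝ) ^ 2 + 1) * P.φ θ))
      (stage_fail hn hL hθ0 hθ hδ hd hT (by omega) hS hf)
      (fun r hr => by
        have := ih (k + 1) r.1 r.2 (by omega) hr.1 hr.2
        have e : k + 1 + m = k + (m + 1) := by omega
        rw [e] at this
        exact this)
      (by have := φ_nonneg (P := P) θ; (clear * - hn this; positivity))
    push_cast
    linarith only [h]

end run

/-- **the accuracy of the algorithm** -/
theorem output_fail {θ δ : ℝ} {e u : ℕ} (he : 1 ≤ e) (hL : 0 < P.L) (hθ0 : 0 ≤ θ)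
    (hθ : 900 * (P.n : ℝ) ^ 2 * θ ≤ 1) (hδ : 36 * (P.n : ℝ) ^ 2 * θ ≤ δ) (hδ0 : 0 ≤ δ)
    (hδe : 8 * ((P.n * u : ℕ) : ℝ) * δ * e ≤ 1) (hu : P.n + e + 16 ≤ u)
    (h0 : P.n = 0 → P.dfc ∅ = 0)
    (hd : ∀ Z ∈ win P.n, P.dfc (enc Z) ≤ P.n) (hT : P.TL θ (P.n * u)) :
    fail (Good P.nb e) (P.output (P.n * u)) ≤
      ((P.n * u : ℕ) : ℝ) * (((P.n : ℝ) ^ 2 + 1) * P.φ θ) := by
  unfold output
  rcases Nat.eq_zero_or_pos P.n with hn | hn
  · have h1 := final_ok (P := P) he hδ0 hδe hu h0 (f := (2 ^ P.n, 1)) (by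
      have : P.n * u = 0 := by rw [hn, zero_mul]
      rw [this]
      exact fr_zero)
    have h2 : P.main (P.n * u) 0 (∅, ∅) (2 ^ P.n, 1) = .leaf ((∅, ∅), (2 ^ P.n, 1)) := by
      have : P.n * u = 0 := by rw [hn, zero_mul]
      rw [this]
      rfl
    rw [h2, bind_leaf, fail_leaf h1]
    have := φ_nonneg (P := P) θ
    (clear * - this; positivity)
  · have h1 := main_fail (P := P) hn hL hθ0 hθ hδ hd hT (P.n * u) 0 (∅, ∅) (2 ^ P.n, 1)
      (by omega) st_zero fr_zero
    have h2 := fail_bind (q := Good P.nb e)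
      (g := fun r : (Finset ℕ × Finset ℕ) × (ℕ × ℕ) =>
        .leaf (if 2 * r.2.1 < r.2.2 then 0 else r.2.1, r.2.2)) (b := 0) h1
      (fun r hr => by
        rw [fail_leaf]
        rw [zero_add] at hr
        exact final_ok (P := P) he hδ0 hδe hu h0 hr.2) le_rfl
    linarith only [h2]

end Par

end Vale.Agent.P317.Alg
end

section

/-!
# From (I1) and (I2) to the weak Poincare inequality (part A)
-/

namespace Vale.Agent.P317.Window

open Finset

variable {V : Type*} [Fintype V] [DecidableEq V]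

/-- all window states -/
def Win (V : Type*) [Fintype V] [DecidableEq V] : Finset (Finset (V × Bool)) :=
  univ.filter (fun S => IsCol S ∨ ∃ i j, IsNear i j S)

/-- comparison of a law with a weight on one type -/
theorem av_le_of_cmp {X : Type*} {s : Finset X} {W π : X → ℝ} {a m : ℝ}
    (hW : ∀ x ∈ s, 0 < W x) (ha : 0 < a) (hm : 0 < m)
    (h1 : ∀ x ∈ s, a * W x ≤ π x) (h2 : ∀ x ∈ s, π x ≤ 2 * a * W x) (hmass : m ≤ ∑ x ∈ s, π x)
    {g : X → ℝ} (hg : ∀ x ∈ s, 0 ≤ g x) :
    av s W g ≤ 2 / m * ∑ x ∈ s, π x * g x := by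
  have hs : 0 < ∑ x ∈ s, W x := by
    rcases s.eq_empty_or_nonempty with rfl | hne
    · simp only [sum_empty] at hmass; linarith
    · exact sum_pos hW hne
  have hπ : ∑ x ∈ s, π x ≤ 2 * a * ∑ x ∈ s, W x := by
    rw [mul_sum]; exact sum_le_sum h2
  unfold av
  rw [div_le_iff₀ hs]
  have hA : a * ∑ x ∈ s, W x * g x ≤ ∑ x ∈ s, π x * g x := by
    rw [mul_sum]
    refine sum_le_sum fun x hx => ?_
    rw [← mul_assoc]
    exact mul_le_mul_of_nonneg_right (h1 x hx) (hg x hx)
  have hB : 0 ≤ ∑ x ∈ s, π x * g x :=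
    sum_nonneg fun x hx => mul_nonneg ((mul_nonneg ha.le (hW x hx).le).trans (h1 x hx)) (hg x hx)
  have hC : m ≤ 2 * a * ∑ x ∈ s, W x := hmass.trans hπ
  have hD : 0 ≤ ∑ x ∈ s, W x * g x := sum_nonneg fun x hx => mul_nonneg (hW x hx).le (hg x hx)
  have : m * ∑ x ∈ s, W x * g x ≤ 2 * (∑ x ∈ s, π x * g x) * ∑ x ∈ s, W x := by
    calc m * ∑ x ∈ s, W x * g x ≤ (2 * a * ∑ x ∈ s, W x) * ∑ x ∈ s, W x * g x :=
          mul_le_mul_of_nonneg_right hC hD
      _ = (2 * ∑ x ∈ s, W x) * (a * ∑ x ∈ s, W x * g x) := by ring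
      _ ≤ (2 * ∑ x ∈ s, W x) * ∑ x ∈ s, π x * g x :=
          mul_le_mul_of_nonneg_left hA (by (clear * - hs; positivity))
      _ = _ := by ring
  have e : 2 / m * (∑ x ∈ s, π x * g x) * ∑ x ∈ s, W x
      = (2 * (∑ x ∈ s, π x * g x) * ∑ x ∈ s, W x) / m := by ring
  rw [e, le_div_iff₀ hm]
  linarith only [this]

theorem sum_le_of_cmp {X : Type*} {s : Finset X} {W π : X → ℝ} {a : ℝ}
    (hW : ∀ x ∈ s, 0 < W x) (ha : 0 < a)
    (h1 : ∀ x ∈ s, a * W x ≤ π x) (h2 : ∀ x ∈ s, π x ≤ 2 * a * W x)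
    {g : X → ℝ} (hg : ∀ x ∈ s, 0 ≤ g x) {A : ℝ} (hA : av s W g ≤ A) :
    ∑ x ∈ s, π x * g x ≤ 2 * A * ∑ x ∈ s, π x := by
  rcases s.eq_empty_or_nonempty with rfl | hne
  · simp
  have hs : 0 < ∑ x ∈ s, W x := sum_pos hW hne
  have hA0 : 0 ≤ A := (av_nonneg (fun x hx => (hW x hx).le) hg).trans hA
  unfold av at hA
  rw [div_le_iff₀ hs] at hA
  calc ∑ x ∈ s, π x * g x ≤ ∑ x ∈ s, 2 * a * W x * g x :=
        sum_le_sum fun x hx => mul_le_mul_of_nonneg_right (h2 x hx) (hg x hx)
    _ = 2 * a * ∑ x ∈ s, W x * g x := by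
        rw [mul_sum]; exact sum_congr rfl fun x _ => by ring
    _ ≤ 2 * a * (A * ∑ x ∈ s, W x) := mul_le_mul_of_nonneg_left hA (by positivity)
    _ = 2 * A * ∑ x ∈ s, a * W x := by rw [← mul_sum]; ring
    _ ≤ 2 * A * ∑ x ∈ s, π x := mul_le_mul_of_nonneg_left (sum_le_sum h1) (by (clear * - hA0; positivity))

/-- the law `π` compared with the weight `W`, type by type; every type has mass at least `m` -/
structure Cmp (W π : Finset (V × Bool) → ℝ) (m : ℝ) : Prop where
  pos : ∀ Z, 0 < W Z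
  m_pos : 0 < m
  c0 : ∃ a, 0 < a ∧ ∀ Z ∈ Om0 V, a * W Z ≤ π Z ∧ π Z ≤ 2 * a * W Z
  c1 : ∀ i j : V, i ≠ j → ∃ a, 0 < a ∧ ∀ Z ∈ Om i j, a * W Z ≤ π Z ∧ π Z ≤ 2 * a * W Z
  m0 : m ≤ ∑ Z ∈ Om0 V, π Z
  m1 : ∀ i j : V, i ≠ j → m ≤ ∑ Z ∈ Om i j, π Z

variable {W π : Finset (V × Bool) → ℝ} {m : ℝ}

theorem abs_sq_sub_le {x y c b : ℝ} (hx : |x - c| ≤ b) (hy : |y - c| ≤ b) :
    |(x - c) ^ 2 - (y - c) ^ 2| ≤ 2 * b * |x - y| := by
  have : (x - c) ^ 2 - (y - c) ^ 2 = (x - y) * ((x - c) + (y - c)) := by ring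
  rw [this, abs_mul, mul_comm]
  refine mul_le_mul_of_nonneg_right ?_ (abs_nonneg _)
  exact (abs_add_le _ _).trans (by linarith)

/-- **Weak Poincare, part A.** `B` bounds the energy of `f` against its hub potential `u`. -/
theorem var_le (hc : Cmp W π m) (h1 : I1 W) (h2 : I2 W) {f u : Finset (V × Bool) → ℝ} {b B : ℝ}
    (hb : 0 ≤ b)
    (hf : ∀ Z, 0 ≤ f Z ∧ f Z ≤ b) (hu : ∀ T, 0 ≤ u T ∧ u T ≤ b)
    (hB0 : ∀ k : V, ∑ Z ∈ Om0 V, π Z * (f Z - u (Z \ cell k)) ^ 2 ≤ B)
    (hB1 : ∀ i j : V, i ≠ j → ∑ Z ∈ Om i j, π Z *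
      ((f Z - u (Z.erase (i, false))) ^ 2 + (f Z - u (Z.erase (i, true))) ^ 2) ≤ B) :
    ∃ c : ℝ, (0 ≤ c ∧ c ≤ b) ∧
      ∑ Z ∈ Om0 V, π Z * (f Z - c) ^ 2 ≤
        24 * (Fintype.card V : ℝ) ^ 2 * b * Real.sqrt (B / m) * ∑ Z ∈ Om0 V, π Z ∧
      ∀ i j : V, i ≠ j → ∑ Z ∈ Om i j, π Z * (f Z - c) ^ 2 ≤
        24 * (Fintype.card V : ℝ) ^ 2 * b * Real.sqrt (B / m) * ∑ Z ∈ Om i j, π Z := by
  classical
  have hWnn : ∀ (s : Finset (Finset (V × Bool))), ∀ Z ∈ s, 0 ≤ W Z := fun _ Z _ => (hc.pos Z).le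
  set r := Real.sqrt (B / m) with hr
  have hr0 : 0 ≤ r := Real.sqrt_nonneg _
  set n : ℝ := (Fintype.card V : ℝ) with hn
  have hm := hc.m_pos
  -- energies
  have s2 : Real.sqrt (2 / m * B) ≤ 3 / 2 * r := by
    have : 2 / m * B = 2 * (B / m) := by ring
    rw [this, Real.sqrt_mul (by norm_num), ← hr]
    refine mul_le_mul_of_nonneg_right ?_ hr0
    rw [Real.sqrt_le_left (by norm_num)]; norm_num
  have s4 : Real.sqrt (4 / m * B) ≤ 2 * r := by
    have : 4 / m * B = 4 * (B / m) := by ring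
    rw [this, Real.sqrt_mul (by norm_num), ← hr]
    refine mul_le_mul_of_nonneg_right ?_ hr0
    rw [Real.sqrt_le_left (by norm_num)]; norm_num
  have E0 : ∀ k : V, Real.sqrt (av (Om0 V) W (fun Z => (f Z - u (Z \ cell k)) ^ 2)) ≤ 3 / 2 * r := by
    intro k
    obtain ⟨a, ha, hcmp⟩ := hc.c0
    refine le_trans (Real.sqrt_le_sqrt ?_) s2
    refine (av_le_of_cmp (fun Z _ => hc.pos Z) ha hm (fun Z hZ => (hcmp Z hZ).1)
      (fun Z hZ => (hcmp Z hZ).2) hc.m0 (fun Z _ => sq_nonneg _)).trans ?_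
    exact mul_le_mul_of_nonneg_left (hB0 k) (by positivity)
  -- the near energies
  have E1' : ∀ i j : V, i ≠ j → av (Om i j) W (fun Z =>
      (f Z - u (Z.erase (i, false))) ^ 2 + (f Z - u (Z.erase (i, true))) ^ 2) ≤ 2 / m * B := by
    intro i j hij
    obtain ⟨a, ha, hcmp⟩ := hc.c1 i j hij
    refine (av_le_of_cmp (fun Z _ => hc.pos Z) ha hm (fun Z hZ => (hcmp Z hZ).1)
      (fun Z hZ => (hcmp Z hZ).2) (hc.m1 i j hij) (fun Z _ => by (clear * -; positivity))).trans ?_
    exact mul_le_mul_of_nonneg_left (hB1 i j hij) (by positivity)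
  have E1 : ∀ i j : V, i ≠ j → Real.sqrt (En W u i j) ≤ 2 * r := by
    intro i j hij
    refine le_trans (Real.sqrt_le_sqrt ?_) s4
    unfold En
    calc av (Om i j) W (fun Z => (u (Z.erase (i, false)) - u (Z.erase (i, true))) ^ 2)
        ≤ av (Om i j) W (fun Z => 2 * ((f Z - u (Z.erase (i, false))) ^ 2
            + (f Z - u (Z.erase (i, true))) ^ 2)) := by
          refine av_mono (hWnn _) fun Z _ => ?_
          nlinarith only [sq_nonneg ((f Z - u (Z.erase (i, false))) + (f Z - u (Z.erase (i, true))))]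
      _ = 2 * av (Om i j) W (fun Z => (f Z - u (Z.erase (i, false))) ^ 2
            + (f Z - u (Z.erase (i, true))) ^ 2) := av_mul _ _
      _ ≤ 2 * (2 / m * B) := by linarith only [E1' i j hij]
      _ = 4 / m * B := by ring
  set c := av (Om0 V) W f with hcdef
  have hs0 : 0 < ∑ Z ∈ Om0 V, W Z := by
    obtain ⟨a, ha, hcmp⟩ := hc.c0
    rcases (Om0 V).eq_empty_or_nonempty with h | hne
    · have := hc.m0; rw [h] at this; simp at this; linarith only [hm, this]
    · exact sum_pos (fun Z _ => hc.pos Z) hne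
  have hc0 : 0 ≤ c := av_nonneg (hWnn _) fun Z _ => (hf Z).1
  have hcb : c ≤ b := by
    rw [← av_const hs0 b]
    exact av_mono (hWnn _) fun Z _ => (hf Z).2
  have absf : ∀ Z, |f Z - c| ≤ b := fun Z => abs_le.2 ⟨by linarith only [hcb, (hf Z).1], by linarith only [hc0, (hf Z).2]⟩
  have absu : ∀ Z, |u Z - c| ≤ b := fun Z => abs_le.2 ⟨by linarith only [hcb, (hu Z).1], by linarith only [hc0, (hu Z).2]⟩
  -- variance on Om0
  have hcard : (univ : Finset V).card = Fintype.card V := rfl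
  have V0 : av (Om0 V) W (fun Z => (f Z - c) ^ 2) ≤ b * (r * (3 / 2 * n + 1 / 2 * n ^ 2)) := by
    refine (h2 f u b (fun Z _ => hf Z)).trans ?_
    refine mul_le_mul_of_nonneg_left ?_ hb
    have : ∀ k ∈ (univ : Finset V),
        (Real.sqrt (av (Om0 V) W (fun Z => (f Z - u (Z \ cell k)) ^ 2)) +
        (1 / 4) * ∑ i ∈ univ.erase k, Real.sqrt (En W u i k)) ≤ r * (3 / 2 + 1 / 2 * n) := by
      intro k _
      have a1 := E0 k
      have a2 : ∑ i ∈ univ.erase k, Real.sqrt (En W u i k) ≤ n * (2 * r) := by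
        calc ∑ i ∈ univ.erase k, Real.sqrt (En W u i k) ≤ ∑ i ∈ univ.erase k, 2 * r :=
              sum_le_sum fun i hi => E1 i k (ne_of_mem_erase hi)
          _ = ((univ.erase k).card : ℝ) * (2 * r) := by rw [sum_const, nsmul_eq_mul]
          _ ≤ n * (2 * r) := by
              refine mul_le_mul_of_nonneg_right ?_ (by (clear * -; positivity))
              rw [hn]; exact_mod_cast (card_le_card (erase_subset _ _)).trans (le_of_eq hcard)
      linarith only [a1, a2]
    refine (sum_le_sum this).trans ?_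
    rw [sum_const, nsmul_eq_mul, hcard, ← hn]
    nlinarith only []
  -- the final inequality
  have hn0 : 0 ≤ n := by (clear * -; positivity)
  have poly : ∀ x : V, 1 / 2 * n ^ 2 + 11 / 2 * n + 6 ≤ 12 * n ^ 2 := by
    intro x
    have : 1 ≤ n := by
      rw [hn]; exact_mod_cast Fintype.card_pos_iff.2 ⟨x⟩
    nlinarith only [this]
  refine ⟨c, ⟨hc0, hcb⟩, ?_, ?_⟩
  · obtain ⟨a, ha, hcmp⟩ := hc.c0
    have key := sum_le_of_cmp (fun Z _ => hc.pos Z) ha (fun Z hZ => (hcmp Z hZ).1)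
      (fun Z hZ => (hcmp Z hZ).2) (fun Z _ => sq_nonneg (f Z - c)) V0
    refine key.trans ?_
    refine mul_le_mul_of_nonneg_right ?_ (hm.le.trans hc.m0)
    rcases isEmpty_or_nonempty V with hV | ⟨⟨x⟩⟩
    · have : n = 0 := by rw [hn]; simp
      rw [this]; simp
    · have := poly x
      have hbr : 0 ≤ b * r := by (clear * - hb; positivity)
      have : b * r * (3 / 2 * n + 1 / 2 * n ^ 2) ≤ b * r * (12 * n ^ 2) :=
        mul_le_mul_of_nonneg_left (by linarith) hbr
      linarith only [this]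
  · intro i j hij
    obtain ⟨a, ha, hcmp⟩ := hc.c1 i j hij
    have hVne : Nonempty V := ⟨i⟩
    have main : av (Om i j) W (fun Z => (f Z - c) ^ 2) ≤ b * r * (12 * n ^ 2) := by
      -- step 1: replace f by the hub average
      set ug : Finset (V × Bool) → ℝ := fun T => (u T - c) ^ 2 with hug
      have st1 : av (Om i j) W (fun Z => (f Z - c) ^ 2) ≤
          av (Om i j) W (fun Z => (ug (Z.erase (i, false)) + ug (Z.erase (i, true))) / 2)
            + 2 * b * (3 / 2 * r) := by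
        have p : ∀ Z ∈ Om i j, (f Z - c) ^ 2 ≤
            ((ug (Z.erase (i, false)) + ug (Z.erase (i, true))) / 2)
            + b * (|f Z - u (Z.erase (i, false))| + |f Z - u (Z.erase (i, true))|) := by
          intro Z _
          have q1 := (abs_le.1 (abs_sq_sub_le (absf Z) (absu (Z.erase (i, false))))).2
          have q2 := (abs_le.1 (abs_sq_sub_le (absf Z) (absu (Z.erase (i, true))))).2
          simp only [hug]
          linarith only [q1, q2]
        have p1 := av_mono (w := W) (hWnn (Om i j)) p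
        rw [av_add, av_mul] at p1
        refine p1.trans ?_
        have p2 : av (Om i j) W (fun Z => |f Z - u (Z.erase (i, false))|
            + |f Z - u (Z.erase (i, true))|) ≤ Real.sqrt (4 / m * B) := by
          refine (av_le_sqrt (hWnn _) _).trans (Real.sqrt_le_sqrt ?_)
          calc av (Om i j) W (fun Z => (|f Z - u (Z.erase (i, false))|
                + |f Z - u (Z.erase (i, true))|) ^ 2)
              ≤ av (Om i j) W (fun Z => 2 * ((f Z - u (Z.erase (i, false))) ^ 2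
                + (f Z - u (Z.erase (i, true))) ^ 2)) := by
                refine av_mono (hWnn _) fun Z _ => ?_
                have h1 := sq_abs (f Z - u (Z.erase (i, false)))
                have h2 := sq_abs (f Z - u (Z.erase (i, true)))
                nlinarith only [h1, h2, sq_nonneg (|f Z - u (Z.erase (i, false))|                   - |f Z - u (Z.erase (i, true))|)]
            _ = 2 * av (Om i j) W (fun Z => (f Z - u (Z.erase (i, false))) ^ 2
                + (f Z - u (Z.erase (i, true))) ^ 2) := av_mul _ _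
            _ ≤ 2 * (2 / m * B) := by linarith only [E1' i j hij]
            _ = 4 / m * B := by ring
        have p3 := p2.trans s4
        have : b * av (Om i j) W (fun Z => |f Z - u (Z.erase (i, false))|
            + |f Z - u (Z.erase (i, true))|) ≤ b * (2 * r) := mul_le_mul_of_nonneg_left p3 hb
        nlinarith only [this, hb, hr0]
      -- step 2: (I1) for ug
      have st2 := h1 ug i j hij
      have st3 : ∑ l ∈ univ.erase j, Real.sqrt (En W ug l j) ≤ n * (2 * b * (2 * r)) := by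
        have each : ∀ l ∈ univ.erase j, Real.sqrt (En W ug l j) ≤ 2 * b * (2 * r) := by
          intro l hl
          have hlj : l ≠ j := ne_of_mem_erase hl
          have : En W ug l j ≤ (2 * b) ^ 2 * En W u l j := by
            unfold En
            rw [← av_mul]
            refine av_mono (hWnn _) fun Z _ => ?_
            simp only [hug]
            have q := abs_sq_sub_le (absu (Z.erase (l, false))) (absu (Z.erase (l, true)))
            have q0 := abs_nonneg ((u (Z.erase (l, false)) - c) ^ 2 - (u (Z.erase (l, true)) - c) ^ 2)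
            calc ((u (Z.erase (l, false)) - c) ^ 2 - (u (Z.erase (l, true)) - c) ^ 2) ^ 2
                = |(u (Z.erase (l, false)) - c) ^ 2 - (u (Z.erase (l, true)) - c) ^ 2| ^ 2 :=
                  (sq_abs _).symm
              _ ≤ (2 * b * |u (Z.erase (l, false)) - u (Z.erase (l, true))|) ^ 2 :=
                  pow_le_pow_left₀ q0 q 2
              _ = _ := by rw [mul_pow, sq_abs]
          calc Real.sqrt (En W ug l j) ≤ Real.sqrt ((2 * b) ^ 2 * En W u l j) :=
                Real.sqrt_le_sqrt this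
            _ = 2 * b * Real.sqrt (En W u l j) := by
                rw [Real.sqrt_mul (sq_nonneg _), Real.sqrt_sq (by linarith only [hb])]
            _ ≤ 2 * b * (2 * r) := mul_le_mul_of_nonneg_left (E1 l j hlj) (by linarith only [hb])
        calc ∑ l ∈ univ.erase j, Real.sqrt (En W ug l j)
            ≤ ∑ l ∈ univ.erase j, 2 * b * (2 * r) := sum_le_sum each
          _ = ((univ.erase j).card : ℝ) * (2 * b * (2 * r)) := by rw [sum_const, nsmul_eq_mul]
          _ ≤ n * (2 * b * (2 * r)) := by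
              refine mul_le_mul_of_nonneg_right ?_ (by (clear * - hb; positivity))
              rw [hn]; exact_mod_cast (card_le_card (erase_subset _ _)).trans (le_of_eq hcard)
      -- step 3: from the hub values back to f on Om0
      have st4 : av (Om0 V) W (fun Z => ug (Z \ cell j)) ≤
          av (Om0 V) W (fun Z => (f Z - c) ^ 2) + 2 * b * (3 / 2 * r) := by
        have p : ∀ Z ∈ Om0 V, ug (Z \ cell j) ≤ (f Z - c) ^ 2
            + 2 * b * |f Z - u (Z \ cell j)| := by
          intro Z _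
          have q1 := (abs_le.1 (abs_sq_sub_le (absf Z) (absu (Z \ cell j)))).1
          simp only [hug]
          linarith only [q1]
        have p1 := av_mono (w := W) (hWnn (Om0 V)) p
        rw [av_add, av_mul] at p1
        refine p1.trans ?_
        have p2 : av (Om0 V) W (fun Z => |f Z - u (Z \ cell j)|) ≤ 3 / 2 * r := by
          refine (av_le_sqrt (hWnn _) _).trans ?_
          simp only [sq_abs]
          exact E0 j
        have := mul_le_mul_of_nonneg_left p2 (by linarith only [hb] : 0 ≤ 2 * b)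
        linarith only [this]
      have st5 := (abs_le.1 st2).1
      have hbr : 0 ≤ b * r := by (clear * - hb; positivity)
      have hp := mul_le_mul_of_nonneg_left (poly i) hbr
      linarith
    have key := sum_le_of_cmp (fun Z _ => hc.pos Z) ha (fun Z hZ => (hcmp Z hZ).1)
      (fun Z hZ => (hcmp Z hZ).2) (fun Z _ => sq_nonneg (f Z - c)) main
    refine key.trans (le_of_eq ?_)
    ring

end Vale.Agent.P317.Window
end
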