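import Vale.Agent.P317.MathlibUsed
import Vale.Agent.P317.Bdl.B4
import Vale.Agent.P317.Bdl.B2
import Vale.Agent.P317.Bdl.B3

section

/-!
# Warm-start mixing from a weak Poincare inequality

`P` is a reversible lazy Markov kernel on a finite type with stationary law `π`.  If
`Var(f)^2 ≤ C * osc(f)^2 * D(f)` for all `f`, then from an `M`-warm start the chain is within
`sqrt (C * M^2 / (t+1))` of `π` (in `L^1`) after `t ≥ 1` steps.
-/

namespace Vale.Agent.P317.WarmMix

open Finset

variable {Ω : Type*} [Fintype Ω]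

/-- one step of the chain, on laws -/
def push (P : Ω → Ω → ℝ) (μ : Ω → ℝ) : Ω → ℝ := fun y => ∑ x, μ x * P x y

/-- `t` steps of the chain, on laws -/
def pushIter (P : Ω → Ω → ℝ) (t : ℕ) (μ : Ω → ℝ) : Ω → ℝ := (push P)^[t] μ

/-- one step of the chain, on functions -/
def pull (P : Ω → Ω → ℝ) (f : Ω → ℝ) : Ω → ℝ := fun x => ∑ y, P x y * f y

/-- mean -/
def mean (π : Ω → ℝ) (f : Ω → ℝ) : ℝ := ∑ x, π x * f x

/-- variance -/
def var (π : Ω → ℝ) (f : Ω → ℝ) : ℝ := ∑ x, π x * (f x - mean π f) ^ 2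

/-- Dirichlet form -/
noncomputable def dir (π : Ω → ℝ) (P : Ω → Ω → ℝ) (f : Ω → ℝ) : ℝ :=
  (1 / 2) * ∑ x, ∑ y, π x * P x y * (f x - f y) ^ 2

/-- hypotheses on the chain: `π` is a positive probability law, `P` is a stochastic kernel,
reversible for `π` and lazy. -/
structure Chain (π : Ω → ℝ) (P : Ω → Ω → ℝ) : Prop where
  pos : ∀ x, 0 < π x
  sum_one : ∑ x, π x = 1
  nonneg : ∀ x y, 0 ≤ P x y
  row : ∀ x, ∑ y, P x y = 1
  rev : ∀ x y, π x * P x y = π y * P y x
  lazy : ∀ x, 1 / 2 ≤ P x x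

variable {π : Ω → ℝ} {P : Ω → Ω → ℝ}

theorem var_eq (h1 : ∑ x, π x = 1) (f : Ω → ℝ) :
    var π f = ∑ x, π x * (f x) ^ 2 - (mean π f) ^ 2 := by
  unfold var
  have : ∀ x, π x * (f x - mean π f) ^ 2
      = π x * (f x) ^ 2 - 2 * mean π f * (π x * f x) + (mean π f) ^ 2 * π x := by
    intro x; ring
  simp only [this]
  rw [sum_add_distrib, sum_sub_distrib, ← mul_sum, ← mul_sum, h1]
  have : ∑ x, π x * f x = mean π f := rfl
  rw [this]; ring

theorem stationary (h : Chain π P) (y : Ω) : ∑ x, π x * P x y = π y := by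
  have : ∀ x, π x * P x y = π y * P y x := fun x => h.rev x y
  simp only [this]
  rw [← mul_sum, h.row, mul_one]

/-- `D(f) = ⟨f,f⟩ - ⟨f,Pf⟩` -/
theorem dir_eq (h : Chain π P) (f : Ω → ℝ) :
    dir π P f = ∑ x, π x * (f x) ^ 2 - ∑ x, π x * (f x * pull P f x) := by
  unfold dir
  have e : ∀ x y, π x * P x y * (f x - f y) ^ 2
      = π x * (f x) ^ 2 * P x y + π x * P x y * (f y) ^ 2 - 2 * (π x * (f x * (P x y * f y))) := by
    intro x y; ring
  simp only [e]
  have s1 : ∑ x, ∑ y, π x * (f x) ^ 2 * P x y = ∑ x, π x * (f x) ^ 2 := by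
    refine sum_congr rfl fun x _ => ?_
    rw [← mul_sum, h.row, mul_one]
  have s2 : ∑ x, ∑ y, π x * P x y * (f y) ^ 2 = ∑ x, π x * (f x) ^ 2 := by
    rw [sum_comm]
    refine sum_congr rfl fun y _ => ?_
    rw [← sum_mul, stationary h]
  have s3 : ∑ x, ∑ y, 2 * (π x * (f x * (P x y * f y)))
      = 2 * ∑ x, π x * (f x * pull P f x) := by
    rw [mul_sum]
    refine sum_congr rfl fun x _ => ?_
    rw [← mul_sum, ← mul_sum, ← mul_sum]
    rfl
  have : ∑ x, ∑ y, (π x * (f x) ^ 2 * P x y + π x * P x y * (f y) ^ 2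
        - 2 * (π x * (f x * (P x y * f y))))
      = ∑ x, ∑ y, π x * (f x) ^ 2 * P x y + ∑ x, ∑ y, π x * P x y * (f y) ^ 2
        - ∑ x, ∑ y, 2 * (π x * (f x * (P x y * f y))) := by
    simp only [sum_sub_distrib, sum_add_distrib]
  rw [this, s1, s2, s3]
  ring

theorem dir_nonneg (h : Chain π P) (f : Ω → ℝ) : 0 ≤ dir π P f := by
  unfold dir
  refine mul_nonneg (by (clear * -; norm_num)) (sum_nonneg fun x _ => sum_nonneg fun y _ => ?_)
  exact mul_nonneg (mul_nonneg (h.pos x).le (h.nonneg x y)) (sq_nonneg _)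

/-- mean is preserved -/
theorem mean_pull (h : Chain π P) (f : Ω → ℝ) : mean π (pull P f) = mean π f := by
  unfold mean pull
  have : ∀ x, π x * ∑ y, P x y * f y = ∑ y, π x * P x y * f y := by
    intro x; rw [mul_sum]; exact sum_congr rfl fun y _ => by ring
  simp only [this]
  rw [sum_comm]
  refine sum_congr rfl fun y _ => ?_
  rw [← sum_mul, stationary h]

/-- laziness: `⟨Pf,Pf⟩ ≤ ⟨f,Pf⟩` -/
theorem lazy_le [DecidableEq Ω] (h : Chain π P) (f : Ω → ℝ) :
    ∑ x, π x * (pull P f x) ^ 2 ≤ ∑ x, π x * (f x * pull P f x) := by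
  -- Q = 2P - I
  set Q : Ω → Ω → ℝ := fun x y => 2 * P x y - (if x = y then 1 else 0) with hQ
  have Qnn : ∀ x y, 0 ≤ Q x y := by
    intro x y
    simp only [hQ]
    split_ifs with e
    · subst e; have := h.lazy x; linarith only [this]
    · have := h.nonneg x y; linarith only [this]
  have Qrow : ∀ x, ∑ y, Q x y = 1 := by
    intro x
    simp only [hQ, sum_sub_distrib, ← mul_sum, h.row]
    simp only [mul_one, sum_ite_eq, mem_univ, ↓reduceIte]; norm_num
  have Qstat : ∀ y, ∑ x, π x * Q x y = π y := by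
    intro y
    have : ∀ x, π x * Q x y = 2 * (π x * P x y) - (if x = y then π x else 0) := by
      intro x; simp only [hQ]; split_ifs <;> ring
    simp only [this, sum_sub_distrib, ← mul_sum, stationary h]
    simp only [sum_ite_eq', mem_univ, ↓reduceIte]; ring
  have Qf : ∀ x, ∑ y, Q x y * f y = 2 * pull P f x - f x := by
    intro x
    have : ∀ y, Q x y * f y = 2 * (P x y * f y) - (if x = y then f y else 0) := by
      intro y; simp only [hQ]; split_ifs <;> ring
    simp only [this, sum_sub_distrib, ← mul_sum]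
    simp only [sum_ite_eq, mem_univ, ↓reduceIte, pull]
  -- Jensen
  have J : ∀ x, (∑ y, Q x y * f y) ^ 2 ≤ ∑ y, Q x y * (f y) ^ 2 := by
    intro x
    have := sum_mul_sq_le_sq_mul_sq univ (fun y => Real.sqrt (Q x y))
      (fun y => Real.sqrt (Q x y) * f y)
    have e1 : ∀ y, Real.sqrt (Q x y) * (Real.sqrt (Q x y) * f y) = Q x y * f y := by
      intro y; rw [← mul_assoc, Real.mul_self_sqrt (Qnn x y)]
    have e2 : ∀ y, Real.sqrt (Q x y) ^ 2 = Q x y := fun y => Real.sq_sqrt (Qnn x y)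
    have e3 : ∀ y, (Real.sqrt (Q x y) * f y) ^ 2 = Q x y * f y ^ 2 := by
      intro y; rw [mul_pow, e2]
    simp only [e1, e2, e3, Qrow, one_mul] at this
    exact this
  have S : ∑ x, π x * (2 * pull P f x - f x) ^ 2 ≤ ∑ x, π x * (f x) ^ 2 := by
    calc ∑ x, π x * (2 * pull P f x - f x) ^ 2
        ≤ ∑ x, π x * ∑ y, Q x y * (f y) ^ 2 := by
          refine sum_le_sum fun x _ => ?_
          rw [← Qf x]
          exact mul_le_mul_of_nonneg_left (J x) (h.pos x).le
      _ = ∑ x, ∑ y, π x * Q x y * (f y) ^ 2 := by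
          refine sum_congr rfl fun x _ => ?_
          rw [mul_sum]; exact sum_congr rfl fun y _ => by ring
      _ = ∑ x, π x * (f x) ^ 2 := by
          rw [sum_comm]
          refine sum_congr rfl fun y _ => ?_
          rw [← sum_mul, Qstat]
  have E : ∑ x, π x * (2 * pull P f x - f x) ^ 2
      = 4 * ∑ x, π x * (pull P f x) ^ 2 - 4 * ∑ x, π x * (f x * pull P f x)
        + ∑ x, π x * (f x) ^ 2 := by
    rw [mul_sum, mul_sum, ← sum_sub_distrib, ← sum_add_distrib]
    refine sum_congr rfl fun x _ => by ring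
  linarith

theorem var_pull_le [DecidableEq Ω] (h : Chain π P) (f : Ω → ℝ) :
    var π (pull P f) ≤ var π f - dir π P f := by
  rw [var_eq h.sum_one, var_eq h.sum_one, mean_pull h, dir_eq h]
  have := lazy_le h f
  linarith only [this]

theorem var_nonneg (h : Chain π P) (f : Ω → ℝ) : 0 ≤ var π f := by
  unfold var
  exact sum_nonneg fun x _ => mul_nonneg (h.pos x).le (sq_nonneg _)

/-- numerical recursion -/
theorem recursion {C : ℝ} (hC : 0 < C) (v : ℕ → ℝ) (hv0 : ∀ t, 0 ≤ v t)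
    (hv : ∀ t, C * v (t + 1) ≤ C * v t - (v t) ^ 2) (t : ℕ) (ht : 1 ≤ t) :
    v t * (t + 1) ≤ C := by
  induction t, ht using Nat.le_induction with
  | base =>
    have h := hv 0
    have h2 : 0 ≤ (v 0 - C / 2) ^ 2 := sq_nonneg _
    have h3 : C * v 1 ≤ C * (C / 4) := by linarith
    have h4 : v 1 ≤ C / 4 := le_of_mul_le_mul_left h3 hC
    push_cast
    norm_num at *
    linarith only [hC, h4]
  | succ t ht ih =>
    have h := hv t
    have ht1 : (1 : ℝ) ≤ t := by exact_mod_cast ht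
    set T : ℝ := (t : ℝ) + 1 with hT
    have hT2 : 2 ≤ T := by linarith only [ht1]
    push_cast
    rw [← hT]
    -- v (t+1) * (T+1) ≤ C
    have hx0 := hv0 t
    set x := v t with hx
    have key : (C * x - x ^ 2) * (T + 1) ≤ C * C := by
      -- with x T ≤ C
      -- C^2 - (C x - x^2)(T+1) ≥ 0
      have hxT : x * T ≤ C := ih
      -- write a = C - x T ≥ 0, C = a + xT
      obtain ⟨a, ha⟩ : ∃ a, C = a + x * T := ⟨C - x * T, by ring⟩
      have ha0 : 0 ≤ a := by linarith only [ih, ha]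
      rw [ha]
      have : (a + x * T) * (a + x * T) - ((a + x * T) * x - x ^ 2) * (T + 1)
          = a ^ 2 + a * x * (T - 1) + x ^ 2 := by ring
      have : 0 ≤ a ^ 2 + a * x * (T - 1) + x ^ 2 := by
        have := mul_nonneg (mul_nonneg ha0 hx0) (by linarith only [ht1] : (0:ℝ) ≤ T - 1)
        (clear * - this; positivity)
      linarith only [this]
    have : C * (v (t + 1) * (T + 1)) ≤ C * C := by
      calc C * (v (t + 1) * (T + 1)) = (C * v (t + 1)) * (T + 1) := by ring
        _ ≤ (C * x - x ^ 2) * (T + 1) := by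
            exact mul_le_mul_of_nonneg_right h (by linarith only [ht1])
        _ ≤ C * C := key
    exact le_of_mul_le_mul_left this hC

theorem pull_bounds (h : Chain π P) {f : Ω → ℝ} {a b : ℝ} (ha : ∀ x, a ≤ f x) (hb : ∀ x, f x ≤ b)
    (x : Ω) : a ≤ pull P f x ∧ pull P f x ≤ b := by
  constructor
  · calc a = ∑ y, P x y * a := by rw [← sum_mul, h.row, one_mul]
      _ ≤ _ := sum_le_sum fun y _ => mul_le_mul_of_nonneg_left (ha y) (h.nonneg x y)
  · calc pull P f x ≤ ∑ y, P x y * b :=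
          sum_le_sum fun y _ => mul_le_mul_of_nonneg_left (hb y) (h.nonneg x y)
      _ = b := by rw [← sum_mul, h.row, one_mul]

/-- the density of the pushed law is the pulled density -/
theorem push_density (h : Chain π P) (μ : Ω → ℝ) :
    (fun y => push P μ y / π y) = pull P (fun x => μ x / π x) := by
  funext y
  unfold push pull
  rw [sum_div]
  refine sum_congr rfl fun x _ => ?_
  have hx := (h.pos x).ne'
  have hy := (h.pos y).ne'
  have := h.rev x y
  rw [div_eq_iff hy, mul_assoc, div_mul_eq_mul_div, mul_div_assoc', eq_div_iff hx]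
  linear_combination (μ x) * this

theorem push_nonneg (h : Chain π P) {μ : Ω → ℝ} (hμ : ∀ x, 0 ≤ μ x) (y : Ω) : 0 ≤ push P μ y :=
  sum_nonneg fun x _ => mul_nonneg (hμ x) (h.nonneg x y)

theorem push_sum (h : Chain π P) (μ : Ω → ℝ) : ∑ y, push P μ y = ∑ x, μ x := by
  unfold push
  rw [sum_comm]
  refine sum_congr rfl fun x _ => ?_
  rw [← mul_sum, h.row, mul_one]

/-- **Warm-start mixing.** -/
theorem warm_mixing [DecidableEq Ω] (h : Chain π P) {C : ℝ} (hC : 0 < C)
    (wp : ∀ (f : Ω → ℝ) (b : ℝ), 0 ≤ b → (∀ x, 0 ≤ f x) → (∀ x, f x ≤ b) →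
      (var π f) ^ 2 ≤ C * b ^ 2 * dir π P f)
    {μ : Ω → ℝ} (hμ0 : ∀ x, 0 ≤ μ x) (hμ1 : ∑ x, μ x = 1) {M : ℝ} (hM : 0 < M)
    (hμM : ∀ x, μ x ≤ M * π x) (t : ℕ) (ht : 1 ≤ t) :
    ∑ x, |pushIter P t μ x - π x| ≤ Real.sqrt (C * M ^ 2 / (t + 1)) := by
  set g : ℕ → Ω → ℝ := fun t => (pull P)^[t] (fun x => μ x / π x) with hg
  have gsucc : ∀ t, g (t + 1) = pull P (g t) := by
    intro t; simp only [hg, Function.iterate_succ_apply']
  have dens : ∀ t, (fun y => pushIter P t μ y / π y) = g t := by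
    intro t
    induction t with
    | zero => rfl
    | succ t ih =>
      have : pushIter P (t + 1) μ = push P (pushIter P t μ) := by
        simp only [pushIter, Function.iterate_succ_apply']
      rw [this, push_density h, ih, gsucc]
  have g0 : ∀ t x, 0 ≤ g t x ∧ g t x ≤ M := by
    intro t
    induction t with
    | zero =>
      intro x
      refine ⟨div_nonneg (hμ0 x) (h.pos x).le, ?_⟩
      exact (div_le_iff₀ (h.pos x)).2 (hμM x)
    | succ t ih =>
      intro x
      rw [gsucc]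
      exact pull_bounds h (fun x => (ih x).1) (fun x => (ih x).2) x
  have gmean : ∀ t, mean π (g t) = 1 := by
    intro t
    induction t with
    | zero =>
      have : mean π (g 0) = ∑ x, μ x := by
        refine sum_congr rfl fun x _ => ?_
        exact mul_div_cancel₀ _ (h.pos x).ne'
      rw [this, hμ1]
    | succ t ih => rw [gsucc, mean_pull h, ih]
  set v : ℕ → ℝ := fun t => var π (g t) with hv
  have v0 : ∀ t, 0 ≤ v t := fun t => var_nonneg h _
  have hCM : 0 < C * M ^ 2 := by positivity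
  have rec' : ∀ t, (C * M ^ 2) * v (t + 1) ≤ (C * M ^ 2) * v t - (v t) ^ 2 := by
    intro t
    have a := var_pull_le h (g t)
    rw [← gsucc] at a
    have b := wp (g t) M hM.le (fun x => (g0 t x).1) (fun x => (g0 t x).2)
    have c := mul_le_mul_of_nonneg_left a hCM.le
    have : (C * M ^ 2) * (var π (g t) - dir π P (g t))
      = (C * M ^ 2) * v t - C * M ^ 2 * dir π P (g t) := by ring
    rw [this] at c
    linarith only [b, c]
  have hvt := recursion hCM v v0 rec' t ht
  have hvt' : v t ≤ C * M ^ 2 / (t + 1) := by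
    rw [le_div_iff₀ (by positivity)]; exact hvt
  have e1 : ∀ x, |pushIter P t μ x - π x| = π x * |g t x - 1| := by
    intro x
    have : g t x = pushIter P t μ x / π x := by rw [← dens t]
    rw [this]
    have hx := h.pos x
    rw [← abs_of_pos hx, ← abs_mul, abs_of_pos hx]
    congr 1
    (clear * - hx; field_simp)
  simp only [e1]
  refine Real.le_sqrt_of_sq_le ?_
  have cs := sum_mul_sq_le_sq_mul_sq univ (fun x => Real.sqrt (π x))
      (fun x => Real.sqrt (π x) * |g t x - 1|)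
  have e2 : ∀ x, Real.sqrt (π x) * (Real.sqrt (π x) * |g t x - 1|) = π x * |g t x - 1| := by
    intro x; rw [← mul_assoc, Real.mul_self_sqrt (h.pos x).le]
  have e3 : ∀ x, Real.sqrt (π x) ^ 2 = π x := fun x => Real.sq_sqrt (h.pos x).le
  have e4 : ∀ x, (Real.sqrt (π x) * |g t x - 1|) ^ 2 = π x * (g t x - 1) ^ 2 := by
    intro x; rw [mul_pow, e3, sq_abs]
  simp only [e2, e3, e4, h.sum_one, one_mul] at cs
  refine cs.trans ?_
  have : ∑ x, π x * (g t x - 1) ^ 2 = v t := by
    simp only [hv, var, gmean]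
  rw [this]
  exact hvt'

/-- variance decay for bounded functions -/
theorem var_iter_le [DecidableEq Ω] (h : Chain π P) {C : ℝ} (hC : 0 < C)
    (wp : ∀ (f : Ω → ℝ) (b : ℝ), 0 ≤ b → (∀ x, 0 ≤ f x) → (∀ x, f x ≤ b) →
      (var π f) ^ 2 ≤ C * b ^ 2 * dir π P f)
    {f : Ω → ℝ} {b : ℝ} (hb : 0 < b) (hf0 : ∀ x, 0 ≤ f x) (hfb : ∀ x, f x ≤ b)
    (t : ℕ) (ht : 1 ≤ t) :
    var π ((pull P)^[t] f) ≤ C * b ^ 2 / (t + 1) := by
  set g : ℕ → Ω → ℝ := fun t => (pull P)^[t] f with hg
  have gsucc : ∀ t, g (t + 1) = pull P (g t) := by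
    intro t; simp only [hg, Function.iterate_succ_apply']
  have g0 : ∀ t x, 0 ≤ g t x ∧ g t x ≤ b := by
    intro t
    induction t with
    | zero => exact fun x => ⟨hf0 x, hfb x⟩
    | succ t ih =>
      intro x
      rw [gsucc]
      exact pull_bounds h (fun x => (ih x).1) (fun x => (ih x).2) x
  set v : ℕ → ℝ := fun t => var π (g t) with hv
  have v0 : ∀ t, 0 ≤ v t := fun t => var_nonneg h _
  have hCM : 0 < C * b ^ 2 := by positivity
  have rec' : ∀ t, (C * b ^ 2) * v (t + 1) ≤ (C * b ^ 2) * v t - (v t) ^ 2 := by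
    intro t
    have a := var_pull_le h (g t)
    rw [← gsucc] at a
    have b' := wp (g t) b hb.le (fun x => (g0 t x).1) (fun x => (g0 t x).2)
    have c := mul_le_mul_of_nonneg_left a hCM.le
    have : (C * b ^ 2) * (var π (g t) - dir π P (g t))
      = (C * b ^ 2) * v t - C * b ^ 2 * dir π P (g t) := by ring
    rw [this] at c
    linarith only [b', c]
  have hvt := recursion hCM v v0 rec' t ht
  rw [le_div_iff₀ (by positivity)]; exact hvt

theorem mean_iter (h : Chain π P) (f : Ω → ℝ) (t : ℕ) : mean π ((pull P)^[t] f) = mean π f := by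
  induction t with
  | zero => rfl
  | succ t ih => rw [Function.iterate_succ_apply', mean_pull h, ih]

/-- **Warm-start mixing, backward form.** -/
theorem warm_back [DecidableEq Ω] (h : Chain π P) {C : ℝ} (hC : 0 < C)
    (wp : ∀ (f : Ω → ℝ) (b : ℝ), 0 ≤ b → (∀ x, 0 ≤ f x) → (∀ x, f x ≤ b) →
      (var π f) ^ 2 ≤ C * b ^ 2 * dir π P f)
    {μ : Ω → ℝ} (hμ0 : ∀ x, 0 ≤ μ x) (hμ1 : ∑ x, μ x = 1) {M : ℝ}
    (hμM : ∀ x, μ x ≤ M * π x)
    {f : Ω → ℝ} {b : ℝ} (hb : 0 < b) (hf0 : ∀ x, 0 ≤ f x) (hfb : ∀ x, f x ≤ b)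
    (t : ℕ) (ht : 1 ≤ t) :
    |∑ x, μ x * (pull P)^[t] f x - mean π f| ≤ M * Real.sqrt (C * b ^ 2 / (t + 1)) := by
  set g := (pull P)^[t] f with hg
  have hv := var_iter_le h hC wp hb hf0 hfb t ht
  rw [← hg] at hv
  have hM : 0 ≤ M := by
    have : (1:ℝ) ≤ M := by
      calc (1:ℝ) = ∑ x, μ x := hμ1.symm
        _ ≤ ∑ x, M * π x := sum_le_sum fun x _ => hμM x
        _ = M := by rw [← mul_sum, h.sum_one, mul_one]
    linarith only [this]
  have hm : mean π g = mean π f := mean_iter h f t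
  have e : ∑ x, μ x * g x - mean π f = ∑ x, μ x * (g x - mean π f) := by
    simp only [mul_sub, sum_sub_distrib, ← sum_mul, hμ1, one_mul]
  rw [e]
  have s1 : |∑ x, μ x * (g x - mean π f)| ≤ M * ∑ x, π x * |g x - mean π f| := by
    refine (abs_sum_le_sum_abs _ _).trans ?_
    rw [mul_sum]
    refine sum_le_sum fun x _ => ?_
    rw [abs_mul, abs_of_nonneg (hμ0 x), ← mul_assoc]
    exact mul_le_mul_of_nonneg_right (hμM x) (abs_nonneg _)
  refine s1.trans (mul_le_mul_of_nonneg_left ?_ hM)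
  refine Real.le_sqrt_of_sq_le ?_
  have cs := sum_mul_sq_le_sq_mul_sq univ (fun x => Real.sqrt (π x))
      (fun x => Real.sqrt (π x) * |g x - mean π f|)
  have e2 : ∀ x, Real.sqrt (π x) * (Real.sqrt (π x) * |g x - mean π f|)
      = π x * |g x - mean π f| := by
    intro x; rw [← mul_assoc, Real.mul_self_sqrt (h.pos x).le]
  have e3 : ∀ x, Real.sqrt (π x) ^ 2 = π x := fun x => Real.sq_sqrt (h.pos x).le
  have e4 : ∀ x, (Real.sqrt (π x) * |g x - mean π f|) ^ 2 = π x * (g x - mean π f) ^ 2 := by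
    intro x; rw [mul_pow, e3, sq_abs]
  simp only [e2, e3, e4, h.sum_one, one_mul] at cs
  refine cs.trans ?_
  have : ∑ x, π x * (g x - mean π f) ^ 2 = var π g := by
    simp only [var, hm]
  rw [this]
  exact hv

end Vale.Agent.P317.WarmMix
end

section

/-!
# The window chain (part B): hub potentials and the weak Poincare inequality
-/

namespace Vale.Agent.P317.Window

open Finset

variable {V : Type*} [Fintype V] [DecidableEq V]

/-- exchange `x` for `y` -/
def exch (Z : Finset (V × Bool)) (x y : V × Bool) : Finset (V × Bool) := insert y (Z.erase x)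

omit [Fintype V] in
theorem exch_iff {Z Z' : Finset (V × Bool)} {x y : V × Bool} :
    (x ∈ Z ∧ y ∉ Z ∧ exch Z x y = Z') ↔ (y ∈ Z' ∧ x ∉ Z' ∧ exch Z' y x = Z) := by
  constructor
  · rintro ⟨hx, hy, rfl⟩
    have hxy : x ≠ y := fun h => hy (h ▸ hx)
    refine ⟨by simp [exch], by simp [exch, hxy], ?_⟩
    ext e
    simp only [exch, mem_insert, mem_erase]
    constructor
    · rintro (rfl | ⟨h1, h2 | ⟨_, h3⟩⟩)
      · exact hx
      · exact absurd h2 h1
      · exact h3
    · intro he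
      by_cases h : e = x
      · exact Or.inl h
      · exact Or.inr ⟨fun h' => hy (h' ▸ he), Or.inr ⟨h, he⟩⟩
  · rintro ⟨hy, hx, rfl⟩
    have hxy : x ≠ y := fun h => hx (h ▸ hy)
    refine ⟨by simp [exch], by simp [exch, hxy.symm], ?_⟩
    ext e
    simp only [exch, mem_insert, mem_erase]
    constructor
    · rintro (rfl | ⟨h1, h2 | ⟨_, h3⟩⟩)
      · exact hy
      · exact absurd h2 h1
      · exact h3
    · intro he
      by_cases h : e = y
      · exact Or.inl h
      · exact Or.inr ⟨fun h' => hx (h' ▸ he), Or.inr ⟨h, he⟩⟩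

/-- number of exchanges leading from `Z` to `Z'` -/
def cnt (Z Z' : Finset (V × Bool)) : ℝ :=
  ∑ x, ∑ y, if x ∈ Z ∧ y ∉ Z ∧ exch Z x y = Z' then 1 else 0

theorem cnt_comm (Z Z' : Finset (V × Bool)) : cnt Z Z' = cnt Z' Z := by
  unfold cnt
  rw [sum_comm]
  refine sum_congr rfl fun y _ => sum_congr rfl fun x _ => ?_
  rw [if_congr (exch_iff (x := x) (y := y)) rfl rfl]

theorem cnt_nonneg (Z Z' : Finset (V × Bool)) : 0 ≤ cnt Z Z' :=
  sum_nonneg fun _ _ => sum_nonneg fun _ _ => by split_ifs <;> norm_num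

theorem cnt_self (Z : Finset (V × Bool)) : cnt Z Z = 0 := by
  unfold cnt
  refine sum_eq_zero fun x _ => sum_eq_zero fun y _ => ?_
  rw [if_neg]
  rintro ⟨_, hy, h⟩
  apply hy
  rw [← h]; simp [exch]

theorem one_le_cnt {T : Finset (V × Bool)} {x y : V × Bool} (hx : x ∉ T) (hy : y ∉ T)
    (hxy : x ≠ y) : 1 ≤ cnt (insert x T) (insert y T) := by
  unfold cnt
  have h : x ∈ insert x T ∧ y ∉ insert x T ∧ exch (insert x T) x y = insert y T := by
    refine ⟨mem_insert_self _ _, ?_, ?_⟩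
    · simp [hy, hxy.symm]
    · simp [exch, erase_insert hx]
  have nn : ∀ x' y' : V × Bool, (0:ℝ) ≤
      (if x' ∈ insert x T ∧ y' ∉ insert x T ∧ exch (insert x T) x' y' = insert y T
        then 1 else 0) := fun _ _ => by split_ifs <;> norm_num
  calc (1:ℝ) = (if x ∈ insert x T ∧ y ∉ insert x T ∧ exch (insert x T) x y = insert y T
        then 1 else 0) := by rw [if_pos h]
    _ ≤ ∑ y', (if x ∈ insert x T ∧ y' ∉ insert x T ∧ exch (insert x T) x y' = insert y T
        then 1 else 0) := single_le_sum (f := fun y' => (if x ∈ insert x T ∧ y' ∉ insert x T ∧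
          exch (insert x T) x y' = insert y T then (1:ℝ) else 0)) (fun y' _ => nn x y')
          (mem_univ y)
    _ ≤ _ := single_le_sum (f := fun x' => ∑ y', (if x' ∈ insert x T ∧ y' ∉ insert x T ∧
          exch (insert x T) x' y' = insert y T then (1:ℝ) else 0))
          (fun x' _ => sum_nonneg fun y' _ => nn x' y') (mem_univ x)

theorem cnt_sum_le (Z : Finset (V × Bool)) (s : Finset (Finset (V × Bool))) :
    ∑ Z' ∈ s, cnt Z Z' ≤ (Z.card : ℝ) * (Zᶜ.card : ℝ) := by
  unfold cnt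
  rw [sum_comm]
  have : ∀ x, ∑ Z' ∈ s, ∑ y, (if x ∈ Z ∧ y ∉ Z ∧ exch Z x y = Z' then (1:ℝ) else 0)
      ≤ ∑ y, if x ∈ Z ∧ y ∉ Z then 1 else 0 := by
    intro x
    rw [sum_comm]
    refine sum_le_sum fun y _ => ?_
    by_cases h : x ∈ Z ∧ y ∉ Z
    · rw [if_pos h]
      have : ∀ Z' ∈ s, (if x ∈ Z ∧ y ∉ Z ∧ exch Z x y = Z' then (1:ℝ) else 0)
          = if exch Z x y = Z' then 1 else 0 := by
        intro Z' _
        refine if_congr ?_ rfl rfl
        exact ⟨fun hh => hh.2.2, fun hh => ⟨h.1, h.2, hh⟩⟩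
      rw [sum_congr rfl this, sum_ite_eq]
      split_ifs <;> norm_num
    · rw [if_neg h]
      refine (sum_eq_zero fun Z' _ => ?_).le
      rw [if_neg]
      exact fun hh => h ⟨hh.1, hh.2.1⟩
  refine (sum_le_sum fun x _ => this x).trans ?_
  have e : ∑ x : V × Bool, ∑ y : V × Bool, (if x ∈ Z ∧ y ∉ Z then (1:ℝ) else 0)
      = ∑ x ∈ Z, ∑ y ∈ Zᶜ, (1:ℝ) := by
    rw [← sum_filter_add_sum_filter_not univ (fun x => x ∈ Z)]
    have z : ∑ x ∈ univ.filter (fun x => x ∉ Z), ∑ y : V × Bool,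
        (if x ∈ Z ∧ y ∉ Z then (1:ℝ) else 0) = 0 := by
      refine sum_eq_zero fun x hx => sum_eq_zero fun y _ => ?_
      rw [if_neg]
      exact fun hh => (mem_filter.1 hx).2 hh.1
    rw [z, add_zero]
    have : univ.filter (fun x => x ∈ Z) = Z := by ext; simp only [subset_univ, filter_mem_eq_of_subset]
    rw [this]
    refine sum_congr rfl fun x hx => ?_
    have : Zᶜ = univ.filter (fun y => y ∉ Z) := by ext; simp only [mem_compl, mem_filter, mem_univ, true_and]
    rw [this, sum_filter]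
    refine sum_congr rfl fun y _ => ?_
    simp [hx]
  rw [e]
  simp

/-! ### cardinality of window states -/

theorem card_eq_sum (Z : Finset (V × Bool)) :
    Z.card = ∑ k : V, ((if (k, false) ∈ Z then 1 else 0) + (if (k, true) ∈ Z then 1 else 0)) := by
  have : Z.card = ∑ e : V × Bool, if e ∈ Z then 1 else 0 := by
    rw [← sum_filter]; simp only [subset_univ, filter_mem_eq_of_subset, sum_const, smul_eq_mul, mul_one]
  rw [this, Fintype.sum_prod_type]
  refine sum_congr rfl fun k _ => ?_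
  rw [Fintype.sum_bool, add_comm]

theorem card_of_isCol {Z : Finset (V × Bool)} (h : IsCol Z) : Z.card = Fintype.card V := by
  rw [card_eq_sum]
  have : ∀ k : V, ((if (k, false) ∈ Z then 1 else 0) + (if (k, true) ∈ Z then 1 else 0)) = 1 := by
    intro k
    have := h k
    by_cases h1 : (k, true) ∈ Z
    · have h2 : (k, false) ∉ Z := fun h3 => (this.1 h3) h1
      simp [h1, h2]
    · have h2 : (k, false) ∈ Z := this.2 h1
      simp [h1, h2]
  rw [sum_congr rfl fun k _ => this k]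
  simp only [sum_const, card_univ, smul_eq_mul, mul_one]

omit [Fintype V] [DecidableEq V] in
theorem IsNear.ne {i j : V} {Z : Finset (V × Bool)} (h : IsNear i j Z) : i ≠ j := by
  rintro rfl
  exact h.2.2.1 h.1

theorem card_of_isNear {i j : V} {Z : Finset (V × Bool)} (h : IsNear i j Z) :
    Z.card = Fintype.card V := by
  have hij := h.ne
  obtain ⟨h1, h2, h3, h4, h5⟩ := h
  rw [card_eq_sum]
  set F : V → ℕ := fun k => (if (k, false) ∈ Z then 1 else 0) + (if (k, true) ∈ Z then 1 else 0)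
    with hF
  have Fi : F i = 2 := by simp [hF, h1, h2]
  have Fj : F j = 0 := by simp [hF, h3, h4]
  have Fk : ∀ k ∈ (univ.erase i).erase j, F k = 1 := by
    intro k hk
    have hkj : k ≠ j := ne_of_mem_erase hk
    have hki : k ≠ i := ne_of_mem_erase (mem_of_mem_erase hk)
    have := h5 k hki hkj
    by_cases h1 : (k, true) ∈ Z
    · have h2 : (k, false) ∉ Z := fun h3 => (this.1 h3) h1
      simp [hF, h1, h2]
    · have h2 : (k, false) ∈ Z := this.2 h1
      simp [hF, h1, h2]
  have hj : j ∈ univ.erase i := mem_erase.2 ⟨hij.symm, mem_univ _⟩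
  change ∑ k, F k = _
  rw [← add_sum_erase univ F (mem_univ i), ← add_sum_erase _ F hj, Fi, Fj, sum_congr rfl Fk]
  simp only [sum_const, smul_eq_mul, mul_one]
  rw [card_erase_of_mem hj, card_erase_of_mem (mem_univ i), card_univ]
  have : 1 < Fintype.card V := Fintype.one_lt_card_iff.2 ⟨i, j, hij⟩
  omega

theorem mem_Win {S : Finset (V × Bool)} : S ∈ Win V ↔ IsCol S ∨ ∃ i j, IsNear i j S := by
  simp only [Win, mem_filter, mem_univ, true_and]

theorem card_of_mem_Win {Z : Finset (V × Bool)} (h : Z ∈ Win V) : Z.card = Fintype.card V := by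
  rcases mem_Win.1 h with h | ⟨i, j, h⟩
  · exact card_of_isCol h
  · exact card_of_isNear h

theorem card_compl_of_mem_Win {Z : Finset (V × Bool)} (h : Z ∈ Win V) :
    Zᶜ.card = Fintype.card V := by
  rw [card_compl, card_of_mem_Win h, Fintype.card_prod, Fintype.card_bool]
  omega

/-! ### the decomposition of the window into types -/

theorem sum_Win (g : Finset (V × Bool) → ℝ) :
    ∑ Z ∈ Win V, g Z = ∑ Z ∈ Om0 V, g Z
      + ∑ p ∈ (univ : Finset (V × V)).filter (fun p => p.1 ≠ p.2), ∑ Z ∈ Om p.1 p.2, g Z := by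
  have hdis : ∀ p ∈ (univ : Finset (V × V)).filter (fun p => p.1 ≠ p.2),
      ∀ q ∈ (univ : Finset (V × V)).filter (fun p => p.1 ≠ p.2), p ≠ q →
      Disjoint (Om p.1 p.2) (Om q.1 q.2) := by
    rintro ⟨i, j⟩ _ ⟨i', j'⟩ _ hne
    rw [disjoint_left]
    intro Z hZ hZ'
    rw [mem_Om] at hZ hZ'
    apply hne
    obtain ⟨h1, h2, h3, h4, h5⟩ := hZ
    obtain ⟨h1', h2', h3', h4', h5'⟩ := hZ'
    simp only at *
    have ei : i = i' := by
      by_contra hii
      by_cases hij' : i = j'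
      · subst hij'; exact h3' h1
      · exact ((h5' i hii hij').1 h1) h2
    have ej : j = j' := by
      by_contra hjj
      by_cases hji' : j = i'
      · subst hji'; exact h3 h1'
      · exact h3 ((h5' j hji' hjj).2 h4)
    rw [ei, ej]
  rw [← sum_biUnion hdis, ← sum_union]
  · refine sum_congr ?_ fun _ _ => rfl
    ext Z
    simp only [mem_Win, mem_union, mem_Om0, mem_biUnion, mem_filter, mem_univ, true_and, mem_Om]
    constructor
    · rintro (h | ⟨i, j, h⟩)
      · exact Or.inl h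
      · exact Or.inr ⟨(i, j), h.ne, h⟩
    · rintro (h | ⟨⟨i, j⟩, _, h⟩)
      · exact Or.inl h
      · exact Or.inr ⟨i, j, h⟩
  · rw [disjoint_left]
    intro Z hZ hZ'
    simp only [mem_biUnion, mem_filter, mem_univ, true_and, mem_Om] at hZ'
    obtain ⟨⟨i, j⟩, _, h⟩ := hZ'
    rw [mem_Om0] at hZ
    exact ((hZ i).1 h.1) h.2.1

theorem Om0_subset_Win : Om0 V ⊆ Win V := by
  intro Z hZ
  rw [mem_Om0] at hZ
  exact mem_Win.2 (Or.inl hZ)

theorem Om_subset_Win (i j : V) : Om i j ⊆ Win V := by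
  intro Z hZ
  rw [mem_Om] at hZ
  exact mem_Win.2 (Or.inr ⟨i, j, hZ⟩)

/-! ### exchange energy and hub potentials -/

/-- exchange energy -/
noncomputable def BB (π f : Finset (V × Bool) → ℝ) : ℝ :=
  ∑ Z ∈ Win V, ∑ Z' ∈ Win V, cnt Z Z' * min (π Z) (π Z') * (f Z - f Z') ^ 2

theorem exists_hub (π f : Finset (V × Bool) → ℝ) (hπ : ∀ Z ∈ Win V, 0 < π Z) {b : ℝ} (hb : 0 ≤ b)
    (hf : ∀ Z, 0 ≤ f Z ∧ f Z ≤ b) :
    ∃ u : Finset (V × Bool) → ℝ, (∀ T, 0 ≤ u T ∧ u T ≤ b) ∧
      ∀ (T : Finset (V × Bool)) (x : V × Bool), x ∉ T → insert x T ∈ Win V →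
        π (insert x T) * (f (insert x T) - u T) ^ 2 ≤
          ∑ Z' ∈ Win V, cnt (insert x T) Z' * min (π (insert x T)) (π Z') *
            (f (insert x T) - f Z') ^ 2 := by
  classical
  have ex : ∀ T : Finset (V × Bool), ∃ v : ℝ, (0 ≤ v ∧ v ≤ b) ∧
      ∀ x : V × Bool, x ∉ T → insert x T ∈ Win V →
        π (insert x T) * (f (insert x T) - v) ^ 2 ≤
          ∑ Z' ∈ Win V, cnt (insert x T) Z' * min (π (insert x T)) (π Z') *
            (f (insert x T) - f Z') ^ 2 := by
    intro T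
    set s : Finset (V × Bool) := univ.filter (fun x => x ∉ T ∧ insert x T ∈ Win V) with hs
    rcases s.eq_empty_or_nonempty with he | hne
    · refine ⟨0, ⟨le_rfl, hb⟩, fun x hx hxT => ?_⟩
      have : x ∈ s := by rw [hs]; simp only [mem_filter, mem_univ, hx, not_false_eq_true, hxT, and_self]
      rw [he] at this; simp at this
    · obtain ⟨y, hy, hmax⟩ := exists_max_image s (fun x => π (insert x T)) hne
      rw [hs, mem_filter] at hy
      refine ⟨f (insert y T), hf _, fun x hx hxT => ?_⟩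
      have hxs : x ∈ s := by rw [hs]; simp only [mem_filter, mem_univ, hx, not_false_eq_true, hxT, and_self]
      have hle := hmax x hxs
      have nn : ∀ Z' ∈ Win V, 0 ≤ cnt (insert x T) Z' * min (π (insert x T)) (π Z') *
            (f (insert x T) - f Z') ^ 2 := fun Z' hZ' =>
        mul_nonneg (mul_nonneg (cnt_nonneg _ _) (le_min (hπ _ hxT).le (hπ _ hZ').le))
          (sq_nonneg _)
      by_cases hxy : x = y
      · subst hxy
        simpa only [sub_self, ne_eq, OfNat.ofNat_ne_zero, not_false_eq_true, zero_pow, mul_zero, ge_iff_le] using     sum_nonneg nn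
      · refine le_trans ?_ (single_le_sum nn hy.2.2)
        have h1 := one_le_cnt hx hy.2.1 hxy
        rw [min_eq_left hle]
        have h0 : 0 ≤ π (insert x T) * (f (insert x T) - f (insert y T)) ^ 2 :=
          mul_nonneg (hπ _ hxT).le (sq_nonneg _)
        nlinarith only [h1, h0]
  choose u hu using ex
  exact ⟨u, fun T => (hu T).1, fun T => (hu T).2⟩

theorem sum_hub_le {π f u : Finset (V × Bool) → ℝ} (hπ : ∀ Z ∈ Win V, 0 < π Z)
    (hu : ∀ (T : Finset (V × Bool)) (x : V × Bool), x ∉ T → insert x T ∈ Win V →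
        π (insert x T) * (f (insert x T) - u T) ^ 2 ≤
          ∑ Z' ∈ Win V, cnt (insert x T) Z' * min (π (insert x T)) (π Z') *
            (f (insert x T) - f Z') ^ 2)
    (s : Finset (Finset (V × Bool))) (hs : s ⊆ Win V)
    (hub : Finset (V × Bool) → Finset (V × Bool))
    (hhub : ∀ Z ∈ s, ∃ x, x ∉ hub Z ∧ insert x (hub Z) = Z) :
    ∑ Z ∈ s, π Z * (f Z - u (hub Z)) ^ 2 ≤ BB π f := by
  calc ∑ Z ∈ s, π Z * (f Z - u (hub Z)) ^ 2
      ≤ ∑ Z ∈ s, ∑ Z' ∈ Win V, cnt Z Z' * min (π Z) (π Z') * (f Z - f Z') ^ 2 := by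
        refine sum_le_sum fun Z hZ => ?_
        obtain ⟨x, hx, hxZ⟩ := hhub Z hZ
        have := hu (hub Z) x hx (by rw [hxZ]; exact hs hZ)
        rwa [hxZ] at this
    _ ≤ BB π f := by
        refine sum_le_sum_of_subset_of_nonneg hs fun Z hZ _ => sum_nonneg fun Z' hZ' => ?_
        exact mul_nonneg (mul_nonneg (cnt_nonneg _ _) (le_min (hπ _ hZ).le (hπ _ hZ').le))
          (sq_nonneg _)

omit [Fintype V] in
theorem hub_col {Z : Finset (V × Bool)} (h : IsCol Z) (k : V) :
    ∃ x, x ∉ Z \ cell k ∧ insert x (Z \ cell k) = Z := by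
  have hk := h k
  by_cases h1 : (k, true) ∈ Z
  · have h2 : (k, false) ∉ Z := fun h3 => (hk.1 h3) h1
    refine ⟨(k, true), by simp [cell], ?_⟩
    ext e
    simp only [cell, mem_insert, mem_sdiff, mem_singleton]
    constructor
    · rintro (rfl | h)
      · exact h1
      · exact h.1
    · intro he
      by_cases ht : e = (k, true)
      · exact Or.inl ht
      · refine Or.inr ⟨he, ?_⟩
        rintro (rfl | h)
        · exact h2 he
        · exact ht h
  · have h2 : (k, false) ∈ Z := hk.2 h1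
    refine ⟨(k, false), by simp [cell], ?_⟩
    ext e
    simp only [cell, mem_insert, mem_sdiff, mem_singleton]
    constructor
    · rintro (rfl | h)
      · exact h2
      · exact h.1
    · intro he
      by_cases ht : e = (k, false)
      · exact Or.inl ht
      · refine Or.inr ⟨he, ?_⟩
        rintro (h | rfl)
        · exact ht h
        · exact h1 he

/-- **Weak Poincare on the window** (function form). -/
theorem weak_poincare {W π : Finset (V × Bool) → ℝ} {m : ℝ} (hc : Cmp W π m) (h1 : I1 W)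
    (h2 : I2 W) (hπ : ∀ Z ∈ Win V, 0 < π Z) (hsum : ∑ Z ∈ Win V, π Z = 1)
    (f : Finset (V × Bool) → ℝ) {b : ℝ} (hb : 0 ≤ b) (hf : ∀ Z, 0 ≤ f Z ∧ f Z ≤ b) :
    ∃ c : ℝ, ∑ Z ∈ Win V, π Z * (f Z - c) ^ 2 ≤
      24 * (Fintype.card V : ℝ) ^ 2 * b * Real.sqrt (2 * BB π f / m) := by
  obtain ⟨u, hu1, hu2⟩ := exists_hub π f hπ hb hf
  have hBB : 0 ≤ BB π f := sum_nonneg fun Z hZ => sum_nonneg fun Z' hZ' =>
    mul_nonneg (mul_nonneg (cnt_nonneg _ _) (le_min (hπ _ hZ).le (hπ _ hZ').le)) (sq_nonneg _)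
  have hB0 : ∀ k : V, ∑ Z ∈ Om0 V, π Z * (f Z - u (Z \ cell k)) ^ 2 ≤ 2 * BB π f := by
    intro k
    have := sum_hub_le hπ hu2 (Om0 V) Om0_subset_Win (fun Z => Z \ cell k)
      (fun Z hZ => hub_col (mem_Om0.1 hZ) k)
    linarith
  have hB1 : ∀ i j : V, i ≠ j → ∑ Z ∈ Om i j, π Z *
      ((f Z - u (Z.erase (i, false))) ^ 2 + (f Z - u (Z.erase (i, true))) ^ 2) ≤ 2 * BB π f := by
    intro i j _
    have a1 := sum_hub_le hπ hu2 (Om i j) (Om_subset_Win i j) (fun Z => Z.erase (i, false))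
      (fun Z hZ => ⟨(i, false), by simp, insert_erase (mem_Om.1 hZ).1⟩)
    have a2 := sum_hub_le hπ hu2 (Om i j) (Om_subset_Win i j) (fun Z => Z.erase (i, true))
      (fun Z hZ => ⟨(i, true), by simp, insert_erase (mem_Om.1 hZ).2.1⟩)
    have : ∑ Z ∈ Om i j, π Z *
      ((f Z - u (Z.erase (i, false))) ^ 2 + (f Z - u (Z.erase (i, true))) ^ 2)
      = ∑ Z ∈ Om i j, π Z * (f Z - u (Z.erase (i, false))) ^ 2
        + ∑ Z ∈ Om i j, π Z * (f Z - u (Z.erase (i, true))) ^ 2 := by
      rw [← sum_add_distrib]; exact sum_congr rfl fun Z _ => by ring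
    rw [this]; linarith only [a1, a2]
  obtain ⟨c, _, k0, k1⟩ := var_le hc h1 h2 hb hf hu1 hB0 hB1
  refine ⟨c, ?_⟩
  set K := 24 * (Fintype.card V : ℝ) ^ 2 * b * Real.sqrt (2 * BB π f / m) with hK
  calc ∑ Z ∈ Win V, π Z * (f Z - c) ^ 2
      = ∑ Z ∈ Om0 V, π Z * (f Z - c) ^ 2
        + ∑ p ∈ (univ : Finset (V × V)).filter (fun p => p.1 ≠ p.2),
            ∑ Z ∈ Om p.1 p.2, π Z * (f Z - c) ^ 2 := sum_Win _
    _ ≤ K * ∑ Z ∈ Om0 V, π Z
        + ∑ p ∈ (univ : Finset (V × V)).filter (fun p => p.1 ≠ p.2),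
            K * ∑ Z ∈ Om p.1 p.2, π Z := by
        refine add_le_add k0 (sum_le_sum fun p hp => ?_)
        exact k1 p.1 p.2 (mem_filter.1 hp).2
    _ = K * ∑ Z ∈ Win V, π Z := by
        rw [sum_Win, mul_add]
        congr 1
        rw [mul_sum]
    _ = K := by rw [hsum, mul_one]

/-! ### the window chain -/

/-- one step of the window chain on functions; `w` is the (unnormalised) weight -/
noncomputable def op (c : ℝ) (w g : Finset (V × Bool) → ℝ) (Z : Finset (V × Bool)) : ℝ :=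
  g Z + c * ∑ x, ∑ y, if x ∈ Z ∧ y ∉ Z ∧ exch Z x y ∈ Win V then
    min 1 (w (exch Z x y) / w Z) * (g (exch Z x y) - g Z) else 0

/-- the kernel -/
noncomputable def ker (c : ℝ) (w : Finset (V × Bool) → ℝ) (Z Z' : Finset (V × Bool)) : ℝ :=
  (if Z = Z' then 1 - ∑ Z'' ∈ Win V, c * cnt Z Z'' * min 1 (w Z'' / w Z) else 0)
    + c * cnt Z Z' * min 1 (w Z' / w Z)

theorem sum_cnt_mul (Z : Finset (V × Bool)) (F : Finset (V × Bool) → ℝ) :
    ∑ Z' ∈ Win V, cnt Z Z' * F Z' =
      ∑ x, ∑ y, if x ∈ Z ∧ y ∉ Z ∧ exch Z x y ∈ Win V then F (exch Z x y) else 0 := by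
  unfold cnt
  simp only [sum_mul]
  rw [sum_comm]
  refine sum_congr rfl fun x _ => ?_
  rw [sum_comm]
  refine sum_congr rfl fun y _ => ?_
  by_cases h : x ∈ Z ∧ y ∉ Z
  · have : ∀ Z' ∈ Win V, (if x ∈ Z ∧ y ∉ Z ∧ exch Z x y = Z' then (1:ℝ) else 0) * F Z'
        = if exch Z x y = Z' then F (exch Z x y) else 0 := by
      intro Z' _
      by_cases h' : exch Z x y = Z'
      · rw [if_pos ⟨h.1, h.2, h'⟩, if_pos h', one_mul, h']
      · rw [if_neg (fun hh => h' hh.2.2), if_neg h', zero_mul]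
    rw [sum_congr rfl this, sum_ite_eq]
    by_cases h' : exch Z x y ∈ Win V
    · rw [if_pos h', if_pos ⟨h.1, h.2, h'⟩]
    · rw [if_neg h', if_neg (fun hh => h' hh.2.2)]
  · rw [if_neg (fun hh => h ⟨hh.1, hh.2.1⟩)]
    refine sum_eq_zero fun Z' _ => ?_
    rw [if_neg (fun hh => h ⟨hh.1, hh.2.1⟩), zero_mul]

theorem sum_ker_mul {c : ℝ} {w : Finset (V × Bool) → ℝ} (g : Finset (V × Bool) → ℝ)
    {Z : Finset (V × Bool)} (hZ : Z ∈ Win V) :
    ∑ Z' ∈ Win V, ker c w Z Z' * g Z' = op c w g Z := by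
  unfold ker op
  have h1 : ∀ Z' ∈ Win V, ((if Z = Z' then 1 - ∑ Z'' ∈ Win V, c * cnt Z Z'' * min 1 (w Z'' / w Z)
      else 0) + c * cnt Z Z' * min 1 (w Z' / w Z)) * g Z'
      = (if Z = Z' then (1 - ∑ Z'' ∈ Win V, c * cnt Z Z'' * min 1 (w Z'' / w Z)) * g Z else 0)
        + c * (cnt Z Z' * (min 1 (w Z' / w Z) * g Z')) := by
    intro Z' _
    by_cases h : Z = Z'
    · subst h; simp only [if_true]; ring
    · simp only [if_neg h]; ring
  rw [sum_congr rfl h1, sum_add_distrib, sum_ite_eq, if_pos hZ, ← mul_sum,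
    ← sum_cnt_mul Z (fun Z' => min 1 (w Z' / w Z) * (g Z' - g Z))]
  have h2 : ∑ Z'' ∈ Win V, c * cnt Z Z'' * min 1 (w Z'' / w Z)
      = c * ∑ Z'' ∈ Win V, cnt Z Z'' * min 1 (w Z'' / w Z) := by
    rw [mul_sum]; exact sum_congr rfl fun _ _ => by ring
  have h3 : ∑ Z' ∈ Win V, cnt Z Z' * (min 1 (w Z' / w Z) * (g Z' - g Z))
      = ∑ Z' ∈ Win V, cnt Z Z' * (min 1 (w Z' / w Z) * g Z')
        - (∑ Z'' ∈ Win V, cnt Z Z'' * min 1 (w Z'' / w Z)) * g Z := by
    rw [sum_mul, ← sum_sub_distrib]; exact sum_congr rfl fun _ _ => by ring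
  rw [h2, h3]; ring

/-- bound for the total rate of moves -/
theorem rate_le {c : ℝ} (hc : 0 < c) {w : Finset (V × Bool) → ℝ}
    {Z : Finset (V × Bool)} (hZ : Z ∈ Win V) :
    ∑ Z'' ∈ Win V, c * cnt Z Z'' * min 1 (w Z'' / w Z) ≤ c * (Fintype.card V : ℝ) ^ 2 := by
  calc ∑ Z'' ∈ Win V, c * cnt Z Z'' * min 1 (w Z'' / w Z)
      ≤ ∑ Z'' ∈ Win V, c * cnt Z Z'' := by
        refine sum_le_sum fun Z' _ => ?_
        exact mul_le_of_le_one_right (mul_nonneg hc.le (cnt_nonneg _ _)) (min_le_left _ _)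
    _ = c * ∑ Z'' ∈ Win V, cnt Z Z'' := by rw [mul_sum]
    _ ≤ c * ((Z.card : ℝ) * (Zᶜ.card : ℝ)) := mul_le_mul_of_nonneg_left (cnt_sum_le _ _) hc.le
    _ = _ := by rw [card_of_mem_Win hZ, card_compl_of_mem_Win hZ]; ring

theorem mul_min_div {a b : ℝ} (ha : 0 < a) : a * min 1 (b / a) = min a b := by
  rw [mul_min_of_nonneg _ _ ha.le, mul_one, mul_div_cancel₀ _ ha.ne']

/-- the chain on the window -/
theorem chain {c : ℝ} (hc : 0 < c) (hc2 : c * (Fintype.card V : ℝ) ^ 2 ≤ 1 / 2)
    {w : Finset (V × Bool) → ℝ} (hw : ∀ Z ∈ Win V, 0 < w Z) :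
    WarmMix.Chain (Ω := {Z // Z ∈ Win V}) (fun Z => w Z.1 / ∑ Z' ∈ Win V, w Z')
      (fun Z Z' => ker c w Z.1 Z'.1) where
  pos := fun Z => div_pos (hw _ Z.2) (sum_pos hw ⟨Z.1, Z.2⟩)
  sum_one := by
    rw [sum_coe_sort (Win V) (fun Z => w Z / ∑ Z' ∈ Win V, w Z'), ← sum_div]
    have hne : (Win V).Nonempty := by
      refine ⟨univ.image (fun k : V => (k, true)), mem_Win.2 (Or.inl fun k => ?_)⟩
      simp only [mem_image, mem_univ, Prod.mk.injEq, Bool.true_eq_false, and_false, exists_false, and_true, true_and, exists_eq, not_true_eq_false]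
    exact div_self (sum_pos hw hne).ne'
  nonneg := by
    intro Z Z'
    have h2 : 0 ≤ c * cnt Z.1 Z'.1 * min 1 (w Z'.1 / w Z.1) :=
      mul_nonneg (mul_nonneg hc.le (cnt_nonneg _ _))
        (le_min zero_le_one (div_nonneg (hw _ Z'.2).le (hw _ Z.2).le))
    unfold ker
    split_ifs with h
    · have := rate_le hc (w := w) Z.2
      linarith only [hc2, h2, this]
    · linarith only [h2]
  row := by
    intro Z
    rw [sum_coe_sort (Win V) (fun Z' => ker c w Z.1 Z')]
    unfold ker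
    rw [sum_add_distrib, sum_ite_eq, if_pos Z.2]
    ring
  rev := by
    intro Z Z'
    have hZ := hw _ Z.2
    have hZ' := hw _ Z'.2
    have key : w Z.1 * ker c w Z.1 Z'.1 = w Z'.1 * ker c w Z'.1 Z.1 := by
      by_cases h : Z.1 = Z'.1
      · rw [h]
      · unfold ker
        rw [if_neg h, if_neg (Ne.symm h), zero_add, zero_add, cnt_comm Z'.1 Z.1]
        have e1 : w Z.1 * (c * cnt Z.1 Z'.1 * min 1 (w Z'.1 / w Z.1))
            = c * cnt Z.1 Z'.1 * (w Z.1 * min 1 (w Z'.1 / w Z.1)) := by ring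
        have e2 : w Z'.1 * (c * cnt Z.1 Z'.1 * min 1 (w Z.1 / w Z'.1))
            = c * cnt Z.1 Z'.1 * (w Z'.1 * min 1 (w Z.1 / w Z'.1)) := by ring
        rw [e1, e2, mul_min_div hZ, mul_min_div hZ', min_comm]
    calc w Z.1 / (∑ Z' ∈ Win V, w Z') * ker c w Z.1 Z'.1
        = (w Z.1 * ker c w Z.1 Z'.1) / ∑ Z' ∈ Win V, w Z' := by ring
      _ = (w Z'.1 * ker c w Z'.1 Z.1) / ∑ Z' ∈ Win V, w Z' := by rw [key]
      _ = _ := by ring
  lazy := by
    intro Z
    unfold ker
    rw [if_pos rfl, cnt_self]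
    have := rate_le hc (w := w) Z.2
    linarith

/-- Dirichlet form of the window chain -/
theorem dir_eq {c : ℝ} {w : Finset (V × Bool) → ℝ} (hw : ∀ Z ∈ Win V, 0 < w Z)
    (f : Finset (V × Bool) → ℝ) :
    WarmMix.dir (Ω := {Z // Z ∈ Win V}) (fun Z => w Z.1 / ∑ Z' ∈ Win V, w Z')
      (fun Z Z' => ker c w Z.1 Z'.1) (fun Z => f Z.1)
      = c / 2 * BB (fun Z => w Z / ∑ Z' ∈ Win V, w Z') f := by
  set N := ∑ Z' ∈ Win V, w Z' with hN
  have hne : (Win V).Nonempty := by
    refine ⟨univ.image (fun k : V => (k, true)), mem_Win.2 (Or.inl fun k => ?_)⟩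
    simp only [mem_image, mem_univ, Prod.mk.injEq, Bool.true_eq_false, and_false, exists_false, and_true, true_and, exists_eq, not_true_eq_false]
  have hNpos : 0 < N := sum_pos hw hne
  unfold WarmMix.dir BB
  have e1 : ∀ Z : {Z // Z ∈ Win V}, ∑ Z' : {Z // Z ∈ Win V},
      w Z.1 / N * ker c w Z.1 Z'.1 * (f Z.1 - f Z'.1) ^ 2
      = c * ∑ Z' ∈ Win V, cnt Z.1 Z' * min (w Z.1 / N) (w Z' / N) * (f Z.1 - f Z') ^ 2 := by
    intro Z
    rw [sum_coe_sort (Win V) (fun Z' => w Z.1 / N * ker c w Z.1 Z' * (f Z.1 - f Z') ^ 2), mul_sum]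
    refine sum_congr rfl fun Z' hZ' => ?_
    by_cases h : Z.1 = Z'
    · rw [h]; simp only [sub_self, ne_eq, OfNat.ofNat_ne_zero, not_false_eq_true, zero_pow, mul_zero, min_self]
    · unfold ker
      rw [if_neg h, zero_add]
      have hZ := hw _ Z.2
      have : w Z.1 / N * (c * cnt Z.1 Z' * min 1 (w Z' / w Z.1))
          = c * (cnt Z.1 Z' * min (w Z.1 / N) (w Z' / N)) := by
        have e : min (w Z.1 / N) (w Z' / N) = w Z.1 * min 1 (w Z' / w Z.1) / N := by
          rw [mul_min_div hZ, min_div_div_right hNpos.le]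
        rw [e]; ring
      rw [this]; ring
  simp only [e1]
  rw [← mul_sum, sum_coe_sort (Win V) (fun Z => ∑ Z' ∈ Win V,
    cnt Z Z' * min (w Z / N) (w Z' / N) * (f Z - f Z') ^ 2)]
  ring

/-- the weak Poincare constant -/
noncomputable def CW (V : Type*) [Fintype V] (c m : ℝ) : ℝ :=
  2304 * (Fintype.card V : ℝ) ^ 4 / (c * m)

/-- **Weak Poincare for the window chain.** -/
theorem chain_wp {W w : Finset (V × Bool) → ℝ} {m c : ℝ} (hc : 0 < c)
    (hw : ∀ Z ∈ Win V, 0 < w Z) (hcmp : Cmp W (fun Z => w Z / ∑ Z' ∈ Win V, w Z') m)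
    (h1 : I1 W) (h2 : I2 W) (f : {Z // Z ∈ Win V} → ℝ) (b : ℝ) (hb : 0 ≤ b)
    (hf0 : ∀ x, 0 ≤ f x) (hfb : ∀ x, f x ≤ b) :
    (WarmMix.var (fun Z => w Z.1 / ∑ Z' ∈ Win V, w Z') f) ^ 2 ≤
      CW V c m * b ^ 2 * WarmMix.dir (fun Z => w Z.1 / ∑ Z' ∈ Win V, w Z')
        (fun Z Z' => ker c w Z.1 Z'.1) f := by
  classical
  set N := ∑ Z' ∈ Win V, w Z' with hN
  have hne : (Win V).Nonempty := by
    refine ⟨univ.image (fun k : V => (k, true)), mem_Win.2 (Or.inl fun k => ?_)⟩
    simp only [mem_image, mem_univ, Prod.mk.injEq, Bool.true_eq_false, and_false, exists_false, and_true, true_and, exists_eq, not_true_eq_false]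
  have hNpos : 0 < N := sum_pos hw hne
  set F : Finset (V × Bool) → ℝ := fun Z => if h : Z ∈ Win V then f ⟨Z, h⟩ else 0 with hF
  have hfF : f = fun Z => F Z.1 := by
    funext Z; simp only [hF]; rw [dif_pos Z.2]
  have hFb : ∀ Z, 0 ≤ F Z ∧ F Z ≤ b := by
    intro Z
    simp only [hF]
    split_ifs with h
    · exact ⟨hf0 _, hfb _⟩
    · exact ⟨le_rfl, hb⟩
  have hπ : ∀ Z ∈ Win V, 0 < w Z / N := fun Z hZ => div_pos (hw Z hZ) hNpos
  have hs1 : ∑ Z ∈ Win V, w Z / N = 1 := by rw [← sum_div]; exact div_self hNpos.ne'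
  obtain ⟨c', hc'⟩ := weak_poincare hcmp h1 h2 hπ hs1 F hb hFb
  have hD := dir_eq (c := c) hw F
  rw [← hN] at hD
  rw [hfF, hD]
  set B := BB (fun Z => w Z / N) F with hB
  have hB0 : 0 ≤ B := sum_nonneg fun Z hZ => sum_nonneg fun Z' hZ' =>
    mul_nonneg (mul_nonneg (cnt_nonneg _ _) (le_min (hπ _ hZ).le (hπ _ hZ').le)) (sq_nonneg _)
  -- variance ≤ second moment about c'
  have hvar : WarmMix.var (fun Z : {Z // Z ∈ Win V} => w Z.1 / N) (fun Z => F Z.1)
      ≤ ∑ Z ∈ Win V, w Z / N * (F Z - c') ^ 2 := by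
    have hs1' : ∑ Z : {Z // Z ∈ Win V}, w Z.1 / N = 1 := by
      rw [sum_coe_sort (Win V) (fun Z => w Z / N)]; exact hs1
    unfold WarmMix.var
    set μ := WarmMix.mean (fun Z : {Z // Z ∈ Win V} => w Z.1 / N) (fun Z => F Z.1) with hμ
    rw [sum_coe_sort (Win V) (fun Z => w Z / N * (F Z - μ) ^ 2)]
    have hμ' : ∑ Z ∈ Win V, w Z / N * F Z = μ := by
      rw [hμ]; unfold WarmMix.mean
      rw [sum_coe_sort (Win V) (fun Z => w Z / N * F Z)]
    have e : ∀ a : ℝ, ∑ Z ∈ Win V, w Z / N * (F Z - a) ^ 2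
        = ∑ Z ∈ Win V, w Z / N * F Z ^ 2 - 2 * a * μ + a ^ 2 := by
      intro a
      have : ∀ Z ∈ Win V, w Z / N * (F Z - a) ^ 2
          = w Z / N * F Z ^ 2 - 2 * a * (w Z / N * F Z) + a ^ 2 * (w Z / N) := fun Z _ => by ring
      rw [sum_congr rfl this, sum_add_distrib, sum_sub_distrib, ← mul_sum, ← mul_sum, hs1, hμ']
      ring
    rw [e μ, e c']
    nlinarith only [sq_nonneg (μ - c')]
  have hm := hcmp.m_pos
  have hv0 : 0 ≤ WarmMix.var (fun Z : {Z // Z ∈ Win V} => w Z.1 / N) (fun Z => F Z.1) := by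
    unfold WarmMix.var
    exact sum_nonneg fun Z _ => mul_nonneg (hπ _ Z.2).le (sq_nonneg _)
  have hfin := hvar.trans hc'
  calc (WarmMix.var (fun Z : {Z // Z ∈ Win V} => w Z.1 / N) (fun Z => F Z.1)) ^ 2
      ≤ (24 * (Fintype.card V : ℝ) ^ 2 * b * Real.sqrt (2 * B / m)) ^ 2 :=
        pow_le_pow_left₀ hv0 hfin 2
    _ = 576 * (Fintype.card V : ℝ) ^ 4 * b ^ 2 * (2 * B / m) := by
        rw [mul_pow, Real.sq_sqrt (by (clear * - hB0 hm; positivity))]; ring
    _ = CW V c m * b ^ 2 * (c / 2 * B) := by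
        unfold CW
        field_simp
        ring

theorem iter_op {c : ℝ} {w : Finset (V × Bool) → ℝ} (g : Finset (V × Bool) → ℝ) (t : ℕ) :
    (WarmMix.pull (fun Z Z' : {Z // Z ∈ Win V} => ker c w Z.1 Z'.1))^[t] (fun Z => g Z.1)
      = fun Z => ((op c w)^[t] g) Z.1 := by
  induction t with
  | zero => rfl
  | succ t ih =>
    rw [Function.iterate_succ_apply', ih, Function.iterate_succ_apply']
    funext Z
    unfold WarmMix.pull
    rw [sum_coe_sort (Win V) (fun Z' => ker c w Z.1 Z' * ((op c w)^[t] g) Z')]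
    exact sum_ker_mul _ Z.2

theorem iter_op_bounds {c : ℝ} (hc : 0 < c) (hc2 : c * (Fintype.card V : ℝ) ^ 2 ≤ 1 / 2)
    {w : Finset (V × Bool) → ℝ} (hw : ∀ Z ∈ Win V, 0 < w Z) {g : Finset (V × Bool) → ℝ} {b : ℝ}
    (hg : ∀ Z ∈ Win V, 0 ≤ g Z ∧ g Z ≤ b) (t : ℕ) :
    ∀ Z ∈ Win V, 0 ≤ ((op c w)^[t] g) Z ∧ ((op c w)^[t] g) Z ≤ b := by
  have hch := chain hc hc2 hw
  have : ∀ Z : {Z // Z ∈ Win V}, 0 ≤ ((WarmMix.pull (fun Z Z' : {Z // Z ∈ Win V} =>
      ker c w Z.1 Z'.1))^[t] (fun Z => g Z.1)) Z ∧ ((WarmMix.pull (fun Z Z' : {Z // Z ∈ Win V} =>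
      ker c w Z.1 Z'.1))^[t] (fun Z => g Z.1)) Z ≤ b := by
    induction t with
    | zero => exact fun Z => hg _ Z.2
    | succ t ih =>
      intro Z
      rw [Function.iterate_succ_apply']
      exact WarmMix.pull_bounds hch (fun Z => (ih Z).1) (fun Z => (ih Z).2) Z
  intro Z hZ
  have h := this ⟨Z, hZ⟩
  rw [iter_op] at h
  exact h

/-- **Warm start bound for the window chain**, backward form. -/
theorem window_warm {W w : Finset (V × Bool) → ℝ} {m c : ℝ} (hc : 0 < c)
    (hc2 : c * (Fintype.card V : ℝ) ^ 2 ≤ 1 / 2)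
    (hw : ∀ Z ∈ Win V, 0 < w Z) (hcmp : Cmp W (fun Z => w Z / ∑ Z' ∈ Win V, w Z') m)
    (h1 : I1 W) (h2 : I2 W) (hV : 0 < Fintype.card V)
    {μ : Finset (V × Bool) → ℝ} (hμ0 : ∀ Z ∈ Win V, 0 ≤ μ Z) (hμ1 : ∑ Z ∈ Win V, μ Z = 1)
    {M : ℝ} (hμM : ∀ Z ∈ Win V, μ Z ≤ M * (w Z / ∑ Z' ∈ Win V, w Z'))
    {g : Finset (V × Bool) → ℝ} (hg : ∀ Z ∈ Win V, 0 ≤ g Z ∧ g Z ≤ 1) (t : ℕ) (ht : 1 ≤ t) :
    |∑ Z ∈ Win V, μ Z * ((op c w)^[t] g) Z - (∑ Z ∈ Win V, w Z * g Z) / ∑ Z ∈ Win V, w Z|
      ≤ M * Real.sqrt (CW V c m / (t + 1)) := by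
  classical
  have hch := chain hc hc2 hw
  have hm := hcmp.m_pos
  have hCW : 0 < CW V c m := by
    unfold CW
    have : (0:ℝ) < Fintype.card V := by exact_mod_cast hV
    positivity
  have hμ1' : ∑ Z : {Z // Z ∈ Win V}, μ Z.1 = 1 := by
    rw [sum_coe_sort (Win V) (fun Z => μ Z)]; exact hμ1
  have key := WarmMix.warm_back hch hCW (chain_wp hc hw hcmp h1 h2)
    (μ := fun Z => μ Z.1) (fun Z => hμ0 _ Z.2) hμ1' (M := M) (fun Z => hμM _ Z.2)
    (f := fun Z => g Z.1) (b := 1) zero_lt_one (fun Z => (hg _ Z.2).1) (fun Z => (hg _ Z.2).2) t ht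
  rw [iter_op, one_pow, mul_one, sum_coe_sort (Win V) (fun Z => μ Z * ((op c w)^[t] g) Z)] at key
  have e : WarmMix.mean (fun Z : {Z // Z ∈ Win V} => w Z.1 / ∑ Z' ∈ Win V, w Z')
      (fun Z => g Z.1) = (∑ Z ∈ Win V, w Z * g Z) / ∑ Z ∈ Win V, w Z := by
    unfold WarmMix.mean
    rw [sum_coe_sort (Win V) (fun Z => w Z / (∑ Z' ∈ Win V, w Z') * g Z), sum_div]
    exact sum_congr rfl fun Z _ => by ring
  rw [e] at key
  exact key

end Vale.Agent.P317.Window
end

section

/-!
# P317: the Hodge-Riemann property in the transversal form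
-/

namespace Vale.Agent.P317

open Finset TL

variable {V : Type*} [Fintype V] [DecidableEq V]

/-- indicator of a cell -/
def cellv (i : V) : V × Bool → ℝ := fun x => if x.1 = i then 1 else 0

omit [Fintype V] in
theorem cellv_nonneg (i : V) (e : V × Bool) : 0 ≤ cellv i e := by
  unfold cellv; split_ifs <;> norm_num

theorem D_eq_DW (v : V × Bool → ℝ) (W : Finset (V × Bool) → ℝ) (L : List (V × Bool → ℝ))
    (S : Finset (V × Bool)) : D v (DW W L) S = DW W (v :: L) S := by
  rw [DW_cons, sum_compl_eq]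
  rfl

theorem DW_cell_cons {i : V} (W : Finset (V × Bool) → ℝ) (L : List (V × Bool → ℝ))
    (ρ : Finset (V × Bool)) (hρ : ∀ e ∈ ρ, e.1 ≠ i) :
    DW W (cellv i :: L) ρ = DW W L (insert (i, false) ρ) + DW W L (insert (i, true) ρ) := by
  have hf : ∀ b : Bool, (i, b) ∉ ρ := fun b h => hρ _ h rfl
  rw [DW_cons, sum_compl_eq, Fintype.sum_prod_type]
  rw [Finset.sum_eq_single i]
  · rw [Fintype.sum_bool, if_neg (hf true), if_neg (hf false)]
    unfold cellv
    simp [add_comm]
  · intro j _ hj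
    refine Finset.sum_eq_zero fun b _ => ?_
    unfold cellv
    simp [hj]
  · simp only [mem_univ, not_true_eq_false, Fintype.univ_bool, mem_singleton, Bool.true_eq_false, not_false_eq_true, sum_insert, sum_singleton, IsEmpty.forall_iff]

theorem DW_cells (W : Finset (V × Bool) → ℝ) (L : List (V × Bool → ℝ)) (l : List V)
    (hl : l.Nodup) (ρ : Finset (V × Bool)) (hρ : ∀ e ∈ ρ, e.1 ∉ l) :
    DW W (l.map cellv ++ L) ρ = TS l.toFinset (DW W L) ρ := by
  induction l generalizing ρ with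
  | nil => simp
  | cons i l ih =>
    rw [List.nodup_cons] at hl
    rw [List.map_cons, List.cons_append, DW_cell_cons, List.toFinset_cons,
      TS_insert (by simpa using hl.1), ih hl.2, ih hl.2]
    · intro e he
      rcases Finset.mem_insert.1 he with rfl | he
      · exact hl.1
      · intro h; exact hρ e he (by simp [h])
    · intro e he
      rcases Finset.mem_insert.1 he with rfl | he
      · exact hl.1
      · intro h; exact hρ e he (by simp [h])
    · intro e he h
      exact hρ e he (by simp [h])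

/-- The bilinear forms of `TL` are second derivatives of `DW`. -/
theorem TS_D_D_eq (W : Finset (V × Bool) → ℝ) (x y : V × Bool → ℝ) (J : Finset V)
    (ρ : Finset (V × Bool)) (hρ : ∀ e ∈ ρ, e.1 ∉ J) :
    TS J (D x (D y W)) ρ = DW W (x :: y :: J.toList.map cellv) ρ := by
  have h1 : D x (D y W) = DW W [x, y] := by
    have h2 : D y W = DW W [y] := by
      funext S
      exact D_eq_DW y W [] S
    rw [h2]
    funext S
    exact D_eq_DW x W [y] S
  rw [h1]
  have h3 := DW_cells W [x, y] J.toList J.nodup_toList ρ (fun e he h => hρ e he (by simpa using h))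
  rw [Finset.toList_toFinset] at h3
  rw [← h3]
  exact DW_perm (List.perm_append_comm) ρ

theorem TS_D_eq (W : Finset (V × Bool) → ℝ) (x : V × Bool → ℝ) (J : Finset V)
    (ρ : Finset (V × Bool)) (hρ : ∀ e ∈ ρ, e.1 ∉ J) :
    TS J (D x W) ρ = DW W (x :: J.toList.map cellv) ρ := by
  have h1 : D x W = DW W [x] := by
    funext S
    exact D_eq_DW x W [] S
  rw [h1]
  have h3 := DW_cells W [x] J.toList J.nodup_toList ρ (fun e he h => hρ e he (by simpa using h))
  rw [Finset.toList_toFinset] at h3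
  rw [← h3]
  exact DW_perm (List.perm_append_comm) ρ

theorem TS_insert_D_eq (W : Finset (V × Bool) → ℝ) (y : V × Bool → ℝ) {J : Finset V} {i : V}
    (hi : i ∉ J) (ρ : Finset (V × Bool)) (hρ : ∀ e ∈ ρ, e.1 ∉ insert i J) :
    TS (insert i J) (D y W) ρ = DW W (y :: cellv i :: J.toList.map cellv) ρ := by
  rw [TS_D_eq W y (insert i J) ρ hρ]
  refine DW_perm ?_ ρ
  refine List.Perm.cons _ ?_
  have h := (Finset.toList_insert hi).map cellv
  simpa using h

/-- **Reverse Cauchy-Schwarz** for the forms of `TL`: `x` is entrywise nonnegative, `y` is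
arbitrary. -/
theorem lorentz {r : Finset (V × Bool) → ℕ} (hr : IsRk r) {t : ℝ} (ht : 1 ≤ t) (J : Finset V)
    (ρ : Finset (V × Bool)) (hρ : ∀ e ∈ ρ, e.1 ∉ J) (x y : V × Bool → ℝ) (hx : ∀ e, 0 ≤ x e) :
    TS J (D x (D x (wt t r))) ρ * TS J (D y (D y (wt t r))) ρ ≤
      TS J (D x (D y (wt t r))) ρ ^ 2 := by
  rw [TS_D_D_eq _ _ _ _ _ hρ, TS_D_D_eq _ _ _ _ _ hρ, TS_D_D_eq _ _ _ _ _ hρ, DW_swap x y,
    mul_comm]
  refine hr_nonneg hr ht _ ?_ ρ y x hx
  intro w hw e
  obtain ⟨i, _, rfl⟩ := List.mem_map.1 hw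
  exact cellv_nonneg i e

/-- The Hodge-Riemann input of `TL.main`. -/
theorem HR_wt {r : Finset (V × Bool) → ℕ} (hr : IsRk r) {t : ℝ} (ht : 1 ≤ t) (n : ℕ) :
    HR n (wt t r) := by
  intro ρ J i y hi hρ _ h0
  have ht0 : 0 < t := by linarith only [ht]
  have hρJ : ∀ e ∈ ρ, e.1 ∉ J := fun e he h => hρ e he (Finset.mem_insert_of_mem h)
  have h1 := lorentz hr ht J ρ hρJ (cellv i) y (cellv_nonneg i)
  have h2 : TS J (D (cellv i) (D y (wt t r))) ρ = 0 := by
    rw [TS_D_D_eq _ _ _ _ _ hρJ, DW_swap, ← TS_insert_D_eq _ _ hi ρ hρ]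
    exact h0
  have h3 : 0 < TS J (D (cellv i) (D (cellv i) (wt t r))) ρ := by
    rw [TS_D_D_eq _ _ _ _ _ hρJ]
    have hρi : ∀ e ∈ ρ, e.1 ≠ i := fun e he h => hρ e he (by rw [h]; exact Finset.mem_insert_self _ _)
    have hnn : ∀ (L : List (V × Bool → ℝ)), (∀ w ∈ L, ∀ e, 0 ≤ w e) → ∀ S,
        0 ≤ DW (wt t r) L S := fun L hL S => DW_nonneg (fun S => (wt_pos ht0 r S).le) hL S
    have hJ : ∀ w ∈ J.toList.map cellv, ∀ e, (0 : ℝ) ≤ w e := by
      intro w hw e
      obtain ⟨k, _, rfl⟩ := List.mem_map.1 hw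
      exact cellv_nonneg k e
    rw [DW_cell_cons _ _ _ hρi]
    have h4 : 0 < DW (wt t r) (cellv i :: J.toList.map cellv) (insert (i, false) ρ) := by
      have h5 : DW (wt t r) (J.toList.map cellv) (insert (i, true) (insert (i, false) ρ)) ≤
          DW (wt t r) (cellv i :: J.toList.map cellv) (insert (i, false) ρ) := by
        rw [DW_cons]
        have hmem : ((i, true) : V × Bool) ∈ (insert (i, false) ρ)ᶜ := by
          rw [Finset.mem_compl, Finset.mem_insert, not_or]
          exact ⟨by simp, fun h => hρi _ h rfl⟩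
        have h6 := Finset.single_le_sum (f := fun e => cellv i e *
            DW (wt t r) (J.toList.map cellv) (insert e (insert (i, false) ρ)))
          (fun e _ => mul_nonneg (cellv_nonneg i e) (hnn _ hJ _)) hmem
        have h7 : cellv i ((i, true) : V × Bool) = 1 := by simp [cellv]
        simp only [h7, one_mul] at h6
        exact h6
      refine lt_of_lt_of_le ?_ h5
      have h8 := DW_cells (wt t r) [] J.toList J.nodup_toList
        (insert (i, true) (insert (i, false) ρ)) (by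
          intro e he h
          rw [Finset.mem_toList] at h
          rcases Finset.mem_insert.1 he with rfl | he
          · exact hi h
          rcases Finset.mem_insert.1 he with rfl | he
          · exact hi h
          · exact hρJ e he h)
      rw [List.append_nil] at h8
      rw [h8]
      exact TS_pos _ _ (fun T => wt_pos ht0 r T) _
    have h9 := hnn (cellv i :: J.toList.map cellv) (by
      intro w hw e
      rcases List.mem_cons.1 hw with rfl | hw
      · exact cellv_nonneg i e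
      · exact hJ w hw e) (insert (i, true) ρ)
    linarith only [h4, h9]
  rw [h2] at h1
  by_contra hcon
  push Not at hcon
  have := mul_pos h3 hcon
  nlinarith only [h1, this]

end Vale.Agent.P317
end

section

/-!
# (I2): the variance of a function on the transversals

Doob decomposition of the variance of `f` over the transversals of all cells, each martingale
difference being controlled by the key theorem `TL.main`.
-/

open Finset

namespace Vale.Agent.P317.TL

variable {V : Type*} [Fintype V] [DecidableEq V]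

/-- total weight of the sets with both elements of the cell `k` -/
def N2 (W : Finset (V × Bool) → ℝ) (k : V) (J : Finset V) (ρ : Finset (V × Bool)) : ℝ :=
  TS J (fun T => W (insert (k, false) (insert (k, true) T))) ρ

/-- weighted sum of `φ (f Z - u (Z ∖ cell k))` over all `Z` -/
def Gp (φ : ℝ → ℝ) (W f u : Finset (V × Bool) → ℝ) (k : V) (J : Finset V)
    (ρ : Finset (V × Bool)) : ℝ :=
  TS J (fun T => W (insert (k, false) T) * φ (f (insert (k, false) T) - u T) +
    W (insert (k, true) T) * φ (f (insert (k, true) T) - u T)) ρ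

omit [Fintype V] [DecidableEq V] in
lemma notMem_of_TS {J : Finset V} {k : V} {ρ T : Finset (V × Bool)} (hk : k ∉ J)
    (hρ : ∀ e ∈ ρ, e.1 ≠ k) (h2 : ∀ e ∈ T, e.1 ∉ J → e ∈ ρ) (b : Bool) : (k, b) ∉ T := by
  intro h
  exact hρ _ (h2 _ h hk) rfl

/-- the key theorem for the two-point direction `β δ_(k,0) - α δ_(k,1)` -/
lemma pinned {n : ℕ} {W : Finset (V × Bool) → ℝ} (hW : ∀ T, 0 < W T) (hHR : HR n W)
    (u : Finset (V × Bool) → ℝ) {J : Finset V} {k : V} {ρ : Finset (V × Bool)} (hk : k ∉ J)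
    (hρ : ∀ e ∈ ρ, e.1 ∉ insert k J) (hn : ρ.card + J.card + 1 = n) {α β : ℝ}
    (hα : α = TS J W (insert (k, false) ρ)) (hβ : β = TS J W (insert (k, true) ρ)) :
    |β * TS J (fun T => u T * W (insert (k, false) T)) ρ -
      α * TS J (fun T => u T * W (insert (k, true) T)) ρ| ≤
    ∑ i ∈ J, Real.sqrt ((α * β * N2 W k (J.erase i) ρ) * En W u i (J.erase i) ρ) := by
  have hρk : ∀ e ∈ ρ, e.1 ≠ k := fun e he h => hρ e he (h ▸ Finset.mem_insert_self _ _)
  have hρJ : ∀ e ∈ ρ, e.1 ∉ J := fun e he h => hρ e he (Finset.mem_insert_of_mem h)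
  have hne : ((k, true) : V × Bool) ≠ (k, false) := by simp
  let v : V × Bool → ℝ := fun x => (β * δ (k, false) x) + (-α) * δ (k, true) x
  have hDv : ∀ T, (∀ b, (k, b) ∉ T) →
      D v W T = β * W (insert (k, false) T) - α * W (insert (k, true) T) := by
    intro T hT
    show D (fun x => (fun x => β * δ (k, false) x) x + (fun x => (-α) * δ (k, true) x) x) W T = _
    rw [D_add, D_smul, D_smul, D_δ, D_δ, if_neg (hT _), if_neg (hT _)]
    ring
  have hDDv : ∀ T, (∀ b, (k, b) ∉ T) →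
      D v (D v W) T = -2 * (α * β) * W (insert (k, false) (insert (k, true) T)) := by
    intro T hT
    show D (fun x => (fun x => β * δ (k, false) x) x + (-α) * δ (k, true) x)
      (D (fun x => (fun x => β * δ (k, false) x) x + (-α) * δ (k, true) x) W) T = _
    rw [D_D_expand]
    have h1 : D (fun x => β * δ (k, false) x) W = fun T => β * D (δ (k, false)) W T := by
      funext T; rw [D_smul]
    rw [h1, D_fun_smul, D_fun_smul, D_smul, D_δ_δ, D_δ_δ]
    rw [D_δ, if_neg (hT _), D_δ, if_neg]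
    · ring
    · intro h
      rcases Finset.mem_insert.mp h with h | h
      · exact hne h.symm
      · exact hT _ h
  have hneu : TS J (D v W) ρ = 0 := by
    have : TS J (D v W) ρ =
        TS J (fun T => β * W (insert (k, false) T) - α * W (insert (k, true) T)) ρ := by
      refine TS_congr _ _ fun T h1 h2 => ?_
      rw [hDv _ (notMem_of_TS hk hρk h2)]
    rw [this, TS_sub, TS_mul, TS_mul, TS_pin, TS_pin, ← hα, ← hβ]
    ring
  have key := main hW hHR u J ρ v hρJ hn hneu
  have e1 : TS J (fun T => u T * D v W T) ρ =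
      β * TS J (fun T => u T * W (insert (k, false) T)) ρ -
      α * TS J (fun T => u T * W (insert (k, true) T)) ρ := by
    rw [← TS_mul, ← TS_mul, ← TS_sub]
    refine TS_congr _ _ fun T h1 h2 => ?_
    rw [hDv _ (notMem_of_TS hk hρk h2)]
    ring
  rw [e1] at key
  refine key.trans (le_of_eq (Finset.sum_congr rfl fun i hi => ?_))
  have hki : k ∉ J.erase i := fun h => hk (Finset.mem_of_mem_erase h)
  have e2 : TS (J.erase i) (D v (D v W)) ρ =
      (-2 * (α * β)) * N2 W k (J.erase i) ρ := by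
    unfold N2
    rw [← TS_mul]
    refine TS_congr _ _ fun T h1 h2 => ?_
    rw [hDDv _ (notMem_of_TS hki hρk h2)]
  rw [e2]
  congr 1
  ring

lemma jump_alg {α β A1 B1 b : ℝ} (hα : 0 < α) (hβ : 0 < β)
    (hb : |A1 / α - B1 / β| ≤ b) :
    A1 ^ 2 / α + B1 ^ 2 / β - (A1 + B1) ^ 2 / (α + β) ≤
      b * (|β * A1 - α * B1| / (α + β)) := by
  have hαβ : 0 < α + β := by positivity
  have e1 : A1 ^ 2 / α + B1 ^ 2 / β - (A1 + B1) ^ 2 / (α + β) =
      |A1 / α - B1 / β| * (|β * A1 - α * B1| / (α + β)) := by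
    have h1 : β * A1 - α * B1 = (α * β) * (A1 / α - B1 / β) := by field_simp
    rw [h1, abs_mul, abs_of_pos (mul_pos hα hβ)]
    have h2 : |A1 / α - B1 / β| * (α * β * |A1 / α - B1 / β| / (α + β)) =
        (α * β) * (|A1 / α - B1 / β| ^ 2) / (α + β) := by ring
    rw [h2, sq_abs]
    field_simp
    ring
  rw [e1]
  exact mul_le_mul_of_nonneg_right hb (by positivity)

omit [Fintype V] in
lemma TS_le (J : Finset V) {f g : Finset (V × Bool) → ℝ} (h : ∀ T, f T ≤ g T)
    (S : Finset (V × Bool)) : TS J f S ≤ TS J g S :=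
  Finset.sum_le_sum fun _ _ => h _

omit [Fintype V] in
lemma TS_abs_le (J : Finset V) (f : Finset (V × Bool) → ℝ)
    (S : Finset (V × Bool)) : |TS J f S| ≤ TS J (fun T => |f T|) S :=
  Finset.abs_sum_le_sum_abs _ _

/-- bound on one martingale difference -/
lemma jump_le {n : ℕ} {W : Finset (V × Bool) → ℝ} (hW : ∀ T, 0 < W T) (hHR : HR n W)
    (f u : Finset (V × Bool) → ℝ) {c b : ℝ} (hf : ∀ T, c ≤ f T ∧ f T ≤ c + b)
    {J : Finset V} {k : V} {ρ : Finset (V × Bool)} (hk : k ∉ J)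
    (hρ : ∀ e ∈ ρ, e.1 ∉ insert k J) (hn : ρ.card + J.card + 1 = n) {α β A1 B1 : ℝ}
    (hα : α = TS J W (insert (k, false) ρ)) (hβ : β = TS J W (insert (k, true) ρ))
    (hA : A1 = TS J (fun T => W T * f T) (insert (k, false) ρ))
    (hB : B1 = TS J (fun T => W T * f T) (insert (k, true) ρ)) :
    A1 ^ 2 / α + B1 ^ 2 / β - (A1 + B1) ^ 2 / (α + β) ≤
      b * (Gp (fun x => |x|) W f u k J ρ +
        1 / 2 * ∑ i ∈ J, Real.sqrt (N2 W k (J.erase i) ρ * En W u i (J.erase i) ρ)) := by
  have hαp : 0 < α := by rw [hα]; exact TS_pos _ _ hW _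
  have hβp : 0 < β := by rw [hβ]; exact TS_pos _ _ hW _
  have hαβ : 0 < α + β := by (clear * - hαp hβp; positivity)
  have hb0 : 0 ≤ b := by have := hf ∅; linarith only [this]
  have rng : ∀ (x y : ℝ) (S : Finset (V × Bool)), x = TS J W S → y = TS J (fun T => W T * f T) S →
      c * x ≤ y ∧ y ≤ (c + b) * x := by
    intro x y S hx hy
    rw [hx, hy, ← TS_mul, ← TS_mul]
    constructor
    · refine TS_le _ (fun T => ?_) _
      have := mul_le_mul_of_nonneg_left (hf T).1 (hW T).le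
      linarith only [this]
    · refine TS_le _ (fun T => ?_) _
      have := mul_le_mul_of_nonneg_left (hf T).2 (hW T).le
      linarith only [this]
  have hra := rng α A1 _ hα hA
  have hrb := rng β B1 _ hβ hB
  have hb : |A1 / α - B1 / β| ≤ b := by
    have h1 : c ≤ A1 / α := by rw [le_div_iff₀ hαp]; exact hra.1
    have h2 : A1 / α ≤ c + b := by rw [div_le_iff₀ hαp]; exact hra.2
    have h3 : c ≤ B1 / β := by rw [le_div_iff₀ hβp]; exact hrb.1
    have h4 : B1 / β ≤ c + b := by rw [div_le_iff₀ hβp]; exact hrb.2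
    rw [abs_le]
    constructor <;> linarith only [h1, h4, h2, h3]
  refine (jump_alg hαp hβp hb).trans (mul_le_mul_of_nonneg_left ?_ hb0)
  rw [div_le_iff₀ hαβ]
  have key := pinned hW hHR u hk hρ hn hα hβ
  have hsplit : β * A1 - α * B1 =
      (β * TS J (fun T => u T * W (insert (k, false) T)) ρ -
      α * TS J (fun T => u T * W (insert (k, true) T)) ρ) +
      (β * TS J (fun T => W (insert (k, false) T) * (f (insert (k, false) T) - u T)) ρ +
      (-α) * TS J (fun T => W (insert (k, true) T) * (f (insert (k, true) T) - u T)) ρ) := by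
    rw [hA, hB, ← TS_pin J _ ρ (k, false), ← TS_pin J _ ρ (k, true), ← TS_mul, ← TS_mul,
      ← TS_mul, ← TS_mul, ← TS_mul, ← TS_mul, ← TS_sub, ← TS_sub, ← TS_add, ← TS_add]
    refine TS_congr _ _ fun T _ _ => ?_
    ring
  rw [hsplit]
  have hG : Gp (fun x => |x|) W f u k J ρ =
      TS J (fun T => W (insert (k, false) T) * |f (insert (k, false) T) - u T|) ρ +
      TS J (fun T => W (insert (k, true) T) * |f (insert (k, true) T) - u T|) ρ := by
    unfold Gp
    rw [TS_add]
  have g1 : |TS J (fun T => W (insert (k, false) T) * (f (insert (k, false) T) - u T)) ρ| ≤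
      TS J (fun T => W (insert (k, false) T) * |f (insert (k, false) T) - u T|) ρ := by
    refine (TS_abs_le _ _ _).trans (le_of_eq (TS_congr _ _ fun T _ _ => ?_))
    rw [abs_mul, abs_of_pos (hW _)]
  have g2 : |TS J (fun T => W (insert (k, true) T) * (f (insert (k, true) T) - u T)) ρ| ≤
      TS J (fun T => W (insert (k, true) T) * |f (insert (k, true) T) - u T|) ρ := by
    refine (TS_abs_le _ _ _).trans (le_of_eq (TS_congr _ _ fun T _ _ => ?_))
    rw [abs_mul, abs_of_pos (hW _)]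
  set X1 := TS J (fun T => W (insert (k, false) T) * |f (insert (k, false) T) - u T|) ρ with hX1
  set X2 := TS J (fun T => W (insert (k, true) T) * |f (insert (k, true) T) - u T|) ρ with hX2
  have hX1n : 0 ≤ X1 := (abs_nonneg _).trans g1
  have hX2n : 0 ≤ X2 := (abs_nonneg _).trans g2
  have hsq : ∑ i ∈ J, Real.sqrt ((α * β * N2 W k (J.erase i) ρ) * En W u i (J.erase i) ρ) ≤
      (1 / 2 * ∑ i ∈ J, Real.sqrt (N2 W k (J.erase i) ρ * En W u i (J.erase i) ρ)) *
        (α + β) := by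
    rw [Finset.mul_sum, Finset.sum_mul]
    refine Finset.sum_le_sum fun i _ => ?_
    rw [mul_assoc (α * β), Real.sqrt_mul (mul_pos hαp hβp).le]
    have h1 : Real.sqrt (α * β) ≤ (α + β) / 2 := by
      rw [Real.sqrt_le_left (by (clear * - hαp hβp; positivity))]
      nlinarith only [sq_nonneg (α - β)]
    have := mul_le_mul_of_nonneg_right h1
      (Real.sqrt_nonneg (N2 W k (J.erase i) ρ * En W u i (J.erase i) ρ))
    linarith only [this]
  calc _ ≤ |β * TS J (fun T => u T * W (insert (k, false) T)) ρ -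
      α * TS J (fun T => u T * W (insert (k, true) T)) ρ| +
      |β * TS J (fun T => W (insert (k, false) T) * (f (insert (k, false) T) - u T)) ρ +
      (-α) * TS J (fun T => W (insert (k, true) T) * (f (insert (k, true) T) - u T)) ρ| :=
        abs_add_le _ _
    _ ≤ (1 / 2 * ∑ i ∈ J, Real.sqrt (N2 W k (J.erase i) ρ * En W u i (J.erase i) ρ)) *
        (α + β) + (β * X1 + α * X2) := by
        refine add_le_add (key.trans hsq) ((abs_add_le _ _).trans (add_le_add ?_ ?_))
        · rw [abs_mul, abs_of_pos hβp]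
          exact mul_le_mul_of_nonneg_left g1 hβp.le
        · rw [abs_mul, abs_neg, abs_of_pos hαp]
          exact mul_le_mul_of_nonneg_left g2 hαp.le
    _ ≤ _ := by
        rw [hG]
        nlinarith only [hαp, hX1n, hβp, hX2n]

omit [Fintype V] in
lemma TS_ins_erase {J : Finset V} {a k : V} (ha : a ∉ J) (hk : k ≠ a)
    (f : Finset (V × Bool) → ℝ) (S : Finset (V × Bool)) :
    TS ((insert a J).erase k) f S =
      TS (J.erase k) f (insert (a, false) S) + TS (J.erase k) f (insert (a, true) S) := by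
  rw [Finset.erase_insert_of_ne hk.symm, TS_insert (fun h => ha (Finset.mem_of_mem_erase h))]

omit [Fintype V] in
lemma TS_ins_erase2 {J : Finset V} {a k i : V} (ha : a ∉ J) (hk : k ≠ a) (hi : i ≠ a)
    (f : Finset (V × Bool) → ℝ) (S : Finset (V × Bool)) :
    TS (((insert a J).erase k).erase i) f S =
      TS ((J.erase k).erase i) f (insert (a, false) S) +
      TS ((J.erase k).erase i) f (insert (a, true) S) := by
  rw [Finset.erase_insert_of_ne hk.symm, Finset.erase_insert_of_ne hi.symm,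
    TS_insert (fun h => ha (Finset.mem_of_mem_erase (Finset.mem_of_mem_erase h)))]

/-- unnormalised form of (I2) with pins -/
theorem doob {n : ℕ} {W : Finset (V × Bool) → ℝ} (hW : ∀ T, 0 < W T) (hHR : HR n W)
    (f : Finset (V × Bool) → ℝ) (u : V → Finset (V × Bool) → ℝ) {c b : ℝ}
    (hf : ∀ T, c ≤ f T ∧ f T ≤ c + b) (o : V → ℕ) (ho : Function.Injective o) (J : Finset V) :
    ∀ (ρ : Finset (V × Bool)), (∀ e ∈ ρ, e.1 ∉ J) → ρ.card + J.card = n →
      TS J (fun T => W T * f T ^ 2) ρ - (TS J (fun T => W T * f T) ρ) ^ 2 / TS J W ρ ≤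
        b * ∑ k ∈ J, (Gp (fun x => |x|) W f (u k) k (J.erase k) ρ +
          1 / 2 * ∑ i ∈ J with o i < o k,
            Real.sqrt (N2 W k ((J.erase k).erase i) ρ * En W (u k) i ((J.erase k).erase i) ρ)) := by
  have hb0 : 0 ≤ b := by have := hf ∅; linarith [this.1, this.2]
  induction J using Finset.induction_on_max_value o with
  | empty =>
    intro ρ _ _
    simp only [TS_empty, Finset.sum_empty, mul_zero]
    have := hW ρ
    apply le_of_eq
    field_simp
    ring
  | insert a J ha hmax ih =>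
    intro ρ hρ hn
    have hlt : ∀ x ∈ J, o x < o a := by
      intro x hx
      rcases lt_or_eq_of_le (hmax x hx) with h | h
      · exact h
      · exact absurd (ho h ▸ hx) ha
    have hcard : (insert a J).card = J.card + 1 := Finset.card_insert_of_notMem ha
    have haρ : ∀ b : Bool, (a, b) ∉ ρ := fun b h => hρ _ h (Finset.mem_insert_self _ _)
    have hρ0 : ∀ (b : Bool), ∀ e ∈ insert (a, b) ρ, e.1 ∉ J := by
      intro b e he
      rcases Finset.mem_insert.mp he with rfl | he
      · exact ha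
      · exact fun h => hρ e he (Finset.mem_insert_of_mem h)
    have hc0 : ∀ b : Bool, (insert (a, b) ρ).card + J.card = n := by
      intro b
      rw [Finset.card_insert_of_notMem (haρ b)]
      omega
    have ih0 := ih (insert (a, false) ρ) (hρ0 false) (hc0 false)
    have ih1 := ih (insert (a, true) ρ) (hρ0 true) (hc0 true)
    have hj := jump_le hW hHR f (u a) hf ha hρ (by omega) rfl rfl rfl rfl
    rw [TS_insert ha, TS_insert ha, TS_insert ha, Finset.sum_insert ha]
    have ea : (insert a J).erase a = J := Finset.erase_insert ha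
    have fa : (insert a J).filter (fun i => o i < o a) = J := by
      ext x
      simp only [Finset.mem_filter, Finset.mem_insert]
      constructor
      · rintro ⟨rfl | h, h2⟩
        · exact absurd h2 (lt_irrefl _)
        · exact h
      · intro h
        exact ⟨Or.inr h, hlt x h⟩
    rw [ea, fa]
    have hsum : ∀ k ∈ J,
        (Gp (fun x => |x|) W f (u k) k (J.erase k) (insert (a, false) ρ) +
          1 / 2 * ∑ i ∈ J with o i < o k,
            Real.sqrt (N2 W k ((J.erase k).erase i) (insert (a, false) ρ) *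
              En W (u k) i ((J.erase k).erase i) (insert (a, false) ρ))) +
        (Gp (fun x => |x|) W f (u k) k (J.erase k) (insert (a, true) ρ) +
          1 / 2 * ∑ i ∈ J with o i < o k,
            Real.sqrt (N2 W k ((J.erase k).erase i) (insert (a, true) ρ) *
              En W (u k) i ((J.erase k).erase i) (insert (a, true) ρ))) ≤
        (Gp (fun x => |x|) W f (u k) k ((insert a J).erase k) ρ +
          1 / 2 * ∑ i ∈ insert a J with o i < o k,
            Real.sqrt (N2 W k (((insert a J).erase k).erase i) ρ *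
              En W (u k) i (((insert a J).erase k).erase i) ρ)) := by
      intro k hk
      have hka : k ≠ a := fun h => ha (h ▸ hk)
      have fk : (insert a J).filter (fun i => o i < o k) = J.filter (fun i => o i < o k) := by
        rw [Finset.filter_insert, if_neg (not_lt.mpr (hlt k hk).le)]
      rw [fk]
      have hG : Gp (fun x => |x|) W f (u k) k ((insert a J).erase k) ρ =
          Gp (fun x => |x|) W f (u k) k (J.erase k) (insert (a, false) ρ) +
          Gp (fun x => |x|) W f (u k) k (J.erase k) (insert (a, true) ρ) := by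
        unfold Gp
        rw [TS_ins_erase ha hka]
      have hS : ∑ i ∈ J with o i < o k,
            Real.sqrt (N2 W k ((J.erase k).erase i) (insert (a, false) ρ) *
              En W (u k) i ((J.erase k).erase i) (insert (a, false) ρ)) +
          ∑ i ∈ J with o i < o k,
            Real.sqrt (N2 W k ((J.erase k).erase i) (insert (a, true) ρ) *
              En W (u k) i ((J.erase k).erase i) (insert (a, true) ρ)) ≤
          ∑ i ∈ J with o i < o k,
            Real.sqrt (N2 W k (((insert a J).erase k).erase i) ρ *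
              En W (u k) i (((insert a J).erase k).erase i) ρ) := by
        rw [← Finset.sum_add_distrib]
        refine Finset.sum_le_sum fun i hi => ?_
        have hia : i ≠ a := fun h => ha (h ▸ (Finset.mem_filter.mp hi).1)
        have e1 : N2 W k (((insert a J).erase k).erase i) ρ =
            N2 W k ((J.erase k).erase i) (insert (a, false) ρ) +
            N2 W k ((J.erase k).erase i) (insert (a, true) ρ) := by
          unfold N2
          rw [TS_ins_erase2 ha hka hia]
        have e2 : En W (u k) i (((insert a J).erase k).erase i) ρ =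
            En W (u k) i ((J.erase k).erase i) (insert (a, false) ρ) +
            En W (u k) i ((J.erase k).erase i) (insert (a, true) ρ) := by
          unfold En
          rw [TS_ins_erase2 ha hka hia]
        rw [e1, e2]
        have n2 : ∀ S, 0 ≤ N2 W k ((J.erase k).erase i) S := fun S =>
          TS_nonneg _ _ (fun T => (hW _).le) _
        have en : ∀ S, 0 ≤ En W (u k) i ((J.erase k).erase i) S := fun S =>
          TS_nonneg _ _ (fun T => mul_nonneg (hW _).le (sq_nonneg _)) _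
        exact sqrt_add_sqrt_le (n2 _) (en _) (n2 _) (en _)
      rw [hG]
      linarith only [hS]
    have hsum2 := Finset.sum_le_sum hsum
    rw [Finset.sum_add_distrib] at hsum2
    have hsum3 := mul_le_mul_of_nonneg_left hsum2 hb0
    linarith only [ih0, ih1, hj, hsum3]

/-- `4 N_ik N_ki ≤ N_0 ^ 2` -/
lemma four_N2_mul_N2_le {n : ℕ} {W : Finset (V × Bool) → ℝ} (hW : ∀ T, 0 < W T) (hHR : HR n W)
    {J : Finset V} {i k : V} (hi : i ∉ J) (hk : k ∉ J) (hik : i ≠ k) {ρ : Finset (V × Bool)}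
    (hρ : ∀ e ∈ ρ, e.1 ∉ insert i (insert k J)) (hn : ρ.card + J.card + 2 = n) :
    4 * N2 W i J ρ * N2 W k J ρ ≤ (TS (insert i (insert k J)) W ρ) ^ 2 := by
  set N0 := TS (insert i (insert k J)) W ρ with hN0
  set a := N2 W i J ρ with ha
  set c := N2 W k J ρ with hc
  have hapos : 0 < a := TS_pos _ _ (fun T => hW _) _
  have hnei : ∀ e ∈ ρ, e.1 ≠ i := fun e he h => hρ e he (by rw [h]; simp)
  have hnek : ∀ e ∈ ρ, e.1 ≠ k := fun e he h => hρ e he (by rw [h]; simp)
  have hki : k ≠ i := hik.symm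
  have mi : ∀ T, (∀ e ∈ T, e.1 ∉ J → e ∈ ρ) → ∀ b, (i, b) ∉ T :=
    fun T h2 b => notMem_of_TS hi hnei h2 b
  have mk : ∀ T, (∀ e ∈ T, e.1 ∉ J → e ∈ ρ) → ∀ b, (k, b) ∉ T :=
    fun T h2 b => notMem_of_TS hk hnek h2 b
  have hN0' : N0 = TS J (fun T => W (insert (i, false) (insert (k, false) T)) +
      W (insert (i, false) (insert (k, true) T)) + (W (insert (i, true) (insert (k, false) T)) +
      W (insert (i, true) (insert (k, true) T)))) ρ := by
    have hi' : i ∉ insert k J := by simp [hik, hi]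
    rw [hN0, TS_insert hi', TS_insert hk, TS_insert hk, ← TS_pin, ← TS_pin, ← TS_pin, ← TS_pin,
      ← TS_pin, ← TS_pin, ← TS_pin, ← TS_pin, ← TS_add, ← TS_add, ← TS_add]
    refine TS_congr _ _ fun T _ _ => ?_
    simp only [Finset.insert_comm (k, _) (i, _)]
  -- direction `y = 1_k - t 1_i` with `t = N0 / (2 a)`
  set t := N0 / (2 * a) with ht
  have hta : t * (2 * a) = N0 := by rw [ht]; (clear * - hapos; field_simp)
  let y : V × Bool → ℝ := fun x =>
    ((δ (k, false) x + 1 * δ (k, true) x) + (-t) * (δ (i, false) x + 1 * δ (i, true) x))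
  have hDy : ∀ F T, D y F T = (D (δ (k, false)) F T + D (δ (k, true)) F T) +
      (-t) * (D (δ (i, false)) F T + D (δ (i, true)) F T) := by
    intro F T
    show D (fun x => (fun x => δ (k, false) x + 1 * δ (k, true) x) x + (-t) *
      (fun x => δ (i, false) x + 1 * δ (i, true) x) x) F T = _
    rw [D_add (fun x => δ (k, false) x + 1 * δ (k, true) x), D_smul (-t)
      (fun x => δ (i, false) x + 1 * δ (i, true) x),
      D_add (fun x => δ (k, false) x) (fun x => 1 * δ (k, true) x), D_smul,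
      D_add (fun x => δ (i, false) x) (fun x => 1 * δ (i, true) x), D_smul, one_mul, one_mul]
  -- values on the relevant sets
  have v1 : ∀ T, (∀ b, (i, b) ∉ T) → (∀ b, (k, b) ∉ T) → ∀ b,
      D y W (insert (i, b) T) = W (insert (i, b) (insert (k, false) T)) +
        W (insert (i, b) (insert (k, true) T)) -
        t * W (insert (i, false) (insert (i, true) T)) := by
    intro T h1 h2 b
    rw [hDy, D_δ, D_δ, D_δ, D_δ]
    have n1 : ∀ b', (k, b') ∉ insert (i, b) T := by
      intro b' h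
      rcases Finset.mem_insert.mp h with h | h
      · exact hki (Prod.ext_iff.mp h).1
      · exact h2 _ h
    rw [if_neg (n1 _), if_neg (n1 _), Finset.insert_comm (k, false), Finset.insert_comm (k, true)]
    cases b
    · rw [if_pos (Finset.mem_insert_self _ _), if_neg, Finset.insert_comm (i, true)]
      · ring
      · intro h
        rcases Finset.mem_insert.mp h with h | h
        · simp at h
        · exact h1 _ h
    · rw [if_neg, if_pos (Finset.mem_insert_self _ _)]
      · ring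
      · intro h
        rcases Finset.mem_insert.mp h with h | h
        · simp at h
        · exact h1 _ h
  have v2 : ∀ T, (∀ b, (i, b) ∉ T) → (∀ b, (k, b) ∉ T) → ∀ b,
      D y W (insert (k, b) T) = W (insert (k, false) (insert (k, true) T)) -
        t * (W (insert (i, false) (insert (k, b) T)) +
        W (insert (i, true) (insert (k, b) T))) := by
    intro T h1 h2 b
    rw [hDy, D_δ, D_δ, D_δ, D_δ]
    have n1 : ∀ b', (i, b') ∉ insert (k, b) T := by
      intro b' h
      rcases Finset.mem_insert.mp h with h | h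
      · exact hik (Prod.ext_iff.mp h).1
      · exact h1 _ h
    rw [if_neg (n1 _), if_neg (n1 _)]
    cases b
    · rw [if_pos (Finset.mem_insert_self _ _), if_neg, Finset.insert_comm (k, true)]
      · ring
      · intro h
        rcases Finset.mem_insert.mp h with h | h
        · simp at h
        · exact h2 _ h
    · rw [if_neg, if_pos (Finset.mem_insert_self _ _)]
      · ring
      · intro h
        rcases Finset.mem_insert.mp h with h | h
        · simp at h
        · exact h2 _ h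
  have hneu : TS (insert i J) (D y W) ρ = 0 := by
    rw [TS_insert hi, ← TS_pin, ← TS_pin, ← TS_add]
    have : TS J (fun T => D y W (insert (i, false) T) + D y W (insert (i, true) T)) ρ =
        TS J (fun T => (W (insert (i, false) (insert (k, false) T)) +
      W (insert (i, false) (insert (k, true) T)) + (W (insert (i, true) (insert (k, false) T)) +
      W (insert (i, true) (insert (k, true) T)))) -
      (2 * t) * W (insert (i, false) (insert (i, true) T))) ρ := by
      refine TS_congr _ _ fun T _ h2 => ?_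
      rw [v1 T (mi T h2) (mk T h2), v1 T (mi T h2) (mk T h2)]
      ring
    rw [this, TS_sub, TS_mul, ← hN0']
    have : TS J (fun T => W (insert (i, false) (insert (i, true) T))) ρ = a := rfl
    rw [this]
    linarith only [hta]
  have key := hHR ρ J i y hi (fun e he h => hρ e he (by
    rcases Finset.mem_insert.mp h with h | h
    · exact h ▸ Finset.mem_insert_self _ _
    · exact Finset.mem_insert_of_mem (Finset.mem_insert_of_mem h))) hn hneu
  have hval : TS J (D y (D y W)) ρ = 2 * c - 2 * t * N0 + 2 * t ^ 2 * a := by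
    have e1 : TS J (D y (D y W)) ρ = TS J (fun T =>
        2 * W (insert (k, false) (insert (k, true) T)) -
        (2 * t) * (W (insert (i, false) (insert (k, false) T)) +
        W (insert (i, false) (insert (k, true) T)) +
        (W (insert (i, true) (insert (k, false) T)) +
        W (insert (i, true) (insert (k, true) T)))) +
        (2 * t ^ 2) * W (insert (i, false) (insert (i, true) T))) ρ := by
      refine TS_congr _ _ fun T _ h2 => ?_
      rw [hDy, D_δ, D_δ, D_δ, D_δ, if_neg (mk T h2 _), if_neg (mk T h2 _), if_neg (mi T h2 _),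
        if_neg (mi T h2 _), v1 T (mi T h2) (mk T h2), v1 T (mi T h2) (mk T h2),
        v2 T (mi T h2) (mk T h2), v2 T (mi T h2) (mk T h2)]
      ring
    rw [e1, TS_add, TS_sub, TS_mul, TS_mul, TS_mul, ← hN0']
    rfl
  rw [hval] at key
  have h2 : 2 * t * N0 = 4 * t ^ 2 * a := by rw [← hta]; ring
  have h3 : c ≤ t ^ 2 * a := by linarith only [key, h2]
  have h4 : N0 ^ 2 = 4 * (t ^ 2 * a) * a := by rw [← hta]; ring
  rw [h4]
  nlinarith only [hapos, key, h2]

omit [Fintype V] in
lemma Gp_abs_le {W : Finset (V × Bool) → ℝ} (hW : ∀ T, 0 < W T) (f u : Finset (V × Bool) → ℝ)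
    {k : V} {J : Finset V} (hk : k ∉ J) (ρ : Finset (V × Bool)) :
    Gp (fun x => |x|) W f u k J ρ ≤
      Real.sqrt (TS (insert k J) W ρ * Gp (fun x => x ^ 2) W f u k J ρ) := by
  have hX : ∀ b : Bool, TS J (fun T => W (insert (k, b) T) * |f (insert (k, b) T) - u T|) ρ ≤
      Real.sqrt (TS J W (insert (k, b) ρ) *
        TS J (fun T => W (insert (k, b) T) * (f (insert (k, b) T) - u T) ^ 2) ρ) := by
    intro b
    apply Real.le_sqrt_of_sq_le
    have := TS_sq_le J (fun T => W (insert (k, b) T)) (fun T => |f (insert (k, b) T) - u T|)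
      (fun T => (hW _).le) ρ
    simp only [sq_abs] at this
    rwa [TS_pin] at this
  have h1 : Gp (fun x => |x|) W f u k J ρ =
      TS J (fun T => W (insert (k, false) T) * |f (insert (k, false) T) - u T|) ρ +
      TS J (fun T => W (insert (k, true) T) * |f (insert (k, true) T) - u T|) ρ := by
    unfold Gp; rw [TS_add]
  have h2 : Gp (fun x => x ^ 2) W f u k J ρ =
      TS J (fun T => W (insert (k, false) T) * (f (insert (k, false) T) - u T) ^ 2) ρ +
      TS J (fun T => W (insert (k, true) T) * (f (insert (k, true) T) - u T) ^ 2) ρ := by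
    unfold Gp; rw [TS_add]
  rw [h1, h2, TS_insert hk]
  have hn : ∀ b : Bool, 0 ≤ TS J W (insert (k, b) ρ) := fun b =>
    TS_nonneg _ _ (fun T => (hW T).le) _
  have hm : ∀ b : Bool, 0 ≤
      TS J (fun T => W (insert (k, b) T) * (f (insert (k, b) T) - u T) ^ 2) ρ := fun b =>
    TS_nonneg _ _ (fun T => mul_nonneg (hW _).le (sq_nonneg _)) _
  exact (add_le_add (hX false) (hX true)).trans
    (sqrt_add_sqrt_le (hn false) (hm false) (hn true) (hm true))

/-- **(I2)**, normalised form. -/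
theorem I2_TS {W : Finset (V × Bool) → ℝ} (hW : ∀ T, 0 < W T) (hHR : HR (Fintype.card V) W)
    (f : Finset (V × Bool) → ℝ) (u : V → Finset (V × Bool) → ℝ) {c b : ℝ}
    (hf : ∀ T, c ≤ f T ∧ f T ≤ c + b) (o : V → ℕ) (ho : Function.Injective o) :
    TS univ (fun T => W T * f T ^ 2) ∅ / TS univ W ∅ -
        (TS univ (fun T => W T * f T) ∅ / TS univ W ∅) ^ 2 ≤
      b * ∑ k : V, (Real.sqrt (Gp (fun x => x ^ 2) W f (u k) k (univ.erase k) ∅ / TS univ W ∅) +
        1 / 4 * ∑ i : V with o i < o k,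
          Real.sqrt (En W (u k) i ((univ.erase k).erase i) ∅ /
            N2 W i ((univ.erase k).erase i) ∅)) := by
  have hb0 : 0 ≤ b := by have := hf ∅; linarith [this.1, this.2]
  have hN : 0 < TS univ W ∅ := TS_pos _ _ hW _
  set N0 := TS univ W ∅ with hN0
  have key := doob hW hHR f u hf o ho univ ∅ (by simp only [notMem_empty, mem_univ, not_true_eq_false, imp_self, implies_true]) (by simp only [card_empty, card_univ, zero_add])
  rw [← hN0] at key
  have e1 : TS univ (fun T => W T * f T ^ 2) ∅ / N0 - (TS univ (fun T => W T * f T) ∅ / N0) ^ 2 =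
      (TS univ (fun T => W T * f T ^ 2) ∅ - TS univ (fun T => W T * f T) ∅ ^ 2 / N0) / N0 := by
    field_simp
  rw [e1, div_le_iff₀ hN]
  refine key.trans ?_
  rw [mul_assoc]
  refine mul_le_mul_of_nonneg_left ?_ hb0
  rw [Finset.sum_mul]
  refine Finset.sum_le_sum fun k _ => ?_
  rw [add_mul]
  refine add_le_add ?_ ?_
  · refine (Gp_abs_le hW f (u k) (Finset.notMem_erase k univ) ∅).trans (le_of_eq ?_)
    rw [Finset.insert_erase (Finset.mem_univ k), ← hN0]
    have : N0 * Gp (fun x => x ^ 2) W f (u k) k (univ.erase k) ∅ =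
        (Gp (fun x => x ^ 2) W f (u k) k (univ.erase k) ∅ / N0) * N0 ^ 2 := by
      field_simp
    rw [this, Real.sqrt_mul', Real.sqrt_sq hN.le]
    positivity
  · rw [Finset.mul_sum, Finset.mul_sum, Finset.sum_mul]
    refine Finset.sum_le_sum fun i hi => ?_
    have hik : i ≠ k := by
      rintro rfl
      exact lt_irrefl _ (Finset.mem_filter.mp hi).2
    set J := ((univ : Finset V).erase k).erase i with hJ
    have hiJ : i ∉ J := Finset.notMem_erase _ _
    have hkJ : k ∉ J := fun h => Finset.notMem_erase k univ (Finset.mem_of_mem_erase h)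
    have huniv : insert i (insert k J) = univ := by
      ext x
      simp only [Finset.mem_insert, hJ, Finset.mem_erase, Finset.mem_univ, and_true, iff_true]
      by_cases h1 : x = i
      · exact Or.inl h1
      · by_cases h2 : x = k
        · exact Or.inr (Or.inl h2)
        · exact Or.inr (Or.inr ⟨h1, h2⟩)
    have hcard : (∅ : Finset (V × Bool)).card + J.card + 2 = Fintype.card V := by
      have h1 : (insert i (insert k J)).card = J.card + 2 := by
        rw [Finset.card_insert_of_notMem (by simp [hik, hiJ]),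
          Finset.card_insert_of_notMem hkJ]
      rw [huniv, Finset.card_univ] at h1
      simp only [card_empty, zero_add, h1, Nat.add_left_cancel_iff]
    have h4 := four_N2_mul_N2_le hW hHR hiJ hkJ hik (ρ := ∅) (by simp) hcard
    rw [huniv, ← hN0] at h4
    have hNi : 0 < N2 W i J ∅ := TS_pos _ _ (fun T => hW _) _
    have hE : 0 ≤ En W (u k) i J ∅ :=
      TS_nonneg _ _ (fun T => mul_nonneg (hW _).le (sq_nonneg _)) _
    have h5 : N2 W k J ∅ * En W (u k) i J ∅ ≤
        (En W (u k) i J ∅ / N2 W i J ∅) * (N0 / 2) ^ 2 := by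
      have h6 : N2 W k J ∅ ≤ (N0 / 2) ^ 2 / N2 W i J ∅ := by
        rw [le_div_iff₀ hNi]
        nlinarith only [h4]
      calc _ ≤ ((N0 / 2) ^ 2 / N2 W i J ∅) * En W (u k) i J ∅ :=
            mul_le_mul_of_nonneg_right h6 hE
        _ = _ := by ring
    have h7 := Real.sqrt_le_sqrt h5
    rw [Real.sqrt_mul' (En W (u k) i J ∅ / N2 W i J ∅) (sq_nonneg _),
      Real.sqrt_sq (by positivity)] at h7
    (clear * - h7; linarith)

end Vale.Agent.P317.TL
end

section

open Finset

namespace Vale.Agent.P317.TL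

variable {V : Type*} [Fintype V] [DecidableEq V]

/-- sums over colourful sets of a function of the set and of its hub -/
lemma sum_Om0_hub (W : Finset (V × Bool) → ℝ) (F : Finset (V × Bool) → Finset (V × Bool) → ℝ)
    (k : V) :
    ∑ Z ∈ Window.Om0 V, W Z * F Z (Z \ Window.cell k) =
      TS (Finset.univ.erase k) (fun T => W (insert (k, false) T) * F (insert (k, false) T) T +
        W (insert (k, true) T) * F (insert (k, true) T) T) ∅ := by
  rw [sum_Om0]
  have h1 := TS_insert (Finset.notMem_erase k (Finset.univ : Finset V))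
    (fun Z => W Z * F Z (Z \ Window.cell k)) ∅
  rw [Finset.insert_erase (Finset.mem_univ _)] at h1
  rw [h1, ← TS_pin, ← TS_pin, ← TS_add]
  refine TS_congr _ _ fun T _ h2 => ?_
  have h : ∀ b : Bool, (k, b) ∉ T := fun b hb => by
    have := h2 _ hb (by simp only [mem_erase, ne_eq, not_true_eq_false, mem_univ, and_true, not_false_eq_true])
    simp at this
  rw [insert_sdiff_cell h, insert_sdiff_cell h]

/-- **(I2)** in the window form -/
theorem I2_window {W : Finset (V × Bool) → ℝ} (hW : ∀ T, 0 < W T)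
    (hHR : HR (Fintype.card V) W) : Window.I2 W := by
  intro f u b hf
  -- the truncated function
  have hb : 0 ≤ b := by
    have hmem : (Finset.univ.image (fun v : V => (v, true)) : Finset (V × Bool)) ∈ Window.Om0 V := by
      rw [Window.mem_Om0]
      intro k
      simp only [mem_image, mem_univ, Prod.mk.injEq, Bool.true_eq_false, and_false, exists_false, and_true, true_and, exists_eq, not_true_eq_false]
    have := hf _ hmem
    linarith [this.1, this.2]
  set g : Finset (V × Bool) → ℝ := fun T => max 0 (min (f T) b) with hg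
  have hgf : ∀ Z ∈ Window.Om0 V, g Z = f Z := by
    intro Z hZ
    rw [hg]
    simp only
    rw [min_eq_left (hf Z hZ).2, max_eq_right (hf Z hZ).1]
  have hgb : ∀ T, 0 ≤ g T ∧ g T ≤ 0 + b := by
    intro T
    refine ⟨le_max_left _ _, ?_⟩
    rw [zero_add]
    exact max_le hb (min_le_right _ _)
  have hN : (0 : ℝ) < ∑ Z ∈ Window.Om0 V, W Z := by
    rw [← N0_eq]; exact N0_pos hW
  have key := I2_TS hW hHR g (fun _ => u) hgb (fun v => (Fintype.equivFin V v : ℕ))
    (fun x y h => (Fintype.equivFin V).injective (Fin.val_injective h))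
  rw [← sum_Om0, ← sum_Om0, ← sum_Om0] at key
  have e1 : ∑ Z ∈ Window.Om0 V, W Z * g Z ^ 2 = ∑ Z ∈ Window.Om0 V, W Z * f Z ^ 2 :=
    Finset.sum_congr rfl fun Z hZ => by rw [hgf Z hZ]
  have e2 : ∑ Z ∈ Window.Om0 V, W Z * g Z = ∑ Z ∈ Window.Om0 V, W Z * f Z :=
    Finset.sum_congr rfl fun Z hZ => by rw [hgf Z hZ]
  rw [e1, e2] at key
  have e3 : Window.av (Window.Om0 V) W (fun Z => (f Z - Window.av (Window.Om0 V) W f) ^ 2) =
      (∑ Z ∈ Window.Om0 V, W Z * f Z ^ 2) / (∑ Z ∈ Window.Om0 V, W Z) -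
        ((∑ Z ∈ Window.Om0 V, W Z * f Z) / ∑ Z ∈ Window.Om0 V, W Z) ^ 2 := by
    set c := Window.av (Window.Om0 V) W f with hc
    have hc' : c = (∑ Z ∈ Window.Om0 V, W Z * f Z) / ∑ Z ∈ Window.Om0 V, W Z := rfl
    rw [← hc']
    unfold Window.av
    have h1 : ∑ Z ∈ Window.Om0 V, W Z * (f Z - c) ^ 2 =
        (∑ Z ∈ Window.Om0 V, W Z * f Z ^ 2) - 2 * c * (∑ Z ∈ Window.Om0 V, W Z * f Z) +
          c ^ 2 * ∑ Z ∈ Window.Om0 V, W Z := by
      rw [Finset.mul_sum, Finset.mul_sum, ← Finset.sum_sub_distrib, ← Finset.sum_add_distrib]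
      exact Finset.sum_congr rfl fun Z _ => by ring
    rw [h1]
    have h2 : (∑ Z ∈ Window.Om0 V, W Z * f Z) = c * ∑ Z ∈ Window.Om0 V, W Z := by
      rw [hc']; (clear * - hN; field_simp)
    rw [h2]
    field_simp
    ring
  rw [e3]
  refine key.trans (mul_le_mul_of_nonneg_left (Finset.sum_le_sum fun k _ => ?_) hb)
  refine add_le_add (Real.sqrt_le_sqrt (le_of_eq ?_)) (mul_le_mul_of_nonneg_left ?_ (by norm_num))
  · unfold Window.av
    congr 1
    have h1 := sum_Om0_hub W (fun Z T => (g Z - u T) ^ 2) k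
    unfold Gp
    rw [← h1]
    exact Finset.sum_congr rfl fun Z hZ => by rw [hgf Z hZ]
  · refine (Finset.sum_le_sum fun i hi => ?_).trans
      (Finset.sum_le_sum_of_subset_of_nonneg (s := Finset.univ.filter
        (fun i => (Fintype.equivFin V i : ℕ) < (Fintype.equivFin V k : ℕ)))
        (f := fun i => Real.sqrt (Window.En W u i k)) ?_ ?_)
    · have hik : i ≠ k := by
        rintro rfl
        exact lt_irrefl _ (Finset.mem_filter.mp hi).2
      rw [En_eq hik]
      rfl
    · intro i hi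
      rw [Finset.mem_erase]
      refine ⟨?_, Finset.mem_univ _⟩
      rintro rfl
      exact lt_irrefl _ (Finset.mem_filter.mp hi).2
    · intro i _ _
      exact Real.sqrt_nonneg _

end Vale.Agent.P317.TL
end

section

/-!
# The law of a thread (A3a)
-/

namespace Vale.Agent.P317.Window

open Finset

variable {V : Type*} [Fintype V] [DecidableEq V]

/-- mean under a normalised weight -/
noncomputable def lawW (w g : Finset (V × Bool) → ℝ) : ℝ :=
  (∑ Z ∈ Win V, w Z * g Z) / ∑ Z ∈ Win V, w Z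

/-- `m` stages from stage `κ` on, `L` steps each, on functions -/
noncomputable def St (c : ℝ) (L : ℕ) (w : ℕ → Finset (V × Bool) → ℝ) :
    ℕ → ℕ → (Finset (V × Bool) → ℝ) → Finset (V × Bool) → ℝ
  | 0, _, g => g
  | m + 1, κ, g => (op c (w κ))^[L] (St c L w m (κ + 1) g)

theorem Win_nonempty : (Win V).Nonempty := by
  refine ⟨univ.image (fun k : V => (k, true)), mem_Win.2 (Or.inl fun k => ?_)⟩
  simp only [mem_image, mem_univ, Prod.mk.injEq, Bool.true_eq_false, and_false, exists_false, and_true, true_and, exists_eq, not_true_eq_false]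

theorem Om0_nonempty : (Om0 V).Nonempty := by
  refine ⟨univ.image (fun k : V => (k, true)), mem_Om0.2 fun k => ?_⟩
  simp only [mem_image, mem_univ, Prod.mk.injEq, Bool.true_eq_false, and_false, exists_false, and_true, true_and, exists_eq, not_true_eq_false]

theorem St_bounds {c : ℝ} (hc : 0 < c) (hc2 : c * (Fintype.card V : ℝ) ^ 2 ≤ 1 / 2) {L : ℕ}
    {w : ℕ → Finset (V × Bool) → ℝ} (hw : ∀ κ, ∀ Z ∈ Win V, 0 < w κ Z)
    {g : Finset (V × Bool) → ℝ} {b : ℝ}
    (hg : ∀ Z ∈ Win V, 0 ≤ g Z ∧ g Z ≤ b) (m : ℕ) :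
    ∀ κ, ∀ Z ∈ Win V, 0 ≤ St c L w m κ g Z ∧ St c L w m κ g Z ≤ b := by
  induction m with
  | zero => exact fun κ => hg
  | succ m ih => exact fun κ => iter_op_bounds hc hc2 (hw κ) (ih (κ + 1)) L

/-- hypotheses on the stages -/
structure Stages (c m : ℝ) (L k : ℕ) (W w : ℕ → Finset (V × Bool) → ℝ) : Prop where
  c_pos : 0 < c
  c_le : c * (Fintype.card V : ℝ) ^ 2 ≤ 1 / 2
  L_pos : 1 ≤ L
  card_pos : 0 < Fintype.card V
  w_pos : ∀ κ, ∀ Z ∈ Win V, 0 < w κ Z
  cmp : ∀ κ ≤ k, Cmp (W κ) (fun Z => w κ Z / ∑ Z' ∈ Win V, w κ Z') m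
  i1 : ∀ κ ≤ k, I1 (W κ)
  i2 : ∀ κ ≤ k, I2 (W κ)
  up : ∀ κ, ∀ Z ∈ Win V, w (κ + 1) Z ≤ 2 * w κ Z
  down : ∀ κ, ∀ Z ∈ Win V, w κ Z ≤ 4 * w (κ + 1) Z

theorem law_stage_le {c m : ℝ} {L k : ℕ} {W w : ℕ → Finset (V × Bool) → ℝ}
    (h : Stages c m L k W w) (κ : ℕ) {Z : Finset (V × Bool)} (hZ : Z ∈ Win V) :
    w κ Z / ∑ Z' ∈ Win V, w κ Z' ≤ 8 * (w (κ + 1) Z / ∑ Z' ∈ Win V, w (κ + 1) Z') := by
  have p0 : 0 < ∑ Z' ∈ Win V, w κ Z' := sum_pos (h.w_pos κ) Win_nonempty
  have p1 : 0 < ∑ Z' ∈ Win V, w (κ + 1) Z' := sum_pos (h.w_pos (κ + 1)) Win_nonempty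
  have s : ∑ Z' ∈ Win V, w (κ + 1) Z' ≤ 2 * ∑ Z' ∈ Win V, w κ Z' := by
    rw [mul_sum]; exact sum_le_sum fun Z' hZ' => h.up κ Z' hZ'
  rw [mul_div_assoc', div_le_div_iff₀ p0 p1]
  have d := h.down κ Z hZ
  have q0 := (h.w_pos κ Z hZ).le
  have q1 := (h.w_pos (κ + 1) Z hZ).le
  calc w κ Z * ∑ Z' ∈ Win V, w (κ + 1) Z' ≤ w κ Z * (2 * ∑ Z' ∈ Win V, w κ Z') :=
        mul_le_mul_of_nonneg_left s q0
    _ ≤ (4 * w (κ + 1) Z) * (2 * ∑ Z' ∈ Win V, w κ Z') :=
        mul_le_mul_of_nonneg_right d (by positivity)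
    _ = _ := by ring

theorem stages_law {c m : ℝ} {L k : ℕ} {W w : ℕ → Finset (V × Bool) → ℝ}
    (h : Stages c m L k W w) {g : Finset (V × Bool) → ℝ}
    (hg : ∀ Z ∈ Win V, 0 ≤ g Z ∧ g Z ≤ 1) (q : ℕ) :
    ∀ κ, κ + q ≤ k → |lawW (w κ) (St c L w q (κ + 1) g) - lawW (w (κ + q)) g|
      ≤ q * (8 * Real.sqrt (CW V c m / (L + 1))) := by
  induction q with
  | zero => intro κ _; simp only [St, add_zero, sub_self, abs_zero, CharP.cast_eq_zero, zero_mul, Std.le_refl]
  | succ q ih =>
    intro κ hκ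
    have hb := St_bounds h.c_pos h.c_le h.w_pos (L := L) hg q (κ + 1 + 1)
    have p0 : 0 < ∑ Z' ∈ Win V, w κ Z' := sum_pos (h.w_pos κ) Win_nonempty
    have st := window_warm h.c_pos h.c_le (h.w_pos (κ + 1)) (h.cmp (κ + 1) (by omega))
      (h.i1 (κ + 1) (by omega)) (h.i2 (κ + 1) (by omega)) h.card_pos
      (μ := fun Z => w κ Z / ∑ Z' ∈ Win V, w κ Z')
      (fun Z hZ => div_nonneg (h.w_pos κ Z hZ).le p0.le)
      (by rw [← sum_div]; exact div_self p0.ne')
      (M := 8) (fun Z hZ => law_stage_le h κ hZ) hb L h.L_pos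
    have e1 : ∑ Z ∈ Win V, w κ Z / (∑ Z' ∈ Win V, w κ Z') *
        ((op c (w (κ + 1)))^[L] (St c L w q (κ + 1 + 1) g)) Z
        = lawW (w κ) (St c L w (q + 1) (κ + 1) g) := by
      unfold lawW
      rw [sum_div]
      refine sum_congr rfl fun Z _ => ?_
      rw [St]; ring
    have e2 : (∑ Z ∈ Win V, w (κ + 1) Z * St c L w q (κ + 1 + 1) g Z) / ∑ Z ∈ Win V, w (κ + 1) Z
        = lawW (w (κ + 1)) (St c L w q (κ + 1 + 1) g) := rfl
    simp only [e1, e2] at st
    have ih' := ih (κ + 1) (by omega)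
    have e3 : κ + 1 + q = κ + (q + 1) := by ring
    rw [e3] at ih'
    have tri := abs_sub_le (lawW (w κ) (St c L w (q + 1) (κ + 1) g))
      (lawW (w (κ + 1)) (St c L w q (κ + 1 + 1) g)) (lawW (w (κ + (q + 1))) g)
    push_cast
    linarith only [st, ih', tri]

/-- **Thread law**, abstract form. -/
theorem thread_law_abs {c m : ℝ} {L k : ℕ} {W w : ℕ → Finset (V × Bool) → ℝ}
    (h : Stages c m L k W w) (hst0 : ∀ Z ∈ Om0 V, w 0 Z = 1)
    (hst1 : ∀ i j : V, i ≠ j → ∀ Z ∈ Om i j, w 0 Z = 4)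
    {g : Finset (V × Bool) → ℝ} (hg : ∀ Z ∈ Win V, 0 ≤ g Z ∧ g Z ≤ 1) :
    |(∑ Z ∈ Om0 V, St c L w (k + 1) 0 g Z) / 2 ^ Fintype.card V - lawW (w k) g|
      ≤ ((Fintype.card V : ℝ) ^ 2 + 8 * k) * Real.sqrt (CW V c m / (L + 1)) := by
  set n := Fintype.card V with hn
  have hn1 : 1 ≤ n := h.card_pos
  -- total weight at stage 0
  have tot : ∑ Z ∈ Win V, w 0 Z = 2 ^ n * (1 + (n : ℝ) * (n - 1)) := by
    rw [sum_Win, sum_congr rfl hst0]
    have e : ∀ p ∈ (univ : Finset (V × V)).filter (fun p => p.1 ≠ p.2),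
        ∑ Z ∈ Om p.1 p.2, w 0 Z = 2 ^ n := by
      intro p hp
      have hp' := (mem_filter.1 hp).2
      rw [sum_congr rfl (hst1 p.1 p.2 hp'), sum_const, nsmul_eq_mul]
      exact_mod_cast Anneal.card_Om hp'
    rw [sum_congr rfl e, sum_const, sum_const, nsmul_eq_mul, nsmul_eq_mul, mul_one,
      Anneal.card_Om0]
    have cd : ((univ : Finset (V × V)).filter (fun p => p.1 ≠ p.2)).card = n * n - n := by
      have h1 : (univ : Finset (V × V)).filter (fun p => p.1 ≠ p.2) = (univ : Finset V).offDiag := by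
        ext p; simp only [ne_eq, mem_filter, mem_univ, true_and, mem_offDiag]
      rw [h1, offDiag_card, card_univ]
    rw [cd, Nat.cast_sub (Nat.le_mul_self n)]
    push_cast
    ring
  have hnR : (1:ℝ) ≤ n := by exact_mod_cast hn1
  have hfac : 0 < 1 + (n : ℝ) * (n - 1) := by nlinarith only [hnR]
  have hfac2 : 1 + (n : ℝ) * (n - 1) ≤ (n:ℝ) ^ 2 := by nlinarith only [hnR]
  set G := St c L w k (0 + 1) g with hG
  have hb := St_bounds h.c_pos h.c_le h.w_pos (L := L) hg k (0 + 1)
  rw [← hG] at hb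
  have h2n : (0:ℝ) < 2 ^ n := by positivity
  set μ : Finset (V × Bool) → ℝ := fun Z => if Z ∈ Om0 V then 1 / 2 ^ n else 0 with hμ
  have sumμ : ∀ F : Finset (V × Bool) → ℝ, ∑ Z ∈ Win V, μ Z * F Z = (∑ Z ∈ Om0 V, F Z) / 2 ^ n := by
    intro F
    have : ∀ Z ∈ Win V, μ Z * F Z = if Z ∈ Om0 V then F Z / 2 ^ n else 0 := by
      intro Z _
      simp only [hμ]
      split_ifs
      · ring
      · ring
    rw [sum_congr rfl this, ← sum_filter, sum_div]
    refine sum_congr ?_ fun _ _ => rfl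
    ext Z
    rw [mem_filter]
    exact ⟨fun hh => hh.2, fun hh => ⟨Om0_subset_Win hh, hh⟩⟩
  have st := window_warm h.c_pos h.c_le (h.w_pos 0) (h.cmp 0 (by omega))
      (h.i1 0 (by omega)) (h.i2 0 (by omega)) h.card_pos
      (μ := μ) (by
        intro Z _
        simp only [hμ]
        split_ifs <;> positivity)
      (by
        have := sumμ (fun _ => 1)
        simp only [mul_one, sum_const, nsmul_eq_mul] at this
        rw [this, Anneal.card_Om0]
        push_cast
        exact div_self h2n.ne')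
      (M := (n:ℝ) ^ 2) (by
        intro Z hZ
        simp only [hμ]
        have hpos : 0 ≤ w 0 Z / ∑ Z' ∈ Win V, w 0 Z' :=
          div_nonneg (h.w_pos 0 Z hZ).le (sum_nonneg fun Z' hZ' => (h.w_pos 0 Z' hZ').le)
        split_ifs with hcol
        · rw [tot, hst0 Z hcol, mul_one_div, div_le_div_iff₀ h2n (by (clear * - hn1 hnR; positivity))]
          nlinarith only [hnR, h2n]
        · (clear * - hn1 hpos; positivity)) hb L h.L_pos
  have e1 : ∑ Z ∈ Win V, μ Z * ((op c (w 0))^[L] G) Z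
      = (∑ Z ∈ Om0 V, St c L w (k + 1) 0 g Z) / 2 ^ n := by
    rw [sumμ]; rfl
  have e2 : (∑ Z ∈ Win V, w 0 Z * G Z) / ∑ Z ∈ Win V, w 0 Z = lawW (w 0) G := rfl
  rw [e1, e2] at st
  have st2 := stages_law h hg k 0 (by omega)
  rw [← hG, zero_add] at st2
  have tri := abs_sub_le ((∑ Z ∈ Om0 V, St c L w (k + 1) 0 g Z) / 2 ^ n) (lawW (w 0) G)
    (lawW (w k) g)
  linarith only [st, st2, tri]

end Vale.Agent.P317.Window
end
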