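import Vale.Agent.P317.MathlibUsed
import Vale.Agent.P317.Bdl.B5
import Vale.Agent.P317.Bdl.B4
import Vale.Agent.P317.Bdl.B2
import Vale.Agent.Lib.PolyTime.Lists3
import Vale.Agent.P317.Bdl.B1
import Vale.Agent.Lib.PolyTime.Unary
import Vale.Agent.Lib.PolyTime.Lists2
attribute [-instance] ProperSMul.toContinuousSMul IsTopologicalTorsor.toContinuousSMul IdemSemiring.toCanonicallyOrderedAdd IdemSemiring.toMulLeftMono IdemSemiring.toMulRightMono AddQuantale.instAddLeftMono AddQuantale.instAddRightMono Quantale.instMulLeftMono Quantale.instMulRightMono FiniteDimensional.rclike_to_real IsScalarTower.complexToReal FiniteDimensional.complexToReal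

section

/-!
# The law of a thread (A3a), the stages of the algorithm
-/

namespace Vale.Agent.P317.Alg

open Finset Window

theorem win_eq_Win (n : ℕ) : win n = Win (Fin n) := by
  ext Z
  unfold win
  simp only [mem_union, mem_Om0, mem_biUnion, mem_prs, mem_Om, mem_Win]
  constructor
  · rintro (h | ⟨p, _, h⟩)
    · exact Or.inl h
    · exact Or.inr ⟨p.1, p.2, h⟩
  · rintro (h | ⟨i, j, h⟩)
    · exact Or.inl h
    · exact Or.inr ⟨(i, j), h.ne, h⟩

variable {n : ℕ} (M₁ M₂ : Matroid (Fin n)) (r a L : ℕ)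

/-- the parameters belonging to two matroids -/
noncomputable abbrev PP : Par := Par.mk (oracles M₁ M₂) n r a L

/-- exact weight of stage `κ` -/
noncomputable def WE (κ : ℕ) (Z : Finset (Fin n × Bool)) : ℝ :=
  Vale.Agent.P317.wt (tk κ n) (rN (rkM M₁) (rkM M₂)) Z

/-- rounded weight of stage `κ` -/
noncomputable def WR (I D : Finset ℕ) (κ : ℕ) (Z : Finset (Fin n × Bool)) : ℝ :=
  (PP M₁ M₂ r a L).wt I D κ (enc Z)

variable {M₁ M₂ r a L}

theorem WR_pos (I D : Finset ℕ) (κ : ℕ) (Z : Finset (Fin n × Bool)) :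
    0 < WR M₁ M₂ r a L I D κ Z := Par.wt_pos _ _ _ _ _

theorem WE_pos (κ : ℕ) (Z : Finset (Fin n × Bool)) : 0 < WE M₁ M₂ κ Z :=
  Vale.Agent.P317.wt_pos (by linarith only [one_le_tk κ n]) _ _

theorem dfc_le (hr : rkM M₂ univ = r) {Z : Finset (Fin n × Bool)} (hZ : Z.card = n) :
    (PP M₁ M₂ r a L).dfc (enc Z) ≤ n := by
  rw [dfc_enc M₁ M₂ r a L hr Z]
  have := rN_add_dfct (isRk_rkM M₁) (isRk_rkM M₂) (rkM_empty M₁) Z
  omega

theorem card_win {Z : Finset (Fin n × Bool)} (hZ : Z ∈ Win (Fin n)) : Z.card = n := by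
  rw [card_of_mem_Win hZ, Fintype.card_fin]

/-! ### the ratio of two successive weights -/

theorem hist_succ_le (H : Finset ℕ) (n k i j : ℕ) :
    hist H n k i j ≤ hist H n (k + 1) i j ∧ hist H n (k + 1) i j ≤ hist H n k i j + 1 := by
  unfold hist
  rw [Alg.cnt]
  constructor <;> split_ifs <;> omega

theorem pe_succ (P : Par) (I : Finset ℕ) (κ : ℕ) (S : Finset ℕ) :
    P.pe I κ S ≤ P.pe I (κ + 1) S ∧ P.pe I (κ + 1) S ≤ P.pe I κ S + 1 := by
  unfold Par.pe
  have := hist_succ_le I P.n κ (P.dI S) (P.eI S)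
  split_ifs <;> omega

theorem qe_succ (P : Par) (D : Finset ℕ) (κ : ℕ) (S : Finset ℕ) (hn : 0 < P.n)
    (hd : P.dfc S ≤ P.n) :
    P.qe D κ S ≤ P.qe D (κ + 1) S ∧ P.qe D (κ + 1) S ≤ P.qe D κ S + 2 := by
  unfold Par.qe
  have h1 := hist_succ_le D P.n κ (P.dI S) (P.eI S)
  have h2 := Anneal.floor_step hn hd (k := κ)
  split_ifs <;> omega

theorem wt_up (P : Par) (I D : Finset ℕ) (κ : ℕ) (S : Finset ℕ) (hn : 0 < P.n)
    (hd : P.dfc S ≤ P.n) : P.wt I D (κ + 1) S ≤ 2 * P.wt I D κ S := by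
  unfold Par.wt
  have h1 := pe_succ P I κ S
  have h2 := qe_succ P D κ S hn hd
  have a1 : (2:ℝ) ^ P.pe I (κ + 1) S ≤ 2 ^ (P.pe I κ S + 1) :=
    pow_le_pow_right₀ (by norm_num) h1.2
  have a2 : (2:ℝ) ^ P.qe D κ S ≤ 2 ^ P.qe D (κ + 1) S := pow_le_pow_right₀ (by norm_num) h2.1
  calc (2:ℝ) ^ P.pe I (κ + 1) S / 2 ^ P.qe D (κ + 1) S
      ≤ 2 ^ (P.pe I κ S + 1) / 2 ^ P.qe D κ S := by
        apply div_le_div₀ (by positivity) a1 (by positivity) a2
    _ = _ := by rw [pow_succ]; ring

theorem wt_down (P : Par) (I D : Finset ℕ) (κ : ℕ) (S : Finset ℕ) (hn : 0 < P.n)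
    (hd : P.dfc S ≤ P.n) : P.wt I D κ S ≤ 4 * P.wt I D (κ + 1) S := by
  unfold Par.wt
  have h1 := pe_succ P I κ S
  have h2 := qe_succ P D κ S hn hd
  have a1 : (2:ℝ) ^ P.pe I κ S ≤ 2 ^ P.pe I (κ + 1) S :=
    pow_le_pow_right₀ (by norm_num) h1.1
  have a2 : (2:ℝ) ^ P.qe D (κ + 1) S ≤ 2 ^ (P.qe D κ S + 2) :=
    pow_le_pow_right₀ (by norm_num) h2.2
  calc (2:ℝ) ^ P.pe I κ S / 2 ^ P.qe D κ S
      ≤ 2 ^ P.pe I (κ + 1) S / 2 ^ P.qe D κ S := by
        apply div_le_div_of_nonneg_right a1 (by positivity)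
    _ = 4 * (2 ^ P.pe I (κ + 1) S / 2 ^ (P.qe D κ S + 2)) := by
        rw [pow_add]; field_simp; norm_num
    _ ≤ 4 * (2 ^ P.pe I (κ + 1) S / 2 ^ P.qe D (κ + 1) S) := by
        refine mul_le_mul_of_nonneg_left ?_ (by norm_num)
        exact div_le_div_of_nonneg_left (by positivity) (by positivity) a2

/-! ### comparison with the exact weight -/

/-- the constant of the thread law -/
noncomputable def CT (n : ℕ) : ℝ := 2359296 * (n : ℝ) ^ 8

theorem card_prs (n : ℕ) : ((prs n).card : ℝ) = (n:ℝ) * n - n := by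
  have h1 : prs n = (univ : Finset (Fin n)).offDiag := by
    ext p; simp only [mem_prs, ne_eq, mem_offDiag, mem_univ, true_and]
  rw [h1, offDiag_card, card_univ, Fintype.card_fin, Nat.cast_sub (Nat.le_mul_self n)]
  push_cast
  ring

theorem cmp_stage (hr : rkM M₂ univ = r) (hn : 0 < n) {I D : Finset ℕ} {κ : ℕ}
    (hB : (PP M₁ M₂ r a L).Bal I D κ) :
    Cmp (WE M₁ M₂ κ) (fun Z => WR M₁ M₂ r a L I D κ Z / ∑ Z' ∈ Win (Fin n), WR M₁ M₂ r a L I D κ Z')
      (1 / (64 * (n:ℝ) ^ 2)) := by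
  set P := PP M₁ M₂ r a L with hP
  set N := ∑ Z' ∈ Win (Fin n), WR M₁ M₂ r a L I D κ Z' with hN
  have hNpos : 0 < N := sum_pos (fun Z _ => WR_pos I D κ Z) Win_nonempty
  have hnR : (1:ℝ) ≤ n := by exact_mod_cast hn
  have z0_eq : ∑ Z ∈ Om0 (Fin n), WR M₁ M₂ r a L I D κ Z = P.z0 κ := P.z0_eq I D κ
  have zt_eq : ∀ i j : Fin n, ∑ Z ∈ Om i j, WR M₁ M₂ r a L I D κ Z = P.zt I D κ i j :=
    fun i j => rfl
  have hz0 : 0 < P.z0 κ := by
    rw [← z0_eq]; exact sum_pos (fun Z _ => WR_pos I D κ Z) Om0_nonempty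
  have hNz : N ≤ P.z0 κ * (8 * (n:ℝ) ^ 2) := by
    rw [hN, ← win_eq_Win, sum_win, z0_eq]
    have : ∑ p ∈ prs n, ∑ Z ∈ Om p.1 p.2, WR M₁ M₂ r a L I D κ Z
        ≤ ∑ p ∈ prs n, 8 * P.z0 κ := by
      refine sum_le_sum fun p hp => ?_
      rw [zt_eq]
      exact (hB p.1 p.2 (mem_prs.1 hp)).2
    rw [sum_const, nsmul_eq_mul, card_prs] at this
    nlinarith only [this, hz0, hnR]
  have hcard : ∀ Z ∈ Win (Fin n), Z.card = n := fun Z hZ => card_win hZ
  have h2κ : (0:ℝ) < 2 ^ κ := by positivity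
  refine ⟨WE_pos κ, by positivity, ?_, ?_, ?_, ?_⟩
  · refine ⟨1 / (2 ^ κ * N), by (clear * - hNpos; positivity), fun Z hZ => ?_⟩
    have hc := mu_cmp M₁ M₂ r a L hr κ hn Z (hcard Z (Om0_subset_Win hZ))
    have e : WR M₁ M₂ r a L I D κ Z = P.mu κ (enc Z) := P.wt_col I D κ (mem_Om0.1 hZ)
    rw [e]
    constructor
    · have e2 : 1 / (2 ^ κ * N) * WE M₁ M₂ κ Z = (WE M₁ M₂ κ Z / 2 ^ κ) / N := by
        (clear * - hNpos; field_simp)
      rw [e2]
      exact div_le_div_of_nonneg_right hc.1 hNpos.le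
    · have e2 : 2 * (1 / (2 ^ κ * N)) * WE M₁ M₂ κ Z = (2 * (WE M₁ M₂ κ Z / 2 ^ κ)) / N := by
        (clear * - hNpos; field_simp)
      rw [e2]
      exact div_le_div_of_nonneg_right hc.2 hNpos.le
  · intro i j hij
    have hef := P.ef_pos I D κ i j
    refine ⟨P.ef I D κ i j / (2 ^ κ * N), by (clear * - hef hNpos; positivity), fun Z hZ => ?_⟩
    have hc := mu_cmp M₁ M₂ r a L hr κ hn Z (hcard Z (Om_subset_Win i j hZ))
    have e : WR M₁ M₂ r a L I D κ Z = P.ef I D κ i j * P.mu κ (enc Z) :=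
      P.wt_near I D κ (mem_Om.1 hZ)
    rw [e]
    constructor
    · have e2 : P.ef I D κ i j / (2 ^ κ * N) * WE M₁ M₂ κ Z
          = P.ef I D κ i j * (WE M₁ M₂ κ Z / 2 ^ κ) / N := by
        (clear * - hNpos hef; field_simp)
      rw [e2]
      exact div_le_div_of_nonneg_right (mul_le_mul_of_nonneg_left hc.1 hef.le) hNpos.le
    · have e2 : 2 * (P.ef I D κ i j / (2 ^ κ * N)) * WE M₁ M₂ κ Z
          = P.ef I D κ i j * (2 * (WE M₁ M₂ κ Z / 2 ^ κ)) / N := by
        (clear * - hNpos hef; field_simp)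
      rw [e2]
      exact div_le_div_of_nonneg_right (mul_le_mul_of_nonneg_left hc.2 hef.le) hNpos.le
  · rw [← sum_div, z0_eq, div_le_div_iff₀ (by positivity) hNpos]
    nlinarith only [hNpos, hNz]
  · intro i j hij
    rw [← sum_div, zt_eq, div_le_div_iff₀ (by positivity) hNpos]
    have h1 : P.z0 κ ≤ 8 * P.zt I D κ i j := (hB i j hij).1
    have : P.z0 κ * (8 * (n:ℝ) ^ 2) ≤ 8 * P.zt I D κ i j * (8 * (n:ℝ) ^ 2) :=
      mul_le_mul_of_nonneg_right h1 (by positivity)
    nlinarith only [hNz, this]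

theorem i1_stage (κ : ℕ) : I1 (WE M₁ M₂ κ) :=
  TL.I1_window (WE_pos κ) (Vale.Agent.P317.HR_wt (isRk_rN (isRk_rkM M₁) (isRk_rkM M₂)) (one_le_tk κ n) _)

theorem i2_stage (κ : ℕ) : I2 (WE M₁ M₂ κ) :=
  TL.I2_window (WE_pos κ) (Vale.Agent.P317.HR_wt (isRk_rN (isRk_rkM M₁) (isRk_rkM M₂)) (one_le_tk κ n) _)

theorem stages_hyp (hr : rkM M₂ univ = r) (hn : 1 ≤ n) (h2n : 2 * n ≤ 2 ^ a) (hL : 1 ≤ L)
    {I D : Finset ℕ} {k : ℕ} (hB : ∀ κ ≤ k, (PP M₁ M₂ r a L).Bal I D κ) :
    Stages (1 / 4 ^ a) (1 / (64 * (n:ℝ) ^ 2)) L k (WE M₁ M₂) (WR M₁ M₂ r a L I D) where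
  c_pos := by positivity
  c_le := by
    rw [Fintype.card_fin]
    have h1 : (2 * (n:ℝ)) ≤ 2 ^ a := by exact_mod_cast h2n
    have h2 : (2 * (n:ℝ)) ^ 2 ≤ (2 ^ a) ^ 2 := pow_le_pow_left₀ (by positivity) h1 2
    have h3 : ((2:ℝ) ^ a) ^ 2 = 4 ^ a := by
      rw [← pow_mul, mul_comm, pow_mul]; norm_num
    rw [h3] at h2
    rw [div_mul_eq_mul_div, one_mul, div_le_div_iff₀ (by positivity) (by norm_num)]
    nlinarith only [h2]
  L_pos := hL
  card_pos := by rw [Fintype.card_fin]; omega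
  w_pos := fun κ Z _ => WR_pos I D κ Z
  cmp := fun κ hκ => cmp_stage hr hn (hB κ hκ)
  i1 := fun κ _ => i1_stage κ
  i2 := fun κ _ => i2_stage κ
  up := fun κ Z hZ => wt_up _ I D κ _ hn (dfc_le hr (card_win hZ))
  down := fun κ Z hZ => wt_down _ I D κ _ hn (dfc_le hr (card_win hZ))

theorem CW_le (hn : 1 ≤ n) (h4n : 2 ^ a ≤ 4 * n) :
    CW (Fin n) (1 / 4 ^ a) (1 / (64 * (n:ℝ) ^ 2)) ≤ CT n := by
  unfold CW CT
  rw [Fintype.card_fin]
  have hnR : (1:ℝ) ≤ n := by exact_mod_cast hn
  have h1 : ((2:ℝ) ^ a) ≤ 4 * n := by exact_mod_cast h4n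
  have h2 : ((2:ℝ) ^ a) ^ 2 ≤ (4 * n) ^ 2 := pow_le_pow_left₀ (by positivity) h1 2
  have h3 : ((2:ℝ) ^ a) ^ 2 = 4 ^ a := by
    rw [← pow_mul, mul_comm, pow_mul]; (clear * -; norm_num)
  rw [h3] at h2
  have e : 2304 * (n:ℝ) ^ 4 / (1 / 4 ^ a * (1 / (64 * (n:ℝ) ^ 2)))
      = 147456 * (n:ℝ) ^ 6 * 4 ^ a := by
    field_simp
    ring
  rw [e]
  calc 147456 * (n:ℝ) ^ 6 * 4 ^ a ≤ 147456 * (n:ℝ) ^ 6 * (4 * n) ^ 2 :=
        mul_le_mul_of_nonneg_left h2 (by positivity)
    _ = _ := by ring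

theorem law_eq (I D : Finset ℕ) (k : ℕ) (g : Finset ℕ → ℝ) :
    (PP M₁ M₂ r a L).law I D k g = lawW (WR M₁ M₂ r a L I D k) (fun Z => g (enc Z)) := by
  unfold Par.law lawW Par.zz
  rw [← win_eq_Win]
  rfl

/-- **Thread law**, given the values of `ex` on threads. -/
theorem thread_law_of (hr : rkM M₂ univ = r) (hn : 1 ≤ n) (h2n : 2 * n ≤ 2 ^ a)
    (h4n : 2 ^ a ≤ 4 * n) (hL : 1 ≤ L)
    {I D : Finset ℕ} {k : ℕ} (hB : ∀ κ ≤ k, (PP M₁ M₂ r a L).Bal I D κ)
    {g : Finset ℕ → ℝ} (h0 : ∀ S, 0 ≤ g S) (h1 : ∀ S, g S ≤ 1)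
    (hex : Rnd.ex g ((PP M₁ M₂ r a L).thread I D k) =
      (∑ Z ∈ Om0 (Fin n), St (1 / 4 ^ a) L (WR M₁ M₂ r a L I D) (k + 1) 0
        (fun Z => g (enc Z)) Z) / 2 ^ n) :
    |Rnd.ex g ((PP M₁ M₂ r a L).thread I D k) - (PP M₁ M₂ r a L).law I D k g|
      ≤ ((n:ℝ) ^ 2 + 8 * k) * Real.sqrt (CT n / (L + 1)) := by
  have hst := stages_hyp hr hn h2n hL hB
  have hcol : ∀ Z ∈ Om0 (Fin n), WR M₁ M₂ r a L I D 0 Z = 1 := by
    intro Z hZ
    have := (PP M₁ M₂ r a L).wt_col I D 0 (mem_Om0.1 hZ)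
    rw [Par.mu_zero] at this
    exact this
  have hnear : ∀ i j : Fin n, i ≠ j → ∀ Z ∈ Om i j, WR M₁ M₂ r a L I D 0 Z = 4 := by
    intro i j _ Z hZ
    have := (PP M₁ M₂ r a L).wt_near I D 0 (mem_Om.1 hZ)
    rw [Par.mu_zero] at this
    refine this.trans ?_
    simp only [Par.ef, hist, cnt, add_zero, pow_zero, div_one, mul_one]
    norm_num
  have key := thread_law_abs hst hcol hnear (g := fun Z => g (enc Z))
    (fun Z _ => ⟨h0 _, h1 _⟩)
  rw [Fintype.card_fin] at key
  rw [hex, law_eq]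
  refine key.trans ?_
  refine mul_le_mul_of_nonneg_left (Real.sqrt_le_sqrt ?_) (by (clear * - hn; positivity))
  exact div_le_div_of_nonneg_right (CW_le hn h4n) (by positivity)

end Vale.Agent.P317.Alg
end

section

/-!
# The kernel of one step of the program chain, and the law of the start state
-/

namespace Vale.Agent.P317.Alg.Kern

open Finset Window Rnd

theorem ex_bits' (f : ℕ → ℝ) (m : ℕ) : ∀ v, ex f (bits m v) =
    (∑ i ∈ range (2 ^ m), f (v * 2 ^ m + i)) / (2 : ℝ) ^ m := by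
  induction m with
  | zero => intro v; simp [bits]
  | succ m ih =>
    intro v
    have h1 : bits (m + 1) v = .flip (bits m (v + v)) (bits m (v + v + 1)) := rfl
    rw [h1, ex_flip, ih, ih]
    have h2 : 2 ^ (m + 1) = 2 ^ m + 2 ^ m := by ring
    rw [h2, Finset.sum_range_add]
    have h4 : ∀ i, (v + v) * 2 ^ m + i = v * (2 ^ m + 2 ^ m) + i := by intro i; ring
    have h5 : ∀ i, (v + v + 1) * 2 ^ m + i = v * (2 ^ m + 2 ^ m) + (2 ^ m + i) := by intro i; ring
    simp only [h4, h5]
    rw [pow_succ]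
    (clear * -; field_simp)

theorem ex_flips (f : Bool → ℝ) (m : ℕ) : ∀ b, ex f (flips m b) =
    f false + (1 / 2) ^ m * (f b - f false) := by
  induction m with
  | zero => intro b; simp [flips]
  | succ m ih =>
    intro b
    have h1 : flips (m + 1) b = .flip (flips m false) (flips m b) := rfl
    rw [h1, ex_flip, ih, ih, pow_succ]
    ring

namespace Par

variable (P : Par)

theorem ex_move (g : Finset ℕ → ℝ) (I D : Finset ℕ) (k : ℕ) (S : Finset ℕ) (x y : ℕ) :
    ex g (P.move I D k S x y) = g S +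
      if x ∈ S ∧ y ∉ S ∧ y < P.n + P.n ∧ P.nD (insert y (S.erase x)) ≤ 1 then
        (1 / 2) ^ P.gap I D k S (insert y (S.erase x)) * (g (insert y (S.erase x)) - g S)
      else 0 := by
  unfold Alg.Par.move
  split_ifs with h
  · rw [ex_bind, ex_flips]
    simp only [Bool.false_eq_true, ↓reduceIte, ex_leaf, one_div, inv_pow]
  · simp

theorem half_pow_gap (I D : Finset ℕ) (k : ℕ) (S S' : Finset ℕ) :
    (1 / 2 : ℝ) ^ P.gap I D k S S' = min 1 (P.wt I D k S' / P.wt I D k S) := by
  unfold Alg.Par.gap Alg.Par.wt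
  generalize P.pe I k S = a
  generalize P.qe D k S = b
  generalize P.pe I k S' = a'
  generalize P.qe D k S' = b'
  have e : (2 : ℝ) ^ a' / 2 ^ b' / (2 ^ a / 2 ^ b) = 2 ^ (a' + b) / 2 ^ (a + b') := by
    rw [pow_add, pow_add]
    (clear * -; field_simp)
  rw [e]
  rcases le_total (a + b') (a' + b) with h | h
  · rw [Nat.sub_eq_zero_of_le h, pow_zero, min_eq_left]
    rw [le_div_iff₀ (by positivity), one_mul]
    exact pow_le_pow_right₀ (by norm_num) h
  · obtain ⟨c, hc⟩ := Nat.exists_eq_add_of_le h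
    have hc' : (2 : ℝ) ^ (a + b') = 2 ^ (a' + b) * 2 ^ c := by rw [hc, pow_add]
    rw [hc, Nat.add_sub_cancel_left, ← hc, hc', min_eq_right]
    · rw [div_pow, one_pow]
      field_simp
    · rw [div_le_iff₀ (by positivity), one_mul]
      exact le_mul_of_one_le_right (by positivity) (one_le_pow₀ (by norm_num))

theorem ex_step (g : Finset ℕ → ℝ) (I D : Finset ℕ) (k : ℕ) (S : Finset ℕ) :
    ex g (P.step I D k S) = g S + (1 / 4) ^ P.a *
      ∑ x ∈ range (2 ^ P.a), ∑ y ∈ range (2 ^ P.a),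
        if x ∈ S ∧ y ∉ S ∧ y < P.n + P.n ∧ P.nD (insert y (S.erase x)) ≤ 1 then
          min 1 (P.wt I D k (insert y (S.erase x)) / P.wt I D k S) *
            (g (insert y (S.erase x)) - g S)
        else 0 := by
  unfold Alg.Par.step
  rw [ex_bind]
  simp only [ex_bind, ex_move, half_pow_gap, ex_bits', zero_mul, zero_add]
  rw [← Finset.sum_div]
  have h4 : (4 : ℝ) ^ P.a = (2 : ℝ) ^ P.a * (2 : ℝ) ^ P.a := by rw [← mul_pow]; norm_num
  rw [div_pow, one_pow, h4]
  simp only [sum_add_distrib, sum_const, card_range, nsmul_eq_mul]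
  push_cast
  field_simp

end Par

variable {n : ℕ}

theorem cd_lt (p : Fin n × Bool) : cd p < 2 * n := by
  obtain ⟨⟨i, hi⟩, b⟩ := p
  unfold cd
  cases b <;> simp only [Bool.false_eq_true, ↓reduceIte, add_zero, Order.lt_two_iff, zero_le, mul_lt_mul_iff_right₀] <;> omega

theorem sum_cd (F : ℕ → ℝ) : ∑ x ∈ range (2 * n), F x = ∑ p : Fin n × Bool, F (cd p) := by
  symm
  refine sum_bij (fun p _ => cd p) (fun p _ => mem_range.2 (cd_lt p))
    (fun p _ q _ h => cd_injective h) ?_ (fun p _ => rfl)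
  intro x hx
  have hx := mem_range.1 hx
  refine ⟨(⟨x / 2, by omega⟩, decide (x % 2 = 1)), mem_univ _, ?_⟩
  unfold cd
  rcases Nat.mod_two_eq_zero_or_one x with h | h
  · simp only [h, zero_ne_one, decide_false, Bool.false_eq_true, ↓reduceIte, add_zero]; (clear * - h; omega)
  · simp [h]; omega

@[simp] theorem cd_mem_enc {p : Fin n × Bool} {Z : Finset (Fin n × Bool)} :
    cd p ∈ enc Z ↔ p ∈ Z := by
  unfold enc
  constructor
  · intro h
    obtain ⟨q, hq, hqp⟩ := mem_map.1 h
    exact cd_injective hqp ▸ hq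
  · intro h
    exact mem_map.2 ⟨p, h, rfl⟩

theorem enc_insert (p : Fin n × Bool) (Z : Finset (Fin n × Bool)) :
    enc (insert p Z) = insert (cd p) (enc Z) := by
  unfold enc
  rw [map_insert]; rfl

theorem enc_erase (p : Fin n × Bool) (Z : Finset (Fin n × Bool)) :
    enc (Z.erase p) = (enc Z).erase (cd p) := by
  unfold enc
  rw [map_erase]; rfl

/-! ### the window in terms of the number of double cells -/

theorem cnt_eq (p : ℕ → Bool) (m : ℕ) : cnt p m = ((range m).filter (fun i => p i = true)).card := by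
  induction m with
  | zero => simp [cnt]
  | succ m ih =>
    have h1 : cnt p (m + 1) = cnt p m + if p m then 1 else 0 := rfl
    rw [h1, range_add_one, filter_insert, ih]
    split_ifs with h
    · rw [card_insert_of_notMem (by simp)]
    · rfl

/-- double cells of `Z` -/
def dbl (Z : Finset (Fin n × Bool)) : Finset (Fin n) :=
  univ.filter (fun i => (i, false) ∈ Z ∧ (i, true) ∈ Z)

/-- empty cells of `Z` -/
def emp (Z : Finset (Fin n × Bool)) : Finset (Fin n) :=
  univ.filter (fun i => (i, false) ∉ Z ∧ (i, true) ∉ Z)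

theorem isD_enc (Z : Finset (Fin n × Bool)) (i : Fin n) : isD (enc Z) (i : ℕ) = true ↔ i ∈ dbl Z := by
  unfold isD dbl
  have e1 : (i : ℕ) + (i : ℕ) = cd (i, false) := by unfold cd; simp only [Bool.false_eq_true, ↓reduceIte, add_zero]; omega
  have e2 : (i : ℕ) + (i : ℕ) + 1 = cd (i, true) := by unfold cd; simp; (clear * -; omega)
  rw [decide_eq_true_iff, e2, e1]
  simp only [cd_mem_enc, mem_filter, mem_univ, true_and]

theorem isE_enc (Z : Finset (Fin n × Bool)) (i : Fin n) : isE (enc Z) (i : ℕ) = true ↔ i ∈ emp Z := by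
  unfold isE emp
  have e1 : (i : ℕ) + (i : ℕ) = cd (i, false) := by unfold cd; simp only [Bool.false_eq_true, ↓reduceIte, add_zero]; omega
  have e2 : (i : ℕ) + (i : ℕ) + 1 = cd (i, true) := by unfold cd; simp; omega
  rw [decide_eq_true_iff, e2, e1]
  simp only [cd_mem_enc, mem_filter, mem_univ, true_and]

theorem cnt_isD (Z : Finset (Fin n × Bool)) : cnt (isD (enc Z)) n = (dbl Z).card := by
  rw [cnt_eq]
  symm
  refine card_bij (fun i _ => (i : ℕ)) (fun i hi => ?_) (fun i _ j _ h => Fin.ext h) ?_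
  · simp only [mem_filter, mem_range, Fin.is_lt, true_and]
    exact (isD_enc Z i).2 hi
  · intro i hi
    obtain ⟨hi, h2⟩ := mem_filter.1 hi
    exact ⟨⟨i, mem_range.1 hi⟩, (isD_enc Z ⟨i, mem_range.1 hi⟩).1 h2, rfl⟩

theorem nD_enc (P : Par) (Z : Finset (Fin P.n × Bool)) : P.nD (enc Z) = (dbl Z).card := cnt_isD Z

theorem card_add_emp (Z : Finset (Fin n × Bool)) : Z.card + (emp Z).card = n + (dbl Z).card := by
  have h1 : Z.card = ∑ i : Fin n, ((if (i, false) ∈ Z then 1 else 0) +
      (if (i, true) ∈ Z then 1 else 0)) := by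
    have : Z.card = ∑ p : Fin n × Bool, if p ∈ Z then 1 else 0 := by
      rw [sum_ite_mem, univ_inter, sum_const, smul_eq_mul, mul_one]
    rw [this, Fintype.sum_prod_type]
    refine sum_congr rfl fun i _ => ?_
    rw [Fintype.sum_bool, add_comm]
  have h2 : (emp Z).card = ∑ i : Fin n, if (i, false) ∉ Z ∧ (i, true) ∉ Z then 1 else 0 := by
    unfold emp; rw [card_filter]
  have h3 : (dbl Z).card = ∑ i : Fin n, if (i, false) ∈ Z ∧ (i, true) ∈ Z then 1 else 0 := by
    unfold dbl; rw [card_filter]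
  have h4 : n + (dbl Z).card = ∑ i : Fin n, (1 + if (i, false) ∈ Z ∧ (i, true) ∈ Z then 1 else 0) := by
    rw [sum_add_distrib, h3]; simp only [sum_boole, Nat.cast_id, sum_const, card_univ, Fintype.card_fin, smul_eq_mul, mul_one, Nat.add_left_cancel_iff]
  rw [h4, h1, h2, ← sum_add_distrib]
  refine sum_congr rfl fun i _ => ?_
  by_cases ha : (i, false) ∈ Z <;> by_cases hb : (i, true) ∈ Z <;> simp [ha, hb]

theorem isCol_iff (Z : Finset (Fin n × Bool)) : IsCol Z ↔ dbl Z = ∅ ∧ emp Z = ∅ := by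
  unfold IsCol dbl emp
  simp only [filter_eq_empty_iff, mem_univ, true_implies]
  constructor
  · intro h
    constructor <;> intro i hi
    · exact (h i).1 hi.1 hi.2
    · exact hi.1 ((h i).2 hi.2)
  · rintro ⟨h1, h2⟩ i
    constructor
    · intro ha hb
      exact h1 ⟨ha, hb⟩
    · intro hb
      by_contra ha
      exact h2 ⟨ha, hb⟩

theorem isNear_iff {i j : Fin n} (hij : i ≠ j) (Z : Finset (Fin n × Bool)) :
    IsNear i j Z ↔ dbl Z = {i} ∧ emp Z = {j} := by
  unfold IsNear dbl emp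
  simp only [Finset.ext_iff, mem_filter, mem_univ, true_and, mem_singleton]
  constructor
  · rintro ⟨h1, h2, h3, h4, h5⟩
    constructor
    · intro k
      constructor
      · rintro ⟨ha, hb⟩
        by_contra hk
        by_cases hkj : k = j
        · subst hkj; exact h3 ha
        · exact (h5 k hk hkj).1 ha hb
      · rintro rfl
        exact ⟨h1, h2⟩
    · intro k
      constructor
      · rintro ⟨ha, hb⟩
        by_contra hk
        by_cases hki : k = i
        · subst hki; exact ha h1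
        · exact ha ((h5 k hki hk).2 hb)
      · rintro rfl
        exact ⟨h3, h4⟩
  · rintro ⟨h1, h2⟩
    have hi := (h1 i).2 rfl
    have hj := (h2 j).2 rfl
    refine ⟨hi.1, hi.2, hj.1, hj.2, fun k hki hkj => ?_⟩
    constructor
    · intro ha hb
      exact hki ((h1 k).1 ⟨ha, hb⟩)
    · intro hb
      by_contra ha
      exact hkj ((h2 k).1 ⟨ha, hb⟩)

theorem mem_win {Z : Finset (Fin n × Bool)} :
    Z ∈ win n ↔ IsCol Z ∨ ∃ i j, i ≠ j ∧ IsNear i j Z := by
  unfold win prs
  simp only [mem_union, mem_Om0, mem_biUnion, mem_filter, mem_univ, true_and, mem_Om, Prod.exists]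

theorem dbl_disjoint_emp (Z : Finset (Fin n × Bool)) {i : Fin n} (h : i ∈ dbl Z) : i ∉ emp Z := by
  unfold dbl at h
  unfold emp
  simp only [mem_filter, mem_univ, true_and] at h ⊢
  tauto

theorem mem_win_iff {Z : Finset (Fin n × Bool)} :
    Z ∈ win n ↔ Z.card = n ∧ (dbl Z).card ≤ 1 := by
  have hc := card_add_emp Z
  rw [mem_win]
  constructor
  · rintro (h | ⟨i, j, hij, h⟩)
    · rw [isCol_iff] at h
      rw [h.1, h.2] at hc
      simp only [card_empty] at hc
      refine ⟨by omega, ?_⟩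
      rw [h.1]; simp only [card_empty, zero_le]
    · rw [isNear_iff hij] at h
      rw [h.1, h.2] at hc
      simp only [card_singleton] at hc
      refine ⟨by omega, ?_⟩
      rw [h.1]; simp
  · rintro ⟨h1, h2⟩
    rcases Nat.le_one_iff_eq_zero_or_eq_one.1 h2 with h0 | h0
    · left
      rw [isCol_iff]
      exact ⟨card_eq_zero.1 h0, card_eq_zero.1 (by omega)⟩
    · right
      obtain ⟨i, hi⟩ := card_eq_one.1 h0
      obtain ⟨j, hj⟩ := card_eq_one.1 (show (emp Z).card = 1 by (clear * - hc h1 h0; omega))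
      have hij : i ≠ j := by
        rintro rfl
        exact dbl_disjoint_emp Z (i := i) (by rw [hi]; simp) (by rw [hj]; simp)
      exact ⟨i, j, hij, (isNear_iff hij Z).2 ⟨hi, hj⟩⟩

/-- exchange of `x` for `y` (same as `Window.exch`) -/
theorem card_exch {Z : Finset (Fin n × Bool)} {x y : Fin n × Bool} (hx : x ∈ Z) (hy : y ∉ Z) :
    (insert y (Z.erase x)).card = Z.card := by
  rw [card_insert_of_notMem (fun h => hy (mem_of_mem_erase h)), card_erase_of_mem hx]
  have : 0 < Z.card := card_pos.2 ⟨x, hx⟩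
  omega

namespace Par

variable (P : Par)

/-- K1: the kernel of one step -/
theorem ex_step_enc (hP : 2 * P.n ≤ 2 ^ P.a) (g : Finset ℕ → ℝ) (I D : Finset ℕ) (k : ℕ)
    {Z : Finset (Fin P.n × Bool)} (hZ : Z ∈ win P.n) :
    ex g (P.step I D k (enc Z)) = g (enc Z) + (1 / 4) ^ P.a *
      ∑ x, ∑ y, if x ∈ Z ∧ y ∉ Z ∧ insert y (Z.erase x) ∈ win P.n then
        min 1 (P.wt I D k (enc (insert y (Z.erase x))) / P.wt I D k (enc Z)) *
          (g (enc (insert y (Z.erase x))) - g (enc Z)) else 0 := by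
  rw [ex_step]
  congr 2
  have hsub : range (2 * P.n) ⊆ range (2 ^ P.a) := by
    intro x hx
    rw [mem_range] at hx ⊢
    (clear * - hP hx; omega)
  rw [← sum_subset hsub, sum_cd]
  · refine sum_congr rfl fun x _ => ?_
    rw [← sum_subset hsub, sum_cd]
    · refine sum_congr rfl fun y _ => ?_
      have hy2 : cd y < P.n + P.n := by have := cd_lt y; omega
      by_cases hx : x ∈ Z
      · by_cases hy : y ∈ Z
        · simp only [cd_mem_enc, hy, not_true_eq_false, false_and, and_false, ↓reduceIte]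
        · have hw : P.nD (insert (cd y) ((enc Z).erase (cd x))) ≤ 1 ↔
              insert y (Z.erase x) ∈ win P.n := by
            rw [← enc_erase, ← enc_insert, nD_enc, mem_win_iff, card_exch hx hy,
              (mem_win_iff.1 hZ).1]
            simp only [true_and]
          simp only [cd_mem_enc, hx, hy, hy2, hw, not_false_eq_true, true_and]
          rw [enc_insert, enc_erase]
      · simp only [cd_mem_enc, hx, not_false_eq_true, erase_eq_of_notMem, false_and, ↓reduceIte]
    · intro y _ hy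
      rw [if_neg]
      rintro ⟨-, -, h, -⟩
      apply hy
      rw [mem_range]
      omega
  · intro x _ hx
    refine sum_eq_zero fun y _ => ?_
    rw [if_neg]
    rintro ⟨h, -⟩
    unfold enc at h
    obtain ⟨p, -, rfl⟩ := mem_map.1 h
    exact hx (mem_range.2 (cd_lt p))

end Par

/-! ### the start state -/

/-- the codes chosen by `c` in the cells `i, …, i + m - 1` -/
def cho {m : ℕ} (i : ℕ) (c : Fin m → Bool) : Finset ℕ :=
  univ.image (fun j : Fin m => (i + j) + (i + j) + if c j then 1 else 0)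

theorem cho_cons {m : ℕ} (i : ℕ) (b : Bool) (c : Fin m → Bool) :
    cho i (Fin.cons b c : Fin (m + 1) → Bool) = insert (i + i + if b then 1 else 0) (cho (i + 1) c) := by
  unfold cho
  ext x
  simp only [mem_image, mem_univ, true_and, mem_insert, Fin.exists_fin_succ, Fin.val_zero,
    Fin.cons_zero, Fin.val_succ, Fin.cons_succ, add_zero]
  constructor
  · rintro (h | ⟨j, hj⟩)
    · exact Or.inl h.symm
    · refine Or.inr ⟨j, ?_⟩
      rw [← hj]; ring_nf
  · rintro (h | ⟨j, hj⟩)
    · exact Or.inl h.symm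
    · refine Or.inr ⟨j, ?_⟩
      rw [← hj]; ring_nf

theorem ex_start (g : Finset ℕ → ℝ) (m : ℕ) : ∀ (i : ℕ) (S : Finset ℕ),
    ex g (Par.start m i S) = (∑ c : Fin m → Bool, g (S ∪ cho i c)) / 2 ^ m := by
  induction m with
  | zero =>
    intro i S
    simp only [Par.start, ex_leaf, univ_unique, cho, univ_eq_empty, image_empty, union_empty, sum_const, card_singleton, one_smul, pow_zero, div_one]
  | succ m ih =>
    intro i S
    have h1 : Par.start (m + 1) i S = .flip (Par.start m (i + 1) (insert (i + i) S))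
      (Par.start m (i + 1) (insert (i + i + 1) S)) := rfl
    rw [h1, ex_flip, ih, ih, ← Equiv.sum_comp (Fin.consEquiv (fun _ => Bool)),
      Fintype.sum_prod_type, Fintype.sum_bool, pow_succ]
    have e : ∀ (b : Bool) (c : Fin m → Bool),
        S ∪ cho i (Fin.consEquiv (fun _ => Bool) (b, c)) =
          insert (i + i + if b then 1 else 0) S ∪ cho (i + 1) c := by
      intro b c
      have : (Fin.consEquiv (fun _ => Bool) (b, c) : Fin (m + 1) → Bool) = Fin.cons b c := rfl
      rw [this, cho_cons, insert_union, union_insert]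
    simp only [e]
    simp only [if_true, Bool.false_eq_true, if_false, add_zero]
    field_simp
    ring

/-- the colourful set chosen by `c` -/
def colo (c : Fin n → Bool) : Finset (Fin n × Bool) := univ.image (fun i => (i, c i))

theorem mem_colo {c : Fin n → Bool} {p : Fin n × Bool} : p ∈ colo c ↔ p.2 = c p.1 := by
  unfold colo
  simp only [mem_image, mem_univ, true_and]
  constructor
  · rintro ⟨i, rfl⟩; rfl
  · intro h
    exact ⟨p.1, by rw [← h]⟩

theorem enc_colo (c : Fin n → Bool) : enc (colo c) = cho 0 c := by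
  unfold enc colo cho
  rw [map_eq_image, image_image]
  refine image_congr fun i _ => ?_
  simp only [Function.comp, Function.Embedding.coeFn_mk, cd]
  ring_nf

theorem sum_Om0_eq (F : Finset (Fin n × Bool) → ℝ) :
    ∑ Z ∈ Om0 (Fin n), F Z = ∑ c : Fin n → Bool, F (colo c) := by
  symm
  refine sum_bij (fun c _ => colo c) ?_ ?_ ?_ (fun c _ => rfl)
  · intro c _
    rw [mem_Om0]
    intro k
    rw [mem_colo, mem_colo]
    cases c k <;> simp
  · intro c _ d _ h
    funext k
    have h1 : (k, c k) ∈ colo d := by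
      rw [← h, mem_colo]
    rw [mem_colo] at h1
    exact h1
  · intro Z hZ
    rw [mem_Om0] at hZ
    refine ⟨fun k => decide ((k, true) ∈ Z), mem_univ _, ?_⟩
    ext ⟨k, b⟩
    rw [mem_colo]
    cases b
    · simp only [hZ k]
      by_cases h : (k, true) ∈ Z <;> simp [h]
    · by_cases h : (k, true) ∈ Z <;> simp

/-- K2: the law of the start state -/
theorem ex_start_eq (P : Par) (g : Finset ℕ → ℝ) :
    ex g (Par.start P.n 0 ∅) = (∑ Z ∈ Om0 (Fin P.n), g (enc Z)) / 2 ^ P.n := by
  rw [ex_start, sum_Om0_eq]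
  simp only [empty_union, enc_colo]

/-! ### the thread as an operator -/

theorem mem_Win_iff {Z : Finset (Fin n × Bool)} : Z ∈ Win (Fin n) ↔ Z ∈ win n := by
  rw [Window.mem_Win, mem_win]
  constructor
  · rintro (h | ⟨i, j, h⟩)
    · exact Or.inl h
    · refine Or.inr ⟨i, j, ?_, h⟩
      rintro rfl
      exact h.2.2.1 h.1
  · rintro (h | ⟨i, j, _, h⟩)
    · exact Or.inl h
    · exact Or.inr ⟨i, j, h⟩

theorem op_congr {V : Type*} [Fintype V] [DecidableEq V] {c : ℝ} {w g g' : Finset (V × Bool) → ℝ}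
    (h : ∀ Z ∈ Win V, g Z = g' Z) {Z : Finset (V × Bool)} (hZ : Z ∈ Win V) :
    Window.op c w g Z = Window.op c w g' Z := by
  unfold Window.op
  rw [h Z hZ]
  congr 2
  refine sum_congr rfl fun x _ => sum_congr rfl fun y _ => ?_
  split_ifs with hh
  · rw [h _ hh.2.2]
  · rfl

theorem iter_op_congr {V : Type*} [Fintype V] [DecidableEq V] {c : ℝ}
    {w : Finset (V × Bool) → ℝ} (m : ℕ) : ∀ {g g' : Finset (V × Bool) → ℝ}
    (_ : ∀ Z ∈ Win V, g Z = g' Z) {Z : Finset (V × Bool)} (_ : Z ∈ Win V),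
    (Window.op c w)^[m] g Z = (Window.op c w)^[m] g' Z := by
  induction m with
  | zero => intro g g' h Z hZ; exact h Z hZ
  | succ m ih =>
    intro g g' h Z hZ
    rw [Function.iterate_succ_apply, Function.iterate_succ_apply]
    exact ih (fun Z hZ => op_congr h hZ) hZ

end Vale.Agent.P317.Alg.Kern

namespace Vale.Agent.P317.Alg.Par

open Finset Window Rnd

variable (P : Par)

/-- K1: one step of the program chain is the window operator -/
theorem K1 (hP : 2 * P.n ≤ 2 ^ P.a) (g : Finset ℕ → ℝ) (I D : Finset ℕ) (k : ℕ)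
    {Z : Finset (Fin P.n × Bool)} (hZ : Z ∈ Win (Fin P.n)) :
    ex g (P.step I D k (enc Z)) =
      Window.op ((1 / 4) ^ P.a) (fun Z => P.wt I D k (enc Z)) (fun Z => g (enc Z)) Z := by
  rw [Kern.Par.ex_step_enc P hP g I D k (Kern.mem_Win_iff.1 hZ)]
  unfold Window.op Window.exch
  simp only [Kern.mem_Win_iff]

/-- K2: the law of the start state -/
theorem K2 (g : Finset ℕ → ℝ) :
    ex g (Par.start P.n 0 ∅) = (∑ Z ∈ Om0 (Fin P.n), g (enc Z)) / 2 ^ P.n :=
  Kern.ex_start_eq P g

theorem ex_rep_step (hP : 2 * P.n ≤ 2 ^ P.a) (I D : Finset ℕ) (k : ℕ) (m : ℕ) :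
    ∀ (g : Finset ℕ → ℝ) {Z : Finset (Fin P.n × Bool)} (_ : Z ∈ Win (Fin P.n)),
    ex g (rep (P.step I D k) m (enc Z)) =
      (Window.op ((1 / 4) ^ P.a) (fun Z => P.wt I D k (enc Z)))^[m] (fun Z => g (enc Z)) Z := by
  induction m with
  | zero => intro g Z _; rfl
  | succ m ih =>
    intro g Z hZ
    have h1 : rep (P.step I D k) (m + 1) (enc Z) =
      (P.step I D k (enc Z)).bind (rep (P.step I D k) m) := rfl
    rw [h1, ex_bind, P.K1 hP _ I D k hZ, Function.iterate_succ_apply']
    exact Kern.op_congr (fun Z hZ => ih g hZ) hZ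

theorem ex_stages (hP : 2 * P.n ≤ 2 ^ P.a) (I D : Finset ℕ) (g : Finset ℕ → ℝ) (m : ℕ) :
    ∀ (κ : ℕ) {Z : Finset (Fin P.n × Bool)} (_ : Z ∈ Win (Fin P.n)),
    ex g (P.stages I D m κ (enc Z)) =
      Window.St ((1 / 4) ^ P.a) P.L (fun κ Z => P.wt I D κ (enc Z)) m κ (fun Z => g (enc Z)) Z := by
  induction m with
  | zero => intro κ Z _; rfl
  | succ m ih =>
    intro κ Z hZ
    have h1 : P.stages I D (m + 1) κ (enc Z) =
      (rep (P.step I D κ) P.L (enc Z)).bind (P.stages I D m (κ + 1)) := rfl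
    rw [h1, ex_bind, P.ex_rep_step hP I D κ P.L _ hZ, Window.St]
    exact Kern.iter_op_congr P.L (fun Z hZ => ih (κ + 1) hZ) hZ

/-- **The thread** as an operator (K1 + K2). -/
theorem ex_thread (hP : 2 * P.n ≤ 2 ^ P.a) (I D : Finset ℕ) (k : ℕ) (g : Finset ℕ → ℝ) :
    ex g (P.thread I D k) =
      (∑ Z ∈ Om0 (Fin P.n), Window.St ((1 / 4) ^ P.a) P.L (fun κ Z => P.wt I D κ (enc Z))
        (k + 1) 0 (fun Z => g (enc Z)) Z) / 2 ^ P.n := by
  unfold thread
  rw [ex_bind, P.K2]
  congr 1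
  refine sum_congr rfl fun Z hZ => ?_
  exact P.ex_stages hP I D g (k + 1) 0 (Window.Om0_subset_Win hZ)

end Vale.Agent.P317.Alg.Par
end

section

/-!
# The law of a thread (A3a), final form
-/

namespace Vale.Agent.P317.Alg

open Finset Window

variable {n : ℕ} {M₁ M₂ : Matroid (Fin n)} {r a L : ℕ}

/-- **Thread law** (A3a). -/
theorem thread_law (hr : rkM M₂ univ = r) (hn : 1 ≤ n) (h2n : 2 * n ≤ 2 ^ a)
    (h4n : 2 ^ a ≤ 4 * n) (hL : 1 ≤ L)
    {I D : Finset ℕ} {k : ℕ} (hB : ∀ κ ≤ k, (PP M₁ M₂ r a L).Bal I D κ)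
    {g : Finset ℕ → ℝ} (h0 : ∀ S, 0 ≤ g S) (h1 : ∀ S, g S ≤ 1) :
    |Rnd.ex g ((PP M₁ M₂ r a L).thread I D k) - (PP M₁ M₂ r a L).law I D k g|
      ≤ ((n:ℝ) ^ 2 + 8 * k) * Real.sqrt (CT n / (L + 1)) := by
  refine thread_law_of hr hn h2n h4n hL hB h0 h1 ?_
  have := (PP M₁ M₂ r a L).ex_thread h2n I D k g
  rw [this]
  have e : (1 / 4 : ℝ) ^ a = 1 / 4 ^ a := by rw [div_pow, one_pow]
  change _ = (∑ Z ∈ Om0 (Fin n), St (1 / 4 ^ a) L (WR M₁ M₂ r a L I D) (k + 1) 0
        (fun Z => g (enc Z)) Z) / 2 ^ n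
  rw [← e]
  rfl

end Vale.Agent.P317.Alg
end

section

/-!
# A3b, final form: accuracy of the algorithm with explicit parameters
-/

open Finset

namespace Vale.Agent.P317.Alg

open Window Anneal Rnd

/-- the accuracy parameter -/
noncomputable def th (n u e : ℕ) : ℝ := 1 / (288 * (n : ℝ) ^ 3 * u * e)

lemma th_nonneg (n u e : ℕ) : 0 ≤ th n u e := by unfold th; positivity

/-- arithmetic for the thread law -/
lemma arith_thread {n u e k : ℕ} (hn : 1 ≤ n) (he : 1 ≤ e) (hu17 : 17 ≤ u) (hnu : n ≤ u)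
    (heu : e ≤ u) (hk : k < n * u) :
    ((n : ℝ) ^ 2 + 8 * k) * Real.sqrt (CT n / (((u ^ 34 : ℕ) : ℝ) + 1)) ≤ th n u e / 2 := by
  have hn' : (1 : ℝ) ≤ n := by exact_mod_cast hn
  have he' : (1 : ℝ) ≤ e := by exact_mod_cast he
  have hu' : (17 : ℝ) ≤ u := by exact_mod_cast hu17
  have hnu' : (n : ℝ) ≤ u := by exact_mod_cast hnu
  have heu' : (e : ℝ) ≤ u := by exact_mod_cast heu
  have hup : (0 : ℝ) < u := by linarith only [hu']
  have hk' : (k : ℝ) ≤ n * u := by exact_mod_cast hk.le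
  have h1 : Real.sqrt (CT n / (((u ^ 34 : ℕ) : ℝ) + 1)) ≤ 1536 * (u : ℝ) ^ 4 / (u : ℝ) ^ 17 := by
    rw [Real.sqrt_le_left (by positivity)]
    unfold CT
    push_cast
    have e1 : (1536 * (u : ℝ) ^ 4 / (u : ℝ) ^ 17) ^ 2 = 2359296 * (u : ℝ) ^ 8 / (u : ℝ) ^ 34 := by
      rw [div_pow]
      congr 1 <;> ring
    rw [e1]
    have e2 : 2359296 * (n : ℝ) ^ 8 ≤ 2359296 * (u : ℝ) ^ 8 := by gcongr
    exact div_le_div₀ (by positivity) e2 (by positivity) (by linarith only [])
  have h2 : (n : ℝ) ^ 2 + 8 * k ≤ 9 * (u : ℝ) ^ 2 := by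
    have a1 : (n : ℝ) ^ 2 ≤ (u : ℝ) ^ 2 := by (clear * - hn hnu'; gcongr)
    have a2 : (n : ℝ) * u ≤ u * u := by gcongr
    linarith
  have h3 : ((n : ℝ) ^ 2 + 8 * k) * Real.sqrt (CT n / (((u ^ 34 : ℕ) : ℝ) + 1)) ≤
      (9 * (u : ℝ) ^ 2) * (1536 * (u : ℝ) ^ 4 / (u : ℝ) ^ 17) :=
    mul_le_mul h2 h1 (Real.sqrt_nonneg _) (by positivity)
  refine h3.trans ?_
  have h4 : (9 * (u : ℝ) ^ 2) * (1536 * (u : ℝ) ^ 4 / (u : ℝ) ^ 17) = 13824 / (u : ℝ) ^ 11 := by
    field_simp
    ring
  rw [h4]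
  have h5 : (1 : ℝ) / (576 * (u : ℝ) ^ 5) ≤ th n u e / 2 := by
    unfold th
    rw [div_div]
    apply one_div_le_one_div_of_le (by positivity)
    calc 288 * (n : ℝ) ^ 3 * u * e * 2 ≤ 288 * (u : ℝ) ^ 3 * u * u * 2 := by gcongr
      _ = 576 * (u : ℝ) ^ 5 := by ring
  refine le_trans ?_ h5
  rw [div_le_div_iff₀ (by positivity) (by positivity)]
  have h6 : (24137569 : ℝ) ≤ (u : ℝ) ^ 6 := by
    calc (24137569 : ℝ) = 17 ^ 6 := by norm_num
      _ ≤ _ := by (clear * - hu'; gcongr)
  have h7 : (0 : ℝ) < (u : ℝ) ^ 5 := by positivity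
  have h8 : (u : ℝ) ^ 11 = (u : ℝ) ^ 6 * (u : ℝ) ^ 5 := by ring
  rw [h8]
  nlinarith only [h6, hu']

/-- arithmetic for the failure probability -/
lemma arith_fail {n u e l : ℕ} (hn : 1 ≤ n) (he : 1 ≤ e) (hu17 : 17 ≤ u) (hnu : n ≤ u)
    (heu : e ≤ u) (hlu : l ≤ u) :
    ((n * u : ℕ) : ℝ) * (((n : ℝ) ^ 2 + 1) *
      (4 * Real.exp (-(((u ^ 34 : ℕ) : ℝ) * (th n u e / 2) ^ 2 / 4)))) ≤ (1 / 2) ^ l := by
  have hn' : (1 : ℝ) ≤ n := by exact_mod_cast hn
  have he' : (1 : ℝ) ≤ e := by exact_mod_cast he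
  have hu' : (17 : ℝ) ≤ u := by exact_mod_cast hu17
  have hnu' : (n : ℝ) ≤ u := by exact_mod_cast hnu
  have heu' : (e : ℝ) ≤ u := by exact_mod_cast heu
  have hlu' : (l : ℝ) ≤ u := by exact_mod_cast hlu
  have hup : (0 : ℝ) < u := by linarith only [hu']
  have h5 : (1 : ℝ) / (576 * (u : ℝ) ^ 5) ≤ th n u e / 2 := by
    unfold th
    rw [div_div]
    apply one_div_le_one_div_of_le (by positivity)
    calc 288 * (n : ℝ) ^ 3 * u * e * 2 ≤ 288 * (u : ℝ) ^ 3 * u * u * 2 := by (clear * - hn hnu' hu17 heu' he; gcongr)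
      _ = 576 * (u : ℝ) ^ 5 := by ring
  have h6 : 6 * (u : ℝ) ≤ ((u ^ 34 : ℕ) : ℝ) * (th n u e / 2) ^ 2 / 4 := by
    have a1 : ((1 : ℝ) / (576 * (u : ℝ) ^ 5)) ^ 2 ≤ (th n u e / 2) ^ 2 := by (clear * - hu17 h5; gcongr)
    push_cast
    have a2 : (u : ℝ) ^ 34 * ((1 : ℝ) / (576 * (u : ℝ) ^ 5)) ^ 2 / 4 =
        (u : ℝ) ^ 24 / 1327104 := by
      field_simp
      ring
    have a3 : (u : ℝ) ^ 34 * ((1 : ℝ) / (576 * (u : ℝ) ^ 5)) ^ 2 / 4 ≤
        (u : ℝ) ^ 34 * (th n u e / 2) ^ 2 / 4 := by gcongr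
    refine le_trans ?_ a3
    rw [a2, le_div_iff₀ (by norm_num)]
    have a4 : (1419857 : ℝ) ≤ (u : ℝ) ^ 5 := by
      calc (1419857 : ℝ) = 17 ^ 5 := by norm_num
        _ ≤ _ := by (clear * - hu'; gcongr)
    have a5 : (6 : ℝ) ≤ (u : ℝ) ^ 18 := by
      calc (6 : ℝ) ≤ 17 ^ 18 := by norm_num
        _ ≤ _ := by (clear * - hu'; gcongr)
    calc 6 * (u : ℝ) * 1327104 ≤ (u : ℝ) ^ 18 * u * (u : ℝ) ^ 5 := by
          apply mul_le_mul _ _ (by positivity) (by positivity)
          · exact mul_le_mul_of_nonneg_right a5 hup.le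
          · linarith only [a4]
      _ = (u : ℝ) ^ 24 := by ring
  have h7 : Real.exp (-(((u ^ 34 : ℕ) : ℝ) * (th n u e / 2) ^ 2 / 4)) ≤
      Real.exp (-(6 * (u : ℝ))) := Real.exp_le_exp.mpr (by linarith only [h6])
  have h8 : ((n * u : ℕ) : ℝ) ≤ (u : ℝ) ^ 2 := by
    push_cast
    nlinarith only [hnu']
  have h9 : (n : ℝ) ^ 2 + 1 ≤ 2 * (u : ℝ) ^ 2 := by nlinarith only [hu', hnu']
  have h10 : ((n * u : ℕ) : ℝ) * (((n : ℝ) ^ 2 + 1) *
      (4 * Real.exp (-(((u ^ 34 : ℕ) : ℝ) * (th n u e / 2) ^ 2 / 4)))) ≤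
      (u : ℝ) ^ 2 * ((2 * (u : ℝ) ^ 2) * (4 * Real.exp (-(6 * (u : ℝ))))) := by
    (clear * - h8 h9 h7 hu17 hn; gcongr)
  refine h10.trans ?_
  have h11 : (u : ℝ) ^ 2 * ((2 * (u : ℝ) ^ 2) * (4 * Real.exp (-(6 * (u : ℝ))))) ≤
      (u : ℝ) ^ 5 * Real.exp (-(6 * (u : ℝ))) := by
    have : (u : ℝ) ^ 2 * ((2 * (u : ℝ) ^ 2) * (4 * Real.exp (-(6 * (u : ℝ))))) =
        (8 * (u : ℝ) ^ 4) * Real.exp (-(6 * (u : ℝ))) := by ring
    rw [this]
    apply mul_le_mul_of_nonneg_right _ (Real.exp_pos _).le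
    have : (u : ℝ) ^ 5 = u * (u : ℝ) ^ 4 := by ring
    rw [this]
    have h4 : (0:ℝ) ≤ (u : ℝ) ^ 4 := by positivity
    nlinarith only [hu', h4]
  refine h11.trans ?_
  have h12 : (u : ℝ) ^ 5 ≤ Real.exp (5 * u) := by
    have : (u : ℝ) ≤ Real.exp u := by linarith only [Real.add_one_le_exp (u : ℝ)]
    calc (u : ℝ) ^ 5 ≤ (Real.exp u) ^ 5 := by gcongr
      _ = Real.exp (5 * u) := by rw [← Real.exp_nat_mul]; norm_num
  calc (u : ℝ) ^ 5 * Real.exp (-(6 * (u : ℝ))) ≤ Real.exp (5 * u) * Real.exp (-(6 * (u : ℝ))) := by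
        (clear * - h12; gcongr)
    _ = Real.exp (-(u : ℝ)) := by rw [← Real.exp_add]; congr 1; ring
    _ ≤ Real.exp (-(l : ℝ)) := Real.exp_le_exp.mpr (by linarith only [hlu'])
    _ ≤ (1 / 2) ^ l := by
        have h13 : (2 : ℝ) ^ l ≤ Real.exp l := by
          have h14 : (2 : ℝ) ≤ Real.exp 1 := by
            have := Real.add_one_le_exp (1 : ℝ)
            linarith only [this]
          calc (2 : ℝ) ^ l ≤ (Real.exp 1) ^ l := by gcongr
            _ = Real.exp l := by rw [← Real.exp_nat_mul]; simp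
        rw [Real.exp_neg, one_div, inv_pow]
        exact inv_anti₀ (by positivity) h13

variable {n : ℕ} {M₁ M₂ : Matroid (Fin n)} {r a : ℕ}

/-- the number of colourful sets of deficiency zero is the number of common bases -/
theorem nb_eq (hr : rkM M₂ univ = r) (heq : M₁.eRank = M₂.eRank) (L : ℕ) :
    (PP M₁ M₂ r a L).nb = (comBases M₁ M₂).card := by
  rw [card_comBases M₁ M₂ heq]
  unfold Par.nb
  congr 1
  refine filter_congr fun Z _ => ?_
  have := dfc_enc M₁ M₂ r a L hr Z
  change (PP M₁ M₂ r a L).dfc (enc Z) = 0 ↔ _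
  rw [this]

/-- **Accuracy of the algorithm.** -/
theorem accuracy (hr : rkM M₂ univ = r) (heq : M₁.eRank = M₂.eRank) {e l u : ℕ} (he : 1 ≤ e)
    (hu : u = n + e + l + 16) (h2n : 2 * n ≤ 2 ^ a) (h4n : 1 ≤ n → 2 ^ a ≤ 4 * n) :
    1 - (1 / 2 : ℝ) ^ l ≤ Rnd.prob (fun f : ℕ × ℕ => 0 < f.2 ∧
      |(f.1 : ℝ) / f.2 - (comBases M₁ M₂).card| ≤ (comBases M₁ M₂).card / e)
      ((PP M₁ M₂ r a (u ^ 34)).output (n * u)) := by
  have hu17 : 17 ≤ u := by omega
  have hnu : n ≤ u := by omega
  have heu : e ≤ u := by omega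
  have hlu : l ≤ u := by omega
  have he' : (1 : ℝ) ≤ e := by exact_mod_cast he
  have hu' : (17 : ℝ) ≤ u := by exact_mod_cast hu17
  have hL : 0 < u ^ 34 := by positivity
  have hθ0 := th_nonneg n u e
  have hθ1 : 900 * (n : ℝ) ^ 2 * th n u e ≤ 1 := by
    rcases Nat.eq_zero_or_pos n with hn | hn
    · subst hn
      simp only [CharP.cast_eq_zero, ne_eq, OfNat.ofNat_ne_zero, not_false_eq_true, zero_pow, mul_zero, zero_mul, zero_le_one]
    · have hn' : (1 : ℝ) ≤ n := by exact_mod_cast hn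
      unfold th
      rw [mul_one_div, div_le_one (by (clear * - hn hu17 he; positivity))]
      have h1 : (17 : ℝ) ≤ u * e := by nlinarith only [he', hu']
      have h2 : (n : ℝ) ^ 2 * 1 ≤ (n : ℝ) ^ 2 * n := by (clear * - hn' hn; gcongr)
      have h3 : (0:ℝ) ≤ (n : ℝ) ^ 3 := by positivity
      calc 900 * (n : ℝ) ^ 2 ≤ 900 * (n : ℝ) ^ 3 := by nlinarith only [h2]
        _ ≤ 288 * (n : ℝ) ^ 3 * 17 := by nlinarith only [h2]
        _ ≤ 288 * (n : ℝ) ^ 3 * (u * e) := by (clear * - h1 hn; gcongr)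
        _ = _ := by ring
  have hδe : 8 * ((n * u : ℕ) : ℝ) * (36 * (n : ℝ) ^ 2 * th n u e) * e ≤ 1 := by
    rcases Nat.eq_zero_or_pos n with hn | hn
    · subst hn
      simp only [zero_mul, CharP.cast_eq_zero, mul_zero, ne_eq, OfNat.ofNat_ne_zero, not_false_eq_true, zero_pow, zero_le_one]
    · have hn' : (1 : ℝ) ≤ n := by exact_mod_cast hn
      unfold th
      push_cast
      have : 8 * ((n : ℝ) * u) * (36 * (n : ℝ) ^ 2 * (1 / (288 * (n : ℝ) ^ 3 * u * e))) * e = 1 := by
        field_simp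
        ring
      exact this.le
  have hd : ∀ Z ∈ win n, (PP M₁ M₂ r a (u ^ 34)).dfc (enc Z) ≤ n := by
    intro Z hZ
    rw [win_eq_Win] at hZ
    exact dfc_le hr (card_win hZ)
  have h0 : n = 0 → (PP M₁ M₂ r a (u ^ 34)).dfc ∅ = 0 := by
    intro hn
    have h1 := dfc_le (M₁ := M₁) (a := a) (L := u ^ 34) hr
      (Z := (∅ : Finset (Fin n × Bool))) (by simp [hn])
    have h2 : enc (∅ : Finset (Fin n × Bool)) = ∅ := by simp [enc]
    rw [h2] at h1
    omega
  have hT : (PP M₁ M₂ r a (u ^ 34)).TL (th n u e) (n * u) := by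
    intro k hk I D hB p
    have hn : 1 ≤ n := by
      rcases Nat.eq_zero_or_pos n with h | h
      · rw [h, zero_mul] at hk; omega
      · exact h
    have h1 := thread_law hr hn h2n (h4n hn) (L := u ^ 34) hL hB
      (g := fun S => if p S then 1 else 0)
      (fun S => by split_ifs <;> norm_num) (fun S => by split_ifs <;> norm_num)
    exact h1.trans (arith_thread hn he hu17 hnu heu hk)
  have key := Par.output_fail (P := PP M₁ M₂ r a (u ^ 34)) (θ := th n u e)
    (δ := 36 * (n : ℝ) ^ 2 * th n u e) (e := e) (u := u) he hL hθ0 hθ1 le_rfl (by (clear * - hθ0; positivity)) hδe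
    (by show n + e + 16 ≤ u; omega) h0 hd hT
  have hb : ((n * u : ℕ) : ℝ) * (((n : ℝ) ^ 2 + 1) *
      (PP M₁ M₂ r a (u ^ 34)).φ (th n u e)) ≤ (1 / 2) ^ l := by
    rcases Nat.eq_zero_or_pos n with hn | hn
    · have : ((n * u : ℕ) : ℝ) = 0 := by rw [hn]; simp
      rw [this, zero_mul]
      positivity
    · exact arith_fail hn he hu17 hnu heu hlu
  have h3 := prob_add_fail (Par.Good (PP M₁ M₂ r a (u ^ 34)).nb e)
    ((PP M₁ M₂ r a (u ^ 34)).output (n * u))
  rw [nb_eq hr heq] at h3 key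
  have h4 : fail (Par.Good (comBases M₁ M₂).card e)
      ((PP M₁ M₂ r a (u ^ 34)).output (n * u)) ≤ (1 / 2) ^ l := key.trans hb
  have h5 : Rnd.prob (Par.Good (comBases M₁ M₂).card e)
      ((PP M₁ M₂ r a (u ^ 34)).output (n * u)) = 1 - fail (Par.Good (comBases M₁ M₂).card e)
      ((PP M₁ M₂ r a (u ^ 34)).output (n * u)) := by linarith only [h3]
  have h6 : 1 - (1 / 2 : ℝ) ^ l ≤ Rnd.prob (Par.Good (comBases M₁ M₂).card e)
      ((PP M₁ M₂ r a (u ^ 34)).output (n * u)) := by
    rw [h5]; linarith only [key, hb]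
  exact h6

end Vale.Agent.P317.Alg
end

section

set_option linter.unusedVariables false

namespace Vale.Agent.P317.Alg

theorem logb_pos' {δ : ℝ} (hδ0 : 0 < δ) (hδ1 : δ < 1) : 0 < Real.logb 2 (1 / δ) := by
  apply Real.logb_pos (by norm_num)
  rw [lt_div_iff₀ hδ0]; linarith

theorem input_size_le (n : ℕ) {ε δ : ℝ} (hε0 : 0 < ε) (hε1 : ε < 1) (hδ0 : 0 < δ) (hδ1 : δ < 1) :
    ((n + ⌈1 / ε⌉₊ + ⌈Real.logb 2 (1 / δ)⌉₊ + 16 : ℕ) : ℝ) ≤
      21 * ((n + 1) * (1 / ε) * (1 + Real.logb 2 (1 / δ))) := by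
  have hl := logb_pos' hδ0 hδ1
  set Λ := Real.logb 2 (1 / δ) with hΛ
  have h1 : (1 : ℝ) ≤ 1 / ε := by rw [le_div_iff₀ hε0]; linarith only [hε1]
  have h2 : ((⌈1 / ε⌉₊ : ℕ) : ℝ) ≤ 1 / ε + 1 := (Nat.ceil_lt_add_one (by positivity)).le
  have h3 : ((⌈Λ⌉₊ : ℕ) : ℝ) ≤ Λ + 1 := (Nat.ceil_lt_add_one hl.le).le
  have hn : (0 : ℝ) ≤ n := Nat.cast_nonneg n
  set x := 1 / ε with hx
  push_cast
  have b1 : (n : ℝ) + 1 ≤ (n + 1) * x * (1 + Λ) := by
    have : (n : ℝ) + 1 ≤ (n + 1) * x := by nlinarith only [h1]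
    nlinarith only [this, hl]
  have b2 : x ≤ (n + 1) * x * (1 + Λ) := by
    have : x ≤ (n + 1) * x := by nlinarith only [h1]
    nlinarith only [this, h1, hl]
  have b3 : 1 + Λ ≤ (n + 1) * x * (1 + Λ) := by
    have : (1 : ℝ) ≤ (n + 1) * x := by nlinarith only [h1]
    nlinarith only [this, hl]
  have b4 : (1 : ℝ) ≤ (n + 1) * x * (1 + Λ) := by linarith only [hl, b3]
  linarith only [h3, h2, b1, b2, b3]

theorem eps_ok {ε : ℝ} (hε0 : 0 < ε) : 1 ≤ ⌈1 / ε⌉₊ ∧ (1 : ℝ) / (⌈1 / ε⌉₊ : ℕ) ≤ ε := by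
  have h0 : 0 < ⌈1 / ε⌉₊ := Nat.ceil_pos.2 (by (clear * - hε0; positivity))
  refine ⟨h0, ?_⟩
  have h1 : 1 / ε ≤ (⌈1 / ε⌉₊ : ℕ) := Nat.le_ceil _
  have h2 : (0 : ℝ) < (⌈1 / ε⌉₊ : ℕ) := by exact_mod_cast h0
  rw [div_le_iff₀ h2]
  rw [div_le_iff₀ hε0] at h1
  linarith only [h1]

theorem delta_ok {δ : ℝ} (hδ0 : 0 < δ) : ((1 : ℝ) / 2) ^ ⌈Real.logb 2 (1 / δ)⌉₊ ≤ δ := by
  have h1 : Real.logb 2 (1 / δ) ≤ (⌈Real.logb 2 (1 / δ)⌉₊ : ℕ) := Nat.le_ceil _
  generalize ⌈Real.logb 2 (1 / δ)⌉₊ = m at h1 ⊢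
  have h2 : 1 / δ ≤ (2 : ℝ) ^ m := by
    have h3 := (Real.logb_le_iff_le_rpow (by norm_num : (1 : ℝ) < 2)
      (by positivity : (0 : ℝ) < 1 / δ)).1 h1
    rwa [Real.rpow_natCast] at h3
  rw [div_pow, one_pow, div_le_iff₀ (by positivity)]
  rw [div_le_iff₀ hδ0] at h2
  linarith only [h2]

theorem good_interval {N : ℕ} {e : ℕ} {ε y : ℝ} (he : (1 : ℝ) / e ≤ ε) (h : |y - N| ≤ N / e) :
    (1 - ε) * N ≤ y ∧ y ≤ (1 + ε) * N := by
  have hN : (0 : ℝ) ≤ N := Nat.cast_nonneg N
  have h1 : (N : ℝ) / e ≤ ε * N := by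
    have : (N : ℝ) / e = (1 / e) * N := by ring
    rw [this]
    exact mul_le_mul_of_nonneg_right he hN
  rw [abs_le] at h
  constructor <;> linarith only [h, h1]

end Vale.Agent.P317.Alg
end

section

/-!
Decision trees with coin tosses and independence queries; replay of a tree along a list of
answers; trees whose replay is computable in polynomial time.
-/

namespace Vale.Agent.P317.T

open Vale.Agent.Lib.PolyTime Function

/-- A question: `none` is a coin toss, `some (i, w)` asks oracle `i` about the word `w`. -/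
abbrev Query := Option (Bool × List Bool)

/-- Decision trees. -/
inductive Tree (β : Type) : Type
  | ret (b : β) : Tree β
  | ask (q : Query) (k : Bool → Tree β) : Tree β

namespace Tree

variable {β γ : Type}

/-- Sequential composition. -/
def bind : Tree β → (β → Tree γ) → Tree γ
  | ret b, f => f b
  | ask q k, f => ask q fun a => (k a).bind f

/-- Iteration. -/
def iter (f : β → Tree β) : ℕ → β → Tree β
  | 0, b => ret b
  | k + 1, b => (iter f k b).bind f

/-- Every leaf satisfies `P`. -/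
def AllL : Tree β → (β → Prop) → Prop
  | ret b, P => P b
  | ask _ k, P => ∀ a, (k a).AllL P

/-- Replay: the outcome and the unused answers, or the pending question. -/
def exec : Tree β → List Bool → Option (β × List Bool) × Query
  | ret b, l => (some (b, l), none)
  | ask q _, [] => (none, q)
  | ask _ k, a :: l => (k a).exec l

/-- Continue a replay. -/
def cont (f : β → Tree γ) (r : Option (β × List Bool) × Query) :
    Option (γ × List Bool) × Query :=
  match r.1 with
  | none => (none, r.2)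
  | some p => (f p.1).exec p.2

theorem exec_bind (t : Tree β) (f : β → Tree γ) (l : List Bool) :
    (t.bind f).exec l = cont f (t.exec l) := by
  induction t generalizing l with
  | ret b => rfl
  | ask q k ih =>
    cases l with
    | nil => rfl
    | cons a l => exact ih a l

theorem exec_iter_succ (f : β → Tree β) (k : ℕ) (b : β) (l : List Bool) :
    (iter f (k + 1) b).exec l = cont f ((iter f k b).exec l) := exec_bind _ _ _

theorem AllL_mono {t : Tree β} {P Q : β → Prop} (h : t.AllL P) (hPQ : ∀ b, P b → Q b) :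
    t.AllL Q := by
  induction t with
  | ret b => exact hPQ _ h
  | ask q k ih => exact fun a => ih a (h a)

theorem AllL_bind {t : Tree β} {f : β → Tree γ} {P : β → Prop} {Q : γ → Prop} (h : t.AllL P)
    (hf : ∀ b, P b → (f b).AllL Q) : (t.bind f).AllL Q := by
  induction t with
  | ret b => exact hf _ h
  | ask q k ih => exact fun a => ih a (h a)

theorem AllL_iter {f : β → Tree β} {P : ℕ → β → Prop} (hf : ∀ k b, P k b → (f b).AllL (P (k + 1)))
    {b : β} (hb : P 0 b) (k : ℕ) : (iter f k b).AllL (P k) := by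
  induction k with
  | zero => exact hb
  | succ k ih => exact AllL_bind ih (hf k)

theorem AllL_exec {t : Tree β} {P : β → Prop} (h : t.AllL P) {l : List Bool}
    {b : β} {l' : List Bool} {q : Query} (he : t.exec l = (some (b, l'), q)) : P b := by
  induction t generalizing l with
  | ret c =>
    simp only [exec, Prod.mk.injEq, Option.some.injEq] at he
    obtain ⟨⟨rfl, -⟩, -⟩ := he
    exact h
  | ask q' k ih =>
    cases l with
    | nil => simp [exec] at he
    | cons a l => exact ih a (h a) he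

theorem exec_suffix {t : Tree β} {l : List Bool} {b : β} {l' : List Bool} {q : Query}
    (he : t.exec l = (some (b, l'), q)) : l' <:+ l ∧ q = none := by
  induction t generalizing l with
  | ret c =>
    simp only [exec, Prod.mk.injEq, Option.some.injEq] at he
    obtain ⟨⟨-, rfl⟩, rfl⟩ := he
    exact ⟨List.suffix_rfl, rfl⟩
  | ask q' k ih =>
    cases l with
    | nil => simp [exec] at he
    | cons a l =>
      obtain ⟨h1, h2⟩ := ih a he
      exact ⟨h1.trans (List.suffix_cons a l), h2⟩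

end Tree

open Vale.Agent.P317.T.Tree

variable {α β γ : Type} [Enc α] [Enc β] [Enc γ]

/-- The replay of the trees `f a` is computable in polynomial time. -/
def QT (f : α → Tree β) : Prop := PT ∅ (fun p : α × List Bool => (f p.1).exec p.2)

theorem QT.congr {f g : α → Tree β} (hf : QT f) (h : ∀ a, f a = g a) : QT g := by
  have : f = g := funext h
  rwa [← this]

theorem QT.comp {f : β → Tree γ} (hf : QT f) {g : α → β} (hg : PT ∅ g) :
    QT (fun a => f (g a)) :=
  PT.comp (g := fun p : β × List Bool => (f p.1).exec p.2) hf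
    ((hg.comp PT.fst').pair PT.snd')

theorem QT.ret {f : α → β} (hf : PT ∅ f) : QT (fun a => Tree.ret (f a)) := by
  have h : PT ∅ (fun p : α × List Bool =>
      ((some (f p.1, p.2), none) : Option (β × List Bool) × Query)) :=
    (PT.some ((hf.comp PT.fst').pair PT.snd')).pair (PT.const none)
  exact h

theorem PT.cont {f : α → β → Tree γ} (hf : QT (fun p : α × β => f p.1 p.2))
    {r : α → Option (β × List Bool) × Query} (hr : PT ∅ r) :
    PT ∅ (fun a => Tree.cont (f a) (r a)) := by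
  have h1 : PT ∅ (fun p : α × (β × List Bool) => (f p.1 p.2.1).exec p.2.2) :=
    PT.comp (g := fun p : (α × β) × List Bool => (f p.1.1 p.1.2).exec p.2) hf
      ((PT.fst'.pair PT.snd'.fst).pair PT.snd'.snd)
  exact (PT.optCase (f := fun a => ((none, (r a).2) : Option (γ × List Bool) × Query))
    (g := fun a p => (f a p.1).exec p.2) hr.fst ((PT.const none).pair hr.snd) h1).congr
    fun a => by
      unfold Tree.cont
      rcases (r a).1 with _ | p <;> rfl

theorem QT.bind {f : α → Tree β} {g : α → β → Tree γ} (hf : QT f)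
    (hg : QT (fun p : α × β => g p.1 p.2)) : QT (fun a => (f a).bind (g a)) := by
  have h1 : QT (fun p : (α × List Bool) × β => g p.1.1 p.2) :=
    QT.comp (f := fun p : α × β => g p.1 p.2) hg (PT.fst'.fst.pair PT.snd')
  exact (PT.cont (f := fun (p : α × List Bool) b => g p.1 b) h1 hf).congr fun p => by
    rw [Tree.exec_bind]

theorem QT.ask {q : α → Query} {k : α → Bool → Tree β} (hq : PT ∅ q)
    (hk : QT (fun p : α × Bool => k p.1 p.2)) : QT (fun a => Tree.ask (q a) (k a)) := by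
  have h1 : PT ∅ (fun p : (α × List Bool) × Bool × List Bool => (k p.1.1 p.2.1).exec p.2.2) :=
    PT.comp (g := fun p : (α × Bool) × List Bool => (k p.1.1 p.1.2).exec p.2) hk
      ((PT.fst'.fst.pair PT.snd'.fst).pair PT.snd'.snd)
  exact (PT.listCase (l := fun p : α × List Bool => p.2)
    (f := fun p => ((none, q p.1) : Option (β × List Bool) × Query))
    (g := fun p b t => (k p.1 b).exec t) PT.snd' ((PT.const none).pair (hq.comp PT.fst'))
    h1).congr fun p => by
      rcases p with ⟨a, _ | ⟨b, l⟩⟩ <;> rfl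

theorem QT.ite {p : α → Prop} [DecidablePred p] {f g : α → Tree β}
    (hp : PT ∅ (fun a => decide (p a))) (hf : QT f) (hg : QT g) :
    QT (fun a => if p a then f a else g a) := by
  have h1 : PT ∅ (fun x : α × List Bool => if p x.1 then (f x.1).exec x.2 else (g x.1).exec x.2) :=
    PT.ite (hp.comp PT.fst') hf hg
  exact h1.congr fun x => by
    by_cases h : p x.1 <;> simp [h]

theorem esize_suffix {l l' : List Bool} (h : l' <:+ l) :
    esize l' ≤ esize l := by
  obtain ⟨t, rfl⟩ := h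
  rw [esize_append]
  omega

theorem QT.iter {f : α → β → Tree β} (hf : QT (fun p : α × β => f p.1 p.2)) {k : α → ℕ}
    (hk : PT ∅ k) (hkb : PBd k) {init : α → β} (hi : PT ∅ init) {B : α → ℕ} (hB : PBd B)
    (h : ∀ a, ∀ j ≤ k a, (Tree.iter (f a) j (init a)).AllL fun b => esize b ≤ B a) :
    QT (fun a => Tree.iter (f a) (k a) (init a)) := by
  have hcont : PT ∅ (fun p : (α × List Bool) × (Option (β × List Bool) × Query) =>
      Tree.cont (f p.1.1) p.2) := by
    have h1 : QT (fun p : ((α × List Bool) × (Option (β × List Bool) × Query)) × β =>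
        f p.1.1.1 p.2) :=
      QT.comp (f := fun p : α × β => f p.1 p.2) hf (PT.fst'.fst.fst.pair PT.snd')
    exact PT.cont (f := fun (p : (α × List Bool) × (Option (β × List Bool) × Query)) b =>
      f p.1.1 b) h1 PT.snd'
  have key : ∀ (a : α) (l : List Bool) (j : ℕ),
      (Tree.cont (f a))^[j] (some (init a, l), none) = (Tree.iter (f a) j (init a)).exec l := by
    intro a l j
    induction j with
    | zero => rfl
    | succ j ih => rw [iterate_succ_apply', ih, Tree.exec_iter_succ]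
  obtain ⟨c, hc⟩ := PT.pbd (f := fun p : (α × β) × List Bool => (f p.1.1 p.1.2).exec p.2) hf
  let b : α × List Bool → ℕ := fun p =>
    (2 * (2 * B p.1 + esize p.2 + 2) + 1) +
      pb c (2 * (2 * esize p.1 + B p.1 + 1) + esize p.2 + 1)
  have hb : PBd b := by
    have e1 : PBd (fun p : α × List Bool => B p.1) := hB.comp (PT.fst' (A := ∅))
    have e2 : PBd (fun p : α × List Bool => esize p.2) := (PT.snd' (A := ∅)).pbd
    have e3 : PBd (fun p : α × List Bool => esize p.1) := (PT.fst' (A := ∅)).pbd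
    have e4 : PBd (fun p : α × List Bool =>
        2 * (2 * esize p.1 + B p.1 + 1) + esize p.2 + 1) :=
      (((PBd.const 2).mul ((((PBd.const 2).mul e3).add e1).add (PBd.const 1))).add e2).add
        (PBd.const 1)
    have e5 : PBd (fun p : α × List Bool =>
        pb c (2 * (2 * esize p.1 + B p.1 + 1) + esize p.2 + 1)) := by
      have := (e4.add (PBd.const 2)).pow c
      exact this
    have e6 : PBd (fun p : α × List Bool => 2 * (2 * B p.1 + esize p.2 + 2) + 1) :=
      ((PBd.const 2).mul ((((PBd.const 2).mul e1).add e2).add (PBd.const 2))).add (PBd.const 1)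
    exact e6.add e5
  have hbound : ∀ (p : α × List Bool), ∀ j ≤ k p.1,
      esize ((Tree.cont (f p.1))^[j] (some (init p.1, p.2), none)) ≤ b p := by
    rintro ⟨a, l⟩ j hj
    -- claim: either done with small value, or pending with small query
    have claim : ∀ j ≤ k a,
        (∃ x l', (Tree.iter (f a) j (init a)).exec l = (some (x, l'), none) ∧
          esize x ≤ B a ∧ esize l' ≤ esize l) ∨
        (((Tree.iter (f a) j (init a)).exec l).1 = none ∧
          esize ((Tree.iter (f a) j (init a)).exec l) ≤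
            pb c (2 * (2 * esize a + B a + 1) + esize l + 1)) := by
      intro j
      induction j with
      | zero =>
        intro hj
        left
        exact ⟨init a, l, rfl, h a 0 hj, le_rfl⟩
      | succ j ih =>
        intro hj
        rw [Tree.exec_iter_succ]
        rcases ih (by omega) with ⟨x, l', h1, h2, h3⟩ | ⟨h1, h2⟩
        · rw [h1]
          show (∃ y l'', (f a x).exec l' = (some (y, l''), none) ∧ _) ∨ _
          rcases e : (f a x).exec l' with ⟨_ | ⟨y, l''⟩, q⟩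
          · right
            refine ⟨?_, ?_⟩
            · show ((f a x).exec l').1 = none
              rw [e]
            · show esize ((f a x).exec l') ≤ _
              refine (hc ((a, x), l')).trans (pb_mono c ?_)
              rw [esize_pair, esize_pair]
              omega
          · left
            obtain ⟨h4, rfl⟩ := Tree.exec_suffix e
            refine ⟨y, l'', rfl, ?_, (esize_suffix h4).trans h3⟩
            have h5 := h a (j + 1) hj
            refine Tree.AllL_exec h5 (l := l) (l' := l'') (q := none) ?_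
            rw [Tree.exec_iter_succ, h1]
            exact e
        · right
          have h3 : Tree.cont (f a) ((Tree.iter (f a) j (init a)).exec l) =
              (Tree.iter (f a) j (init a)).exec l := by
            rcases e : (Tree.iter (f a) j (init a)).exec l with ⟨_ | y, q⟩
            · rfl
            · rw [e] at h1; simp at h1
          rw [h3]
          exact ⟨h1, h2⟩
    rw [key]
    rcases claim j hj with ⟨x, l', h1, h2, h3⟩ | ⟨h1, h2⟩
    · rw [h1, esize_pair]
      have h4 : esize (some (x, l')) = esize (x, l') + 1 := by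
        simp [esize, enc_some]
      have h5 : esize (none : Query) = 0 := by
        simp [esize, enc_none]
      rw [h4, h5, esize_pair]
      show _ ≤ (2 * (2 * B a + esize l + 2) + 1) + _
      omega
    · refine h2.trans ?_
      show _ ≤ _ + pb c (2 * (2 * esize a + B a + 1) + esize l + 1)
      (clear * -; omega)
  have hinit : PT ∅ (fun p : α × List Bool =>
      ((some (init p.1, p.2), none) : Option (β × List Bool) × Query)) :=
    (PT.some ((hi.comp PT.fst').pair PT.snd')).pair (PT.const none)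
  exact (PT.iterate' (k := fun p : α × List Bool => k p.1)
    (init := fun p : α × List Bool =>
      ((some (init p.1, p.2), none) : Option (β × List Bool) × Query))
    (step := fun p r => Tree.cont (f p.1) r) (hk.comp PT.fst') (hkb.comp (PT.fst' (A := ∅))) hinit hcont hb
    hbound).congr fun p => key p.1 p.2 (k p.1)

end Vale.Agent.P317.T
end

section

/-!
Translation of programs (`Cmd`) to decision trees over concrete finite memories.
-/

namespace Vale.Agent.P317.T

open Vale.Agent.Lib.PolyTime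

/-- Concrete memory: number of elements, steps left, coins left, number registers, set registers. -/
abbrev St := Un × Un × List Bool × List ℕ × List (List ℕ)

/-- number register `x` -/
def getN (σ : St) (x : ℕ) : ℕ := σ.2.2.2.1.getD x 0

/-- set register `S` -/
def getS (σ : St) (S : ℕ) : List ℕ := σ.2.2.2.2.getD S []

/-- steps left -/
def fuel (σ : St) : ℕ := σ.2.1.v

/-- coins left -/
def coins (σ : St) : List Bool := σ.2.2.1

/-- write entry `x` of a list, filling up with `d` -/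
def put {β : Type} (d : β) : List β → ℕ → β → List β
  | [], 0, v => [v]
  | _ :: l, 0, v => v :: l
  | [], x + 1, v => d :: put d [] x v
  | a :: l, x + 1, v => a :: put d l x v

/-- one step of time -/
def tickT (σ : St) : St := (σ.1, ⟨fuel σ - 1⟩, σ.2.2)

/-- write a number register; one step -/
def putN (σ : St) (x v : ℕ) : St :=
  if fuel σ = 0 then σ else (σ.1, ⟨fuel σ - 1⟩, coins σ, put 0 σ.2.2.2.1 x v, σ.2.2.2.2)

/-- write a set register; one step -/
def putS (σ : St) (S : ℕ) (v : List ℕ) : St :=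
  if fuel σ = 0 then σ else (σ.1, ⟨fuel σ - 1⟩, coins σ, σ.2.2.2.1, put [] σ.2.2.2.2 S v)

/-- drop a coin -/
def popC (σ : St) : St := (σ.1, σ.2.1, (coins σ).tail, σ.2.2.2)

/-- characteristic word of a set of numbers below `n` -/
def word (n : ℕ) (l : List ℕ) : List Bool := (List.range n).map fun i => decide (i ∈ l)

/-- the tree of a program; whenever no steps are left, nothing happens any more -/
def trF : Cmd → St → Tree St
  | .const x c, σ => .ret (putN σ x c)
  | .add x y z, σ => .ret (putN σ x (getN σ y + getN σ z))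
  | .sub x y z, σ => .ret (putN σ x (getN σ y - getN σ z))
  | .coin x, σ => .ret (popC (putN σ x (if (coins σ).headD false then 1 else 0)))
  | .clear S, σ => .ret (putS σ S [])
  | .copy S T, σ => .ret (putS σ S (getS σ T))
  | .insert S x, σ => .ret (putS σ S (getN σ x :: getS σ S))
  | .erase S x, σ => .ret (putS σ S ((getS σ S).filter fun v => !decide (v = getN σ x)))
  | .mem x y S, σ => .ret (putN σ x (if getN σ y ∈ getS σ S then 1 else 0))
  | .ask i x S, σ => if fuel σ = 0 then .ret σ else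
      .ask (some (i, word σ.1.v (getS σ S))) fun b => .ret (putN σ x (if b then 1 else 0))
  | .seq c d, σ => (trF c σ).bind (trF d)
  | .cond x y c d, σ => if getN σ x < getN σ y then trF c (tickT σ) else trF d (tickT σ)
  | .loop x c, σ => Tree.iter (fun σ => trF c (tickT σ)) (min (getN σ x) (fuel σ)) (tickT σ)

/-- outcome of a tree when the oracle `o` answers -/
def evalT {β : Type} (o : Bool → List Bool → Bool) : Tree β → β
  | .ret b => b
  | .ask none k => evalT o (k false)
  | .ask (some (i, w)) k => evalT o (k (o i w))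

/-- the answers along the run -/
def answ {β : Type} (o : Bool → List Bool → Bool) : Tree β → List Bool
  | .ret _ => []
  | .ask none k => false :: answ o (k false)
  | .ask (some (i, w)) k => o i w :: answ o (k (o i w))

/-- run of a randomised computation with given coins (`false` when none is left); also the unused
coins -/
def path {α : Type} : Rnd α → List Bool → α × List Bool
  | .leaf a, ρ => (a, ρ)
  | .flip t _, [] => path t []
  | .flip t _, false :: ρ => path t ρ
  | .flip _ u, true :: ρ => path u ρ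

/-- the concrete memory represents the abstract state -/
structure RelT (T n : ℕ) (s : State) (σ : St) : Prop where
  hn : σ.1.v = n
  ht : s.time + fuel σ = T
  hnum : ∀ x, getN σ x = s.num x
  hset : ∀ S, (getS σ S).toFinset = s.set S

/-! Case distinctions of the definitions above in their own module. -/

theorem trF_cases (c : Cmd) (σ : St) : trF c σ = trF c σ := by
  unfold trF
  split <;> rfl

theorem path_cases {α : Type} (t : Rnd α) (ρ : List Bool) : path t ρ = path t ρ := by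
  unfold path
  split <;> rfl

theorem evalT_cases {β : Type} (o : Bool → List Bool → Bool) (t : Tree β) :
    evalT o t = evalT o t := by
  unfold evalT
  split <;> rfl

theorem answ_cases {β : Type} (o : Bool → List Bool → Bool) (t : Tree β) :
    answ o t = answ o t := by
  unfold answ
  split <;> rfl

theorem put_cases {β : Type} (d : β) (l : List β) (x : ℕ) (v : β) :
    put d l x v = put d l x v := by
  unfold put
  split <;> rfl

theorem trF_const' (x c : ℕ) (σ : St) : trF (.const x c) σ = .ret (putN σ x c) := by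
  simp only [trF]

theorem path_leaf' {α : Type} (a : α) (ρ : List Bool) : path (.leaf a) ρ = (a, ρ) := by
  simp only [path]

theorem evalT_ret' {β : Type} (o : Bool → List Bool → Bool) (b : β) :
    evalT o (.ret b) = b := by simp only [evalT]

theorem answ_ret' {β : Type} (o : Bool → List Bool → Bool) (b : β) :
    answ o (.ret b) = [] := by simp only [answ]

theorem put_nil_zero' {β : Type} (d : β) (v : β) : put d [] 0 v = [v] := by
  simp only [put]

end Vale.Agent.P317.T
end

section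

/-!
The translation of every program is computable in polynomial time.
-/

namespace Vale.Agent.P317.T

open Vale.Agent.Lib.PolyTime

variable {α : Type} [Enc α]

theorem put_zero {β : Type} (d : β) (l : List β) (v : β) : put d l 0 v = v :: l.tail := by
  cases l <;> rfl

theorem put_succ {β : Type} (d : β) (l : List β) (x : ℕ) (v : β) :
    put d l (x + 1) v = l.headD d :: put d l.tail x v := by
  cases l <;> rfl

theorem PT.put {β : Type} [Enc β] (d : β) (x : ℕ) {l : α → List β} {v : α → β} (hl : PT ∅ l)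
    (hv : PT ∅ v) : PT ∅ (fun a => put d (l a) x (v a)) := by
  induction x generalizing l with
  | zero => exact (PT.cons hv hl.tail).congr fun a => (put_zero _ _ _).symm
  | succ x ih =>
    exact (PT.cons (PT.headD hl (PT.const d)) (ih hl.tail)).congr fun a => (put_succ _ _ _ _).symm

theorem PT.getN (x : ℕ) {s : α → St} (hs : PT ∅ s) : PT ∅ (fun a => getN (s a) x) :=
  PT.getD hs.snd.snd.snd.fst (PT.const x) (PT.const 0)

theorem PT.getS (x : ℕ) {s : α → St} (hs : PT ∅ s) : PT ∅ (fun a => getS (s a) x) :=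
  PT.getD hs.snd.snd.snd.snd (PT.const x) (PT.const [])

theorem PT.fuel {s : α → St} (hs : PT ∅ s) : PT ∅ (fun a => fuel (s a)) :=
  PT.unVal hs.snd.fst

theorem PT.coins {s : α → St} (hs : PT ∅ s) : PT ∅ (fun a => coins (s a)) := hs.snd.snd.fst

theorem pbd_fuel {s : α → St} (hs : PT ∅ s) : PBd (fun a => T.fuel (s a)) :=
  PBd.unVal hs.snd.fst

theorem PT.decFuel {s : α → St} (hs : PT ∅ s) : PT ∅ (fun a => (⟨T.fuel (s a) - 1⟩ : Un)) :=
  PT.mkUn (PT.sub (PT.fuel hs) (PT.const 1)) ((pbd_fuel hs).mono fun a => Nat.sub_le _ _)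

theorem PT.tickT {s : α → St} (hs : PT ∅ s) : PT ∅ (fun a => tickT (s a)) :=
  hs.fst.pair ((PT.decFuel hs).pair hs.snd.snd)

theorem PT.popC {s : α → St} (hs : PT ∅ s) : PT ∅ (fun a => popC (s a)) :=
  hs.fst.pair (hs.snd.fst.pair ((PT.coins hs).tail.pair hs.snd.snd.snd))

theorem PT.noFuel {s : α → St} (hs : PT ∅ s) : PT ∅ (fun a => decide (T.fuel (s a) = 0)) :=
  PT.eqNat (PT.fuel hs) (PT.const 0)

theorem PT.putN (x : ℕ) {s : α → St} {v : α → ℕ} (hs : PT ∅ s) (hv : PT ∅ v) :
    PT ∅ (fun a => putN (s a) x (v a)) :=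
  PT.ite (p := fun a => T.fuel (s a) = 0) (PT.noFuel hs) hs
    (hs.fst.pair ((PT.decFuel hs).pair ((PT.coins hs).pair
      ((PT.put 0 x hs.snd.snd.snd.fst hv).pair hs.snd.snd.snd.snd))))

theorem PT.putS (x : ℕ) {s : α → St} {v : α → List ℕ} (hs : PT ∅ s) (hv : PT ∅ v) :
    PT ∅ (fun a => putS (s a) x (v a)) :=
  PT.ite (p := fun a => T.fuel (s a) = 0) (PT.noFuel hs) hs
    (hs.fst.pair ((PT.decFuel hs).pair ((PT.coins hs).pair
      (hs.snd.snd.snd.fst.pair (PT.put [] x hs.snd.snd.snd.snd hv)))))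

theorem PT.word {n : α → Un} {l : α → List ℕ} (hn : PT ∅ n) (hl : PT ∅ l) :
    PT ∅ (fun a => word (n a).v (l a)) :=
  PT.map (PT.range (PT.unVal hn) (PBd.unVal hn)) (PT.mem (hl.comp PT.fst') PT.snd')

/-! ### Size bounds -/

theorem mem_put {β : Type} {d : β} {l : List β} {x : ℕ} {v w : β} (h : w ∈ put d l x v) :
    w = v ∨ w = d ∨ w ∈ l := by
  induction x generalizing l with
  | zero =>
    rw [put_zero, List.mem_cons] at h
    rcases h with h | h
    · exact Or.inl h
    · exact Or.inr (Or.inr (List.mem_of_mem_tail h))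
  | succ x ih =>
    rw [put_succ, List.mem_cons] at h
    rcases h with h | h
    · cases l with
      | nil => exact Or.inr (Or.inl h)
      | cons a l => exact Or.inr (Or.inr (by rw [h]; exact List.mem_cons_self))
    · rcases ih h with h | h | h
      · exact Or.inl h
      · exact Or.inr (Or.inl h)
      · exact Or.inr (Or.inr (List.mem_of_mem_tail h))

theorem length_put {β : Type} (d : β) (l : List β) (x : ℕ) (v : β) :
    (put d l x v).length ≤ max l.length (x + 1) := by
  induction x generalizing l with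
  | zero =>
    rw [put_zero, List.length_cons, List.length_tail]
    (clear * -; omega)
  | succ x ih =>
    rw [put_succ, List.length_cons]
    have := ih l.tail
    rw [List.length_tail] at this
    omega

/-- Size bounds for memories which are preserved. -/
structure Bd (E K : ℕ) (σ : St) : Prop where
  hn : σ.1.v ≤ E
  hf : fuel σ ≤ E
  hc : esize (coins σ) ≤ E
  h1 : σ.2.2.2.1.length ≤ E + K
  h2 : σ.2.2.2.2.length ≤ E + K
  h3 : ∀ v ∈ σ.2.2.2.1, esize v + fuel σ ≤ 2 * E + K
  h4 : ∀ l ∈ σ.2.2.2.2, l.length + fuel σ ≤ 2 * E + K ∧ ∀ v ∈ l, esize v + fuel σ ≤ 2 * E + K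

/-- the registers written and the literals of a program are bounded -/
def cB : Cmd → ℕ
  | .const x c => x + 1 + c
  | .add x _ _ => x + 1
  | .sub x _ _ => x + 1
  | .coin x => x + 1
  | .clear S => S + 1
  | .copy S _ => S + 1
  | .insert S _ => S + 1
  | .erase S _ => S + 1
  | .mem x _ _ => x + 1
  | .ask _ x _ => x + 1
  | .seq c d => cB c + cB d
  | .cond _ _ c d => cB c + cB d
  | .loop _ c => cB c

theorem fuel_def (n f : Un) (ρ : List Bool) (a : List ℕ) (b : List (List ℕ)) :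
    fuel (n, f, ρ, a, b) = f.v := rfl

theorem Bd.getN {E K : ℕ} {σ : St} (h : Bd E K σ) (x : ℕ) :
    esize (getN σ x) + fuel σ ≤ 2 * E + K := by
  unfold T.getN
  by_cases hx : x < σ.2.2.2.1.length
  · rw [List.getD_eq_getElem _ _ hx]
    exact h.h3 _ (List.getElem_mem hx)
  · rw [List.getD_eq_default _ _ (by omega)]
    have := h.hf
    have h0 : esize (0 : ℕ) = 0 := by rw [esize_nat]; simp
    (clear * - this h0; omega)

theorem Bd.getS {E K : ℕ} {σ : St} (h : Bd E K σ) (x : ℕ) :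
    (getS σ x).length + fuel σ ≤ 2 * E + K ∧ ∀ v ∈ getS σ x, esize v + fuel σ ≤ 2 * E + K := by
  unfold T.getS
  by_cases hx : x < σ.2.2.2.2.length
  · rw [List.getD_eq_getElem _ _ hx]
    exact h.h4 _ (List.getElem_mem hx)
  · rw [List.getD_eq_default _ _ (by omega)]
    have := h.hf
    refine ⟨?_, fun v hv => absurd hv List.not_mem_nil⟩
    rw [List.length_nil]
    omega

theorem Bd.tickT {E K : ℕ} {σ : St} (h : Bd E K σ) : Bd E K (tickT σ) := by
  obtain ⟨hn, hf, hc, h1, h2, h3, h4⟩ := h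
  have e : fuel (T.tickT σ) = fuel σ - 1 := rfl
  refine ⟨hn, by rw [e]; omega, hc, h1, h2, ?_, ?_⟩
  · intro v hv
    have := h3 v hv
    rw [e]; (clear * - this; omega)
  · intro l hl
    obtain ⟨h5, h6⟩ := h4 l hl
    refine ⟨by rw [e]; (clear * - h5; omega), fun v hv => ?_⟩
    have := h6 v hv
    rw [e]; (clear * - this; omega)

theorem Bd.popC {E K : ℕ} {σ : St} (h : Bd E K σ) : Bd E K (popC σ) := by
  obtain ⟨hn, hf, hc, h1, h2, h3, h4⟩ := h
  refine ⟨hn, hf, le_trans ?_ hc, h1, h2, h3, h4⟩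
  show esize (coins σ).tail ≤ esize (coins σ)
  cases coins σ with
  | nil => exact le_rfl
  | cons a l => rw [List.tail_cons, esize_list_cons]; omega

theorem Bd.putN {E K : ℕ} {σ : St} (h : Bd E K σ) {x v : ℕ} (hx : x + 1 ≤ K)
    (hv : fuel σ ≠ 0 → esize v + (fuel σ - 1) ≤ 2 * E + K) : Bd E K (putN σ x v) := by
  unfold T.putN
  split_ifs with h0
  · exact h
  · obtain ⟨hn, hf, hc, h1, h2, h3, h4⟩ := h
    have e : ∀ a b, fuel (σ.1, (⟨fuel σ - 1⟩ : Un), coins σ, a, b) = fuel σ - 1 := fun _ _ => rfl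
    refine ⟨hn, by rw [e]; (clear * - hn hf; omega), hc, ?_, h2, ?_, ?_⟩
    · have := length_put 0 σ.2.2.2.1 x v
      show (put 0 σ.2.2.2.1 x v).length ≤ _
      omega
    · intro w hw
      rw [e]
      rcases mem_put hw with rfl | rfl | hw
      · exact hv h0
      · have h0 : esize (0 : ℕ) = 0 := by rw [esize_nat]; simp
        (clear * - hx hn hf h0; omega)
      · have := h3 w hw
        (clear * - this; omega)
    · intro l hl
      obtain ⟨h5, h6⟩ := h4 l hl
      rw [e]
      refine ⟨by (clear * - h5; omega), fun v hv => ?_⟩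
      have := h6 v hv
      omega

theorem Bd.putS {E K : ℕ} {σ : St} (h : Bd E K σ) {x : ℕ} {l' : List ℕ} (hx : x + 1 ≤ K)
    (hv : fuel σ ≠ 0 → l'.length + (fuel σ - 1) ≤ 2 * E + K ∧
      ∀ v ∈ l', esize v + (fuel σ - 1) ≤ 2 * E + K) : Bd E K (putS σ x l') := by
  unfold T.putS
  split_ifs with h0
  · exact h
  · obtain ⟨hn, hf, hc, h1, h2, h3, h4⟩ := h
    have e : ∀ a b, fuel (σ.1, (⟨fuel σ - 1⟩ : Un), coins σ, a, b) = fuel σ - 1 := fun _ _ => rfl
    refine ⟨hn, by rw [e]; omega, hc, h1, ?_, ?_, ?_⟩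
    · have := length_put [] σ.2.2.2.2 x l'
      show (put [] σ.2.2.2.2 x l').length ≤ _
      omega
    · intro w hw
      rw [e]
      have := h3 w hw
      omega
    · intro l hl
      rw [e]
      rcases mem_put hl with rfl | rfl | hl
      · exact hv h0
      · refine ⟨?_, fun v hv => absurd hv List.not_mem_nil⟩
        rw [List.length_nil]
        (clear * - hx hn hf; omega)
      · obtain ⟨h5, h6⟩ := h4 l hl
        refine ⟨by omega, fun v hv => ?_⟩
        have := h6 v hv
        omega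

theorem esize_add_le' {a b k : ℕ} (ha : esize a ≤ k) (hb : esize b ≤ k) :
    esize (a + b) ≤ k + 1 := by
  apply esize_nat_le
  have h1 := lt_two_pow_esize a
  have h2 := lt_two_pow_esize b
  have h3 : 2 ^ esize a ≤ 2 ^ k := Nat.pow_le_pow_right (by norm_num) ha
  have h4 : 2 ^ esize b ≤ 2 ^ k := Nat.pow_le_pow_right (by norm_num) hb
  rw [pow_succ]
  omega

theorem esize_bit (b : Bool) : esize (if b then 1 else 0 : ℕ) ≤ 1 :=
  esize_nat_le (by cases b <;> simp)

theorem Bd.trF {E K : ℕ} (c : Cmd) : ∀ {σ : St}, Bd E K σ → cB c ≤ K → (trF c σ).AllL (Bd E K) := by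
  induction c with
  | const x c =>
    intro σ h hK
    refine h.putN (by simp only [cB] at hK; omega) fun h0 => ?_
    have h1 := esize_nat_le_self c
    have h2 := h.hf
    simp only [cB] at hK
    omega
  | add x y z =>
    intro σ h hK
    refine h.putN hK fun h0 => ?_
    have h1 := h.getN y
    have h2 := h.getN z
    have h3 := esize_add_le' (k := 2 * E + K - fuel σ) (a := T.getN σ y) (b := T.getN σ z)
      (by omega) (by omega)
    have h4 := h.hf
    omega
  | sub x y z =>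
    intro σ h hK
    refine h.putN hK fun h0 => ?_
    have h1 := h.getN y
    have h2 : esize (T.getN σ y - T.getN σ z) ≤ esize (T.getN σ y) :=
      esize_nat_mono (Nat.sub_le _ _)
    (clear * - h1 h2; omega)
  | coin x =>
    intro σ h hK
    refine (h.putN hK fun h0 => ?_).popC
    have h1 := esize_bit ((coins σ).headD false)
    have h2 := h.hf
    simp only [cB] at hK
    (clear * - hK h1 h2; omega)
  | clear S =>
    intro σ h hK
    refine h.putS hK fun h0 => ⟨?_, fun v hv => absurd hv List.not_mem_nil⟩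
    have := h.hf
    rw [List.length_nil]
    omega
  | copy S S' =>
    intro σ h hK
    obtain ⟨h1, h2⟩ := h.getS S'
    refine h.putS hK fun h0 => ⟨by (clear * - h1; omega), fun v hv => ?_⟩
    have := h2 v hv
    omega
  | insert S x =>
    intro σ h hK
    obtain ⟨h1, h2⟩ := h.getS S
    refine h.putS hK fun h0 => ⟨?_, fun v hv => ?_⟩
    · rw [List.length_cons]; omega
    · rcases List.mem_cons.1 hv with rfl | hv
      · have := h.getN x
        omega
      · have := h2 v hv
        omega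
  | erase S x =>
    intro σ h hK
    obtain ⟨h1, h2⟩ := h.getS S
    refine h.putS hK fun h0 => ⟨?_, fun v hv => ?_⟩
    · have := List.length_filter_le (fun v => !decide (v = T.getN σ x)) (T.getS σ S)
      omega
    · have := h2 v (List.mem_of_mem_filter hv)
      omega
  | mem x y S =>
    intro σ h hK
    refine h.putN hK fun h0 => ?_
    have h1 := esize_bit (decide (T.getN σ y ∈ T.getS σ S))
    have h2 := h.hf
    simp only [cB] at hK
    simp only [decide_eq_true_eq] at h1
    omega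
  | ask i x S =>
    intro σ h hK
    unfold T.trF
    split_ifs with h0
    · exact h
    · intro b
      refine h.putN hK fun h0 => ?_
      have h1 := esize_bit b
      have h2 := h.hf
      simp only [cB] at hK
      omega
  | seq c d ihc ihd =>
    intro σ h hK
    simp only [cB] at hK
    exact Tree.AllL_bind (ihc h (by omega)) fun σ' h' => ihd h' (by omega)
  | cond x y c d ihc ihd =>
    intro σ h hK
    simp only [cB] at hK
    unfold T.trF
    split_ifs
    · exact ihc h.tickT (by omega)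
    · exact ihd h.tickT (by omega)
  | loop x c ih =>
    intro σ h hK
    simp only [cB] at hK
    exact Tree.AllL_iter (P := fun _ => Bd E K) (fun k b hb => ih hb.tickT hK) h.tickT _

theorem Bd.init (K : ℕ) (σ : St) (hK : 1 ≤ K) : Bd (esize σ) K σ := by
  obtain ⟨n, f, ρ, a, b⟩ := σ
  have e : esize ((n, f, ρ, a, b) : St) =
      2 * n.v + (2 * f.v + (2 * esize ρ + (2 * esize a + esize b + 1) + 1) + 1) + 1 := by
    rw [esize_pair, esize_pair, esize_pair, esize_pair, esize_un, esize_un]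
  have la : a.length ≤ esize a := length_le_esize a
  have lb : b.length ≤ esize b := length_le_esize b
  rw [e]
  refine ⟨?_, ?_, ?_, ?_, ?_, ?_, ?_⟩
  · show n.v ≤ _
    omega
  · show f.v ≤ _
    (clear * - e; omega)
  · show esize ρ ≤ _
    omega
  · show a.length ≤ _
    omega
  · show b.length ≤ _
    omega
  · intro v hv
    have : esize v ≤ esize a := esize_le_of_mem hv
    show _ + f.v ≤ _
    omega
  · intro l hl
    have h1 : esize l ≤ esize b := esize_le_of_mem hl
    have h2 := length_le_esize l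
    refine ⟨?_, fun v hv => ?_⟩
    · show _ + f.v ≤ _
      omega
    · have h3 : esize v ≤ esize l := esize_le_of_mem hv
      show _ + f.v ≤ _
      omega

/-- bound for the size of a memory -/
def bdE (K E : ℕ) : ℕ :=
  2 * E + (2 * E + (2 * E + (2 * ((E + K) * (2 * (2 * E + K) + 1)) +
    (E + K) * (2 * ((2 * E + K) * (2 * (2 * E + K) + 1)) + 1) + 1) + 1) + 1) + 1

theorem Bd.esize_le {E K : ℕ} {σ : St} (h : Bd E K σ) : esize σ ≤ bdE K E := by
  obtain ⟨n, f, ρ, a, b⟩ := σ
  have e : esize ((n, f, ρ, a, b) : St) =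
      2 * n.v + (2 * f.v + (2 * esize ρ + (2 * esize a + esize b + 1) + 1) + 1) + 1 := by
    rw [esize_pair, esize_pair, esize_pair, esize_pair, esize_un, esize_un]
  obtain ⟨hn, hf, hc, h1, h2, h3, h4⟩ := h
  have hn' : n.v ≤ E := hn
  have hf' : f.v ≤ E := hf
  have hc' : esize ρ ≤ E := hc
  have h1' : a.length ≤ E + K := h1
  have h2' : b.length ≤ E + K := h2
  have ha : esize a ≤ (E + K) * (2 * (2 * E + K) + 1) :=
    (esize_list_le (B := 2 * E + K) fun v hv => (Nat.le_add_right _ _).trans (h3 v hv)).trans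
      (Nat.mul_le_mul_right _ h1')
  have hb : esize b ≤ (E + K) * (2 * ((2 * E + K) * (2 * (2 * E + K) + 1)) + 1) := by
    refine (esize_list_le (B := (2 * E + K) * (2 * (2 * E + K) + 1)) fun l hl => ?_).trans
      (Nat.mul_le_mul_right _ h2')
    obtain ⟨h5, h6⟩ := h4 l hl
    refine (esize_list_le (B := 2 * E + K) fun v hv =>
      (Nat.le_add_right _ _).trans (h6 v hv)).trans ?_
    exact Nat.mul_le_mul_right _ ((Nat.le_add_right _ _).trans h5)
  rw [e]
  unfold bdE
  omega

theorem pbd_bdE (K : ℕ) : PBd (fun σ : St => bdE K (esize σ)) := by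
  unfold bdE
  have h : PBd (fun σ : St => esize σ) := PBd.esize
  have h2 : PBd (fun σ : St => 2 * esize σ) := (PBd.const 2).mul h
  have hK : PBd (fun σ : St => 2 * esize σ + K) := h2.add (PBd.const K)
  have hK' : PBd (fun σ : St => esize σ + K) := h.add (PBd.const K)
  have h3 : PBd (fun σ : St => 2 * (2 * esize σ + K) + 1) :=
    ((PBd.const 2).mul hK).add (PBd.const 1)
  have h4 : PBd (fun σ : St => (esize σ + K) * (2 * (2 * esize σ + K) + 1)) := hK'.mul h3
  have h5 : PBd (fun σ : St => (2 * esize σ + K) * (2 * (2 * esize σ + K) + 1)) := hK.mul h3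
  have h6 : PBd (fun σ : St =>
      (esize σ + K) * (2 * ((2 * esize σ + K) * (2 * (2 * esize σ + K) + 1)) + 1)) :=
    hK'.mul (((PBd.const 2).mul h5).add (PBd.const 1))
  exact (h2.add ((h2.add ((h2.add ((((PBd.const 2).mul h4).add h6).add (PBd.const 1))).add
    (PBd.const 1))).add (PBd.const 1))).add (PBd.const 1)

/-- The translation of every program is computable in polynomial time. -/
theorem qt_trF (c : Cmd) : QT (trF c) := by
  have hid : PT ∅ (fun σ : St => σ) := PT.id
  induction c with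
  | const x c => exact QT.ret (PT.putN x hid (PT.const c))
  | add x y z => exact QT.ret (PT.putN x hid (PT.add (PT.getN y hid) (PT.getN z hid)))
  | sub x y z => exact QT.ret (PT.putN x hid (PT.sub (PT.getN y hid) (PT.getN z hid)))
  | coin x =>
    have h1 : PT ∅ (fun σ : St => (if (coins σ).headD false then 1 else 0 : ℕ)) :=
      (PT.cond (PT.headD (PT.coins hid) (PT.const false)) (PT.const 1) (PT.const 0)).congr
        fun a => by cases (coins a).headD false <;> rfl
    exact QT.ret (PT.popC (PT.putN x hid h1))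
  | clear S => exact QT.ret (PT.putS S hid (PT.const []))
  | copy S S' => exact QT.ret (PT.putS S hid (PT.getS S' hid))
  | insert S x => exact QT.ret (PT.putS S hid (PT.cons (PT.getN x hid) (PT.getS S hid)))
  | erase S x =>
    have h1 : PT ∅ (fun σ : St => (getS σ S).filter fun v => !decide (v = getN σ x)) :=
      PT.filter (PT.getS S hid) (PT.not (PT.eqNat PT.snd' ((PT.getN x hid).comp PT.fst')))
    exact QT.ret (PT.putS S hid h1)
  | mem x y S =>
    have h1 : PT ∅ (fun σ : St => (if getN σ y ∈ getS σ S then 1 else 0 : ℕ)) :=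
      PT.ite (PT.mem (PT.getS S hid) (PT.getN y hid)) (PT.const 1) (PT.const 0)
    exact QT.ret (PT.putN x hid h1)
  | ask i x S =>
    have h1 : PT ∅ (fun p : St × Bool => (if p.2 then 1 else 0 : ℕ)) :=
      (PT.cond (PT.snd' : PT ∅ (fun p : St × Bool => p.2)) (PT.const 1) (PT.const 0)).congr
        fun a => by cases a.2 <;> rfl
    have h2 : QT (fun σ : St => Tree.ask (some (i, word σ.1.v (getS σ S)))
        fun b => Tree.ret (putN σ x (if b then 1 else 0))) :=
      QT.ask (PT.some ((PT.const i).pair (PT.word hid.fst (PT.getS S hid))))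
        (QT.ret (PT.putN x PT.fst' h1))
    exact (QT.ite (p := fun σ : St => fuel σ = 0) (PT.noFuel hid) (QT.ret hid) h2)
  | seq c d ihc ihd =>
    exact QT.bind (g := fun _ => trF d) ihc (QT.comp ihd PT.snd')
  | cond x y c d ihc ihd =>
    exact QT.ite (p := fun σ : St => getN σ x < getN σ y) (PT.lt (PT.getN x hid) (PT.getN y hid))
      (QT.comp ihc (PT.tickT hid)) (QT.comp ihd (PT.tickT hid))
  | loop x c ih =>
    refine QT.iter (f := fun (_ : St) σ => trF c (tickT σ))
      (k := fun σ => min (getN σ x) (fuel σ)) (init := tickT) (B := fun σ => bdE (cB c + 1) (esize σ))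
      (QT.comp ih (PT.tickT PT.snd')) (PT.min (PT.getN x hid) (PT.fuel hid))
      ((pbd_fuel hid).mono fun a => min_le_right _ _) (PT.tickT hid) (pbd_bdE _) fun σ j _ => ?_
    exact Tree.AllL_mono (Tree.AllL_iter (P := fun _ => Bd (esize σ) (cB c + 1))
      (fun k b hb => Bd.trF c hb.tickT (Nat.le_succ _)) (Bd.init _ σ (Nat.le_add_left _ _)).tickT j)
      fun b hb => hb.esize_le

end Vale.Agent.P317.T
end
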