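import Vale.Agent.P317.MathlibUsed
import Vale.Agent.P317.Bdl.B6
import Vale.Agent.Lib.PolyTime.Lists2
import Vale.Agent.Lib.PolyTime.Unary
import Vale.Agent.Lib.PolyTime.TypedTM2
attribute [-instance] ProperSMul.toContinuousSMul IsTopologicalTorsor.toContinuousSMul IdemSemiring.toCanonicallyOrderedAdd IdemSemiring.toMulLeftMono IdemSemiring.toMulRightMono AddQuantale.instAddLeftMono AddQuantale.instAddRightMono Quantale.instMulLeftMono Quantale.instMulRightMono FiniteDimensional.rclike_to_real IsScalarTower.complexToReal FiniteDimensional.complexToReal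

section

/-!
The query tree of a program simulates the program.
-/

namespace Vale.Agent.P317.T

open Vale.Agent.Lib.PolyTime

/-! ### Coin trees -/

theorem path_bind {α β : Type} (t : Rnd α) (g : α → Rnd β) (ρ : List Bool) :
    path (t.bind g) ρ = path (g (path t ρ).1) (path t ρ).2 := by
  induction t generalizing ρ with
  | leaf a => rfl
  | flip t u iht ihu =>
    rcases ρ with _ | ⟨_ | _, ρ⟩
    · exact iht []
    · exact iht ρ
    · exact ihu ρ

theorem All_path {α : Type} {p : α → Prop} {t : Rnd α} (h : t.All p) (ρ : List Bool) :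
    p (path t ρ).1 := by
  induction t generalizing ρ with
  | leaf a => exact h
  | flip t u iht ihu =>
    rcases ρ with _ | ⟨_ | _, ρ⟩
    · exact iht h.1 []
    · exact iht h.1 ρ
    · exact ihu h.2 ρ

theorem All_mono' {α : Type} {p q : α → Prop} {t : Rnd α} (h : t.All p) (hpq : ∀ a, p a → q a) :
    t.All q := by
  induction t with
  | leaf a => exact hpq _ h
  | flip t u iht ihu => exact ⟨iht h.1, ihu h.2⟩

theorem All_bind' {α β : Type} {p : β → Prop} {t : Rnd α} {g : α → Rnd β} :
    (t.bind g).All p ↔ t.All (fun a => (g a).All p) := by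
  induction t with
  | leaf a => exact Iff.rfl
  | flip t u iht ihu => exact and_congr iht ihu

/-! ### Query trees -/

theorem evalT_bind {β γ : Type} (o : Bool → List Bool → Bool) (t : Tree β) (f : β → Tree γ) :
    evalT o (t.bind f) = evalT o (f (evalT o t)) := by
  induction t with
  | ret b => rfl
  | ask q k ih =>
    rcases q with _ | ⟨i, w⟩
    · exact ih false
    · exact ih (o i w)

theorem answ_bind {β γ : Type} (o : Bool → List Bool → Bool) (t : Tree β) (f : β → Tree γ) :
    answ o (t.bind f) = answ o t ++ answ o (f (evalT o t)) := by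
  induction t with
  | ret b => rfl
  | ask q k ih =>
    rcases q with _ | ⟨i, w⟩
    · exact congrArg (List.cons false) (ih false)
    · exact congrArg (List.cons (o i w)) (ih (o i w))

theorem evalT_iter {β : Type} (o : Bool → List Bool → Bool) (f : β → Tree β) (k : ℕ) (b : β) :
    evalT o (Tree.iter f k b) = (fun b => evalT o (f b))^[k] b := by
  induction k with
  | zero => rfl
  | succ k ih => rw [Function.iterate_succ_apply', ← ih]; exact evalT_bind _ _ _

/-! ### Registers -/

theorem getD_put {β : Type} (d : β) (l : List β) (x : ℕ) (v : β) (y : ℕ) :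
    (put d l x v).getD y d = if y = x then v else l.getD y d := by
  induction x generalizing l y with
  | zero =>
    cases l with
    | nil => cases y <;> simp [put]
    | cons a l => cases y <;> simp [put]
  | succ x ih =>
    cases l with
    | nil =>
      cases y with
      | zero => simp [put]
      | succ y =>
        simp only [put, List.getD_cons_succ, ih, Nat.succ_inj]
        simp
    | cons a l =>
      cases y with
      | zero => simp [put]
      | succ y =>
        simp only [put, List.getD_cons_succ, ih, Nat.succ_inj]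

variable {T n : ℕ} {s : State} {σ : St}

theorem RelT.fuel_pos (h : RelT T n s σ) (ht : s.time + 1 ≤ T) : fuel σ ≠ 0 := by
  have := h.ht
  omega

theorem RelT.tick (h : RelT T n s σ) (ht : s.time + 1 ≤ T) : RelT T n s.tick (tickT σ) := by
  refine ⟨h.hn, ?_, h.hnum, h.hset⟩
  have h1 := h.ht
  show s.time + 1 + (fuel σ - 1) = T
  omega

theorem RelT.putN (h : RelT T n s σ) (ht : s.time + 1 ≤ T) (x : ℕ) {v w : ℕ} (hv : v = w) :
    RelT T n (s.putNum x v) (putN σ x w) ∧ coins (putN σ x w) = coins σ := by
  have h0 := h.fuel_pos ht
  have h1 := h.ht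
  subst hv
  unfold Vale.Agent.P317.T.putN
  rw [if_neg h0]
  refine ⟨⟨h.hn, ?_, ?_, h.hset⟩, rfl⟩
  · show s.time + 1 + (fuel σ - 1) = T
    omega
  · intro y
    show (put 0 σ.2.2.2.1 x v).getD y 0 = Function.update s.num x v y
    rw [getD_put, Function.update_apply, ← h.hnum y]
    rfl

theorem RelT.putS (h : RelT T n s σ) (ht : s.time + 1 ≤ T) (x : ℕ) {v : Finset ℕ} {w : List ℕ}
    (hv : w.toFinset = v) :
    RelT T n (s.putSet x v) (putS σ x w) ∧ coins (putS σ x w) = coins σ := by
  have h0 := h.fuel_pos ht
  have h1 := h.ht
  unfold Vale.Agent.P317.T.putS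
  rw [if_neg h0]
  refine ⟨⟨h.hn, ?_, h.hnum, ?_⟩, rfl⟩
  · show s.time + 1 + (fuel σ - 1) = T
    omega
  · intro y
    show ((put [] σ.2.2.2.2 x w).getD y []).toFinset = Function.update s.set x v y
    rw [getD_put, Function.update_apply, ← h.hset y]
    by_cases hy : y = x
    · rw [if_pos hy, if_pos hy]
      exact hv
    · rw [if_neg hy, if_neg hy]
      rfl

theorem RelT.popC (h : RelT T n s σ) : RelT T n s (popC σ) := ⟨h.hn, h.ht, h.hnum, h.hset⟩

/-! ### Time -/

theorem time_mono_iter {g : State → Rnd State} (hg : ∀ s, (g s).All (fun s' => s.time ≤ s'.time))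
    (m : ℕ) : ∀ s : State, (iter g m s).All (fun s' => s.time + m ≤ s'.time) := by
  induction m with
  | zero => intro s; exact le_rfl
  | succ m ih =>
    intro s
    refine All_bind'.2 (All_mono' (hg s.tick) fun s' hs' => All_mono' (ih s') fun s'' hs'' => ?_)
    have : s.tick.time = s.time + 1 := rfl
    omega

theorem time_mono (o : Bool → Finset ℕ → Bool) (c : Cmd) :
    ∀ s : State, (run o c s).All (fun s' => s.time ≤ s'.time) := by
  induction c with
  | const x c => intro s; exact Nat.le_succ _
  | add x y z => intro s; exact Nat.le_succ _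
  | sub x y z => intro s; exact Nat.le_succ _
  | coin x => intro s; exact ⟨Nat.le_succ _, Nat.le_succ _⟩
  | clear S => intro s; exact Nat.le_succ _
  | copy S S' => intro s; exact Nat.le_succ _
  | insert S x => intro s; exact Nat.le_succ _
  | erase S x => intro s; exact Nat.le_succ _
  | mem x y S => intro s; exact Nat.le_succ _
  | ask i x S => intro s; exact Nat.le_succ _
  | seq c d ihc ihd =>
    intro s
    exact All_bind'.2 (All_mono' (ihc s) fun s' hs' => All_mono' (ihd s') fun s'' hs'' =>
      hs'.trans hs'')
  | cond x y c d ihc ihd =>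
    intro s
    unfold run
    split_ifs
    · exact All_mono' (ihc s.tick) fun s' hs' => (Nat.le_succ _).trans hs'
    · exact All_mono' (ihd s.tick) fun s' hs' => (Nat.le_succ _).trans hs'
  | loop x c ih =>
    intro s
    refine All_mono' (time_mono_iter ih (s.num x) s.tick) fun s' hs' => ?_
    have : s.tick.time = s.time + 1 := rfl
    omega

theorem time_le_of_All {g : State → Rnd State} {m : ℕ}
    (hg : ∀ s, (g s).All (fun s' => s.time ≤ s'.time))
    (h : (iter g m s).All (fun s' => s'.time ≤ T)) : s.time + m ≤ T :=
  (All_path (time_mono_iter hg m s) []).trans (All_path h [])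

theorem time_le_of_run {o : Bool → Finset ℕ → Bool} {c : Cmd}
    (h : (run o c s).All (fun s' => s'.time ≤ T)) : s.time ≤ T :=
  (All_path (time_mono o c s) []).trans (All_path h [])

/-! ### Simulation -/

/-- The query tree of a program simulates the program. -/
theorem sim {o : Bool → Finset ℕ → Bool} {oW : Bool → List Bool → Bool}
    (hoW : ∀ i (l : List ℕ), oW i (word n l) = o i l.toFinset) (c : Cmd) :
    ∀ {s : State} {σ : St}, RelT T n s σ → (run o c s).All (fun s' => s'.time ≤ T) →
      RelT T n (path (run o c s) (coins σ)).1 (evalT oW (trF c σ)) ∧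
        coins (evalT oW (trF c σ)) = (path (run o c s) (coins σ)).2 := by
  induction c with
  | const x c => intro s σ h hT; exact h.putN hT x rfl
  | add x y z =>
    intro s σ h hT
    exact h.putN hT x (by rw [h.hnum, h.hnum])
  | sub x y z =>
    intro s σ h hT
    exact h.putN hT x (by rw [h.hnum, h.hnum])
  | coin x =>
    intro s σ h hT
    obtain ⟨n', f', ρ, a', b'⟩ := σ
    have hT' : s.time + 1 ≤ T := hT.1
    rcases ρ with _ | ⟨_ | _, ρ⟩
    · obtain ⟨h1, h2⟩ := h.putN hT' x (v := 0) (w := 0) rfl
      refine ⟨h1.popC, ?_⟩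
      show (coins (putN (n', f', [], a', b') x 0)).tail = []
      rw [h2]; rfl
    · obtain ⟨h1, h2⟩ := h.putN hT' x (v := 0) (w := 0) rfl
      refine ⟨h1.popC, ?_⟩
      show (coins (putN (n', f', false :: ρ, a', b') x 0)).tail = ρ
      rw [h2]; rfl
    · obtain ⟨h1, h2⟩ := h.putN hT' x (v := 1) (w := 1) rfl
      refine ⟨h1.popC, ?_⟩
      show (coins (putN (n', f', true :: ρ, a', b') x 1)).tail = ρ
      rw [h2]; rfl
  | clear S => intro s σ h hT; exact h.putS hT S rfl
  | copy S S' => intro s σ h hT; exact h.putS hT S (h.hset S')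
  | insert S x =>
    intro s σ h hT
    exact h.putS hT S (by rw [List.toFinset_cons, h.hset, h.hnum])
  | erase S x =>
    intro s σ h hT
    refine h.putS hT S ?_
    rw [← h.hset, ← h.hnum]
    ext v
    simp only [List.mem_toFinset, List.mem_filter, Finset.mem_erase, Bool.not_eq_true',
      decide_eq_false_iff_not]
    tauto
  | mem x y S =>
    intro s σ h hT
    refine h.putN hT x ?_
    rw [← h.hset, ← h.hnum]
    simp only [List.mem_toFinset]
  | ask i x S =>
    intro s σ h hT
    have hT' : s.time + 1 ≤ T := hT
    have h0 := h.fuel_pos hT'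
    unfold trF
    rw [if_neg h0]
    show RelT T n (s.putNum x (if o i (s.set S) then 1 else 0))
      (putN σ x (if oW i (word σ.1.v (getS σ S)) then 1 else 0)) ∧
      coins (putN σ x (if oW i (word σ.1.v (getS σ S)) then 1 else 0)) = coins σ
    rw [h.hn, hoW, h.hset]
    exact h.putN hT' x rfl
  | seq c d ihc ihd =>
    intro s σ h hT
    have hT1 : (run o c s).All (fun s' => (run o d s').All (fun s' => s'.time ≤ T)) :=
      All_bind'.1 hT
    have hT2 : (run o c s).All (fun s' => s'.time ≤ T) :=
      All_mono' hT1 fun s' hs' => time_le_of_run hs'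
    obtain ⟨h1, h2⟩ := ihc h hT2
    have hT3 := All_path hT1 (coins σ)
    obtain ⟨h3, h4⟩ := ihd h1 hT3
    have e1 : run o (.seq c d) s = (run o c s).bind (run o d) := rfl
    have e2 : trF (.seq c d) σ = (trF c σ).bind (trF d) := rfl
    rw [e1, e2, path_bind, evalT_bind, ← h2]
    exact ⟨h3, h4⟩
  | cond x y c d ihc ihd =>
    intro s σ h hT
    have ht : s.time + 1 ≤ T := by
      unfold run at hT
      split_ifs at hT
      · exact time_le_of_run hT
      · exact time_le_of_run hT
    have e1 : run o (.cond x y c d) s =
      if s.num x < s.num y then run o c s.tick else run o d s.tick := rfl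
    have e2 : trF (.cond x y c d) σ =
      if getN σ x < getN σ y then trF c (tickT σ) else trF d (tickT σ) := rfl
    rw [e1] at hT ⊢
    rw [e2, h.hnum, h.hnum]
    by_cases hxy : s.num x < s.num y
    · rw [if_pos hxy] at hT ⊢
      rw [if_pos hxy]
      exact ihc (h.tick ht) hT
    · rw [if_neg hxy] at hT ⊢
      rw [if_neg hxy]
      exact ihd (h.tick ht) hT
  | loop x c ih =>
    intro s σ h hT
    have e1 : run o (.loop x c) s = iter (run o c) (s.num x) s.tick := rfl
    have e2 : trF (.loop x c) σ =
      Tree.iter (fun σ => trF c (tickT σ)) (min (getN σ x) (fuel σ)) (tickT σ) := rfl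
    rw [e1] at hT ⊢
    have h1 : s.tick.time + s.num x ≤ T := time_le_of_All (time_mono o c) hT
    have h2 : s.tick.time = s.time + 1 := rfl
    have h3 := h.ht
    have h4 : min (getN σ x) (fuel σ) = s.num x := by
      rw [h.hnum]
      exact min_eq_left (by omega)
    rw [e2, h4, evalT_iter]
    have key : ∀ (m : ℕ) {s : State} {σ : St}, RelT T n s σ →
        (iter (run o c) m s).All (fun s' => s'.time ≤ T) →
        RelT T n (path (iter (run o c) m s) (coins σ)).1
            ((fun σ => evalT oW (trF c (tickT σ)))^[m] σ) ∧
          coins ((fun σ => evalT oW (trF c (tickT σ)))^[m] σ) =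
            (path (iter (run o c) m s) (coins σ)).2 := by
      intro m
      induction m with
      | zero => intro s σ h _; exact ⟨h, rfl⟩
      | succ m ihm =>
        intro s σ h hT
        have ht := time_le_of_All (time_mono o c) hT
        have hT1 : (run o c s.tick).All (fun s' => (iter (run o c) m s').All
            (fun s' => s'.time ≤ T)) := All_bind'.1 hT
        have hT2 : (run o c s.tick).All (fun s' => s'.time ≤ T) :=
          All_mono' hT1 fun s' hs' => (Nat.le_add_right _ _).trans
            (time_le_of_All (time_mono o c) hs')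
        obtain ⟨h1, h2⟩ := ih (h.tick (by omega)) hT2
        have hT3 := All_path hT1 (coins σ)
        obtain ⟨h3, h4⟩ := ihm h1 hT3
        have e1 : iter (run o c) (m + 1) s = (run o c s.tick).bind (iter (run o c) m) := rfl
        rw [e1, path_bind, Function.iterate_succ_apply]
        have e3 : (path (run o c s.tick) (coins σ)).2 = coins (evalT oW (trF c (tickT σ))) :=
          h2.symm
        rw [e3]
        exact ⟨h3, h4⟩
    exact key (s.num x) (h.tick (by omega)) hT

/-! ### Number of questions -/

theorem fuel_putN (σ : St) (x v : ℕ) : fuel (putN σ x v) ≤ fuel σ := by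
  unfold putN
  split_ifs
  · exact le_rfl
  · exact Nat.sub_le _ _

theorem fuel_putN' {σ : St} (h : fuel σ ≠ 0) (x v : ℕ) : fuel (putN σ x v) + 1 ≤ fuel σ := by
  unfold putN
  rw [if_neg h]
  show fuel σ - 1 + 1 ≤ fuel σ
  omega

theorem fuel_putS (σ : St) (x : ℕ) (v : List ℕ) : fuel (putS σ x v) ≤ fuel σ := by
  unfold putS
  split_ifs
  · exact le_rfl
  · exact Nat.sub_le _ _

theorem answ_iter_le {oW : Bool → List Bool → Bool} {f : St → Tree St}
    (hf : ∀ σ, (answ oW (f σ)).length + fuel (evalT oW (f σ)) ≤ fuel σ) (k : ℕ) (σ : St) :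
    (answ oW (Tree.iter f k σ)).length + fuel (evalT oW (Tree.iter f k σ)) ≤ fuel σ := by
  induction k with
  | zero => show 0 + fuel σ ≤ fuel σ; omega
  | succ k ih =>
    have e : Tree.iter f (k + 1) σ = (Tree.iter f k σ).bind f := rfl
    rw [e, answ_bind, evalT_bind, List.length_append]
    have := hf (evalT oW (Tree.iter f k σ))
    omega

/-- The number of questions is at most the number of steps. -/
theorem answ_le (oW : Bool → List Bool → Bool) (c : Cmd) :
    ∀ σ : St, (answ oW (trF c σ)).length + fuel (evalT oW (trF c σ)) ≤ fuel σ := by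
  have ret : ∀ {σ σ' : St}, fuel σ' ≤ fuel σ →
      (answ oW (Tree.ret σ')).length + fuel (evalT oW (Tree.ret σ')) ≤ fuel σ := by
    intro σ σ' h
    show 0 + fuel σ' ≤ fuel σ
    omega
  have tick : ∀ σ : St, fuel (tickT σ) ≤ fuel σ := fun σ => Nat.sub_le _ _
  induction c with
  | const x c => intro σ; exact ret (fuel_putN _ _ _)
  | add x y z => intro σ; exact ret (fuel_putN _ _ _)
  | sub x y z => intro σ; exact ret (fuel_putN _ _ _)
  | coin x => intro σ; exact ret (fuel_putN _ _ _)
  | clear S => intro σ; exact ret (fuel_putS _ _ _)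
  | copy S S' => intro σ; exact ret (fuel_putS _ _ _)
  | insert S x => intro σ; exact ret (fuel_putS _ _ _)
  | erase S x => intro σ; exact ret (fuel_putS _ _ _)
  | mem x y S => intro σ; exact ret (fuel_putN _ _ _)
  | ask i x S =>
    intro σ
    unfold trF
    split_ifs with h0
    · exact ret le_rfl
    · have := fuel_putN' h0 x (if oW i (word σ.1.v (getS σ S)) then 1 else 0)
      show (0 + 1) + fuel (putN σ x (if oW i (word σ.1.v (getS σ S)) then 1 else 0)) ≤ fuel σ
      omega
  | seq c d ihc ihd =>
    intro σ
    have e : trF (.seq c d) σ = (trF c σ).bind (trF d) := rfl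
    rw [e, answ_bind, evalT_bind, List.length_append]
    have h1 := ihc σ
    have h2 := ihd (evalT oW (trF c σ))
    omega
  | cond x y c d ihc ihd =>
    intro σ
    unfold trF
    split_ifs
    · exact (ihc _).trans (tick _)
    · exact (ihd _).trans (tick _)
  | loop x c ih =>
    intro σ
    exact (answ_iter_le (fun σ => (ih _).trans (tick _)) _ _).trans (tick _)

/-! ### The trees contain no coin questions -/

/-- all questions go to the oracles -/
def AskAll {β : Type} : Tree β → Prop
  | .ret _ => True
  | .ask q k => q ≠ none ∧ ∀ b, AskAll (k b)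

theorem AskAll.bind {β γ : Type} {t : Tree β} {f : β → Tree γ} (ht : AskAll t)
    (hf : ∀ b, AskAll (f b)) : AskAll (t.bind f) := by
  induction t with
  | ret b => exact hf b
  | ask q k ih => exact ⟨ht.1, fun b => ih b (ht.2 b)⟩

theorem AskAll.iter {β : Type} {f : β → Tree β} (hf : ∀ b, AskAll (f b)) (k : ℕ) (b : β) :
    AskAll (Tree.iter f k b) := by
  induction k with
  | zero => trivial
  | succ k ih => exact AskAll.bind ih hf

theorem askAll_trF (c : Cmd) : ∀ σ : St, AskAll (trF c σ) := by
  induction c with
  | const x c => intro σ; trivial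
  | add x y z => intro σ; trivial
  | sub x y z => intro σ; trivial
  | coin x => intro σ; trivial
  | clear S => intro σ; trivial
  | copy S S' => intro σ; trivial
  | insert S x => intro σ; trivial
  | erase S x => intro σ; trivial
  | mem x y S => intro σ; trivial
  | ask i x S =>
    intro σ
    unfold trF
    split_ifs with h0
    · trivial
    · exact ⟨Option.some_ne_none _, fun b => trivial⟩
  | seq c d ihc ihd => intro σ; exact (ihc σ).bind ihd
  | cond x y c d ihc ihd =>
    intro σ
    unfold trF
    split_ifs
    · exact ihc _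
    · exact ihd _
  | loop x c ih => intro σ; exact AskAll.iter (fun σ => ih _) _ _

end Vale.Agent.P317.T
end

section

/-!
Counting coin strings; the history of questions and answers.
-/

namespace Vale.Agent.P317.T

open Vale.Agent.Lib.PolyTime

/-! ### Counting coin strings -/

/-- every coin costs at least one step -/
def Timed (τ : ℕ) : Rnd State → Prop
  | .leaf s => τ ≤ s.time
  | .flip t u => Timed (τ + 1) t ∧ Timed (τ + 1) u

theorem Timed.mono {τ τ' : ℕ} {t : Rnd State} (h : Timed τ t) (hτ : τ' ≤ τ) : Timed τ' t := by
  induction t generalizing τ τ' with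
  | leaf s => exact le_trans hτ h
  | flip t u iht ihu => exact ⟨iht h.1 (by omega), ihu h.2 (by omega)⟩

theorem Timed.bind {τ : ℕ} {t : Rnd State} {g : State → Rnd State} (h : Timed τ t)
    (hg : ∀ s, Timed s.time (g s)) : Timed τ (t.bind g) := by
  induction t generalizing τ with
  | leaf s => exact (hg s).mono h
  | flip t u iht ihu => exact ⟨iht h.1, ihu h.2⟩

theorem Timed.iter {g : State → Rnd State} (hg : ∀ s, Timed s.time (g s)) (m : ℕ) :
    ∀ s : State, Timed s.time (iter g m s) := by
  induction m with
  | zero => intro s; exact le_rfl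
  | succ m ih => intro s; exact (Timed.bind (hg s.tick) ih).mono (Nat.le_succ _)

theorem timed_run (o : Bool → Finset ℕ → Bool) (c : Cmd) : ∀ s : State, Timed s.time (run o c s) := by
  induction c with
  | const x c => intro s; exact Nat.le_succ _
  | add x y z => intro s; exact Nat.le_succ _
  | sub x y z => intro s; exact Nat.le_succ _
  | coin x => intro s; exact ⟨le_rfl, le_rfl⟩
  | clear S => intro s; exact Nat.le_succ _
  | copy S S' => intro s; exact Nat.le_succ _
  | insert S x => intro s; exact Nat.le_succ _
  | erase S x => intro s; exact Nat.le_succ _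
  | mem x y S => intro s; exact Nat.le_succ _
  | ask i x S => intro s; exact Nat.le_succ _
  | seq c d ihc ihd => intro s; exact (ihc s).bind ihd
  | cond x y c d ihc ihd =>
    intro s
    unfold run
    split_ifs
    · exact (ihc s.tick).mono (Nat.le_succ _)
    · exact (ihd s.tick).mono (Nat.le_succ _)
  | loop x c ih => intro s; exact (Timed.iter ih _ s.tick).mono (Nat.le_succ _)

theorem Timed.le {τ T : ℕ} {t : Rnd State} (h : Timed τ t) (hT : t.All (fun s => s.time ≤ T)) :
    τ ≤ T := by
  induction t generalizing τ with
  | leaf s => exact le_trans h hT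
  | flip t u iht _ => exact (Nat.le_succ _).trans (iht h.1 hT.1)

open Classical in
theorem card_split (m : ℕ) (P : List Bool → Prop) :
    (Finset.univ.filter fun ρ : Fin (m + 1) → Bool => P (List.ofFn ρ)).card =
      (Finset.univ.filter fun ρ : Fin m → Bool => P (false :: List.ofFn ρ)).card +
        (Finset.univ.filter fun ρ : Fin m → Bool => P (true :: List.ofFn ρ)).card := by
  have e : (Finset.univ.filter fun ρ : Fin (m + 1) → Bool => P (List.ofFn ρ)) =
      ((Finset.univ.filter fun ρ : Fin m → Bool => P (false :: List.ofFn ρ)).map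
        ⟨Fin.cons false, Fin.cons_right_injective _⟩) ∪
      ((Finset.univ.filter fun ρ : Fin m → Bool => P (true :: List.ofFn ρ)).map
        ⟨Fin.cons true, Fin.cons_right_injective _⟩) := by
    ext ρ
    simp only [Finset.mem_filter, Finset.mem_univ, true_and, Finset.mem_union, Finset.mem_map,
      Function.Embedding.coeFn_mk]
    constructor
    · intro h
      rw [List.ofFn_succ] at h
      rcases hb : ρ 0 with _ | _
      · left
        refine ⟨fun i => ρ i.succ, by rwa [hb] at h, ?_⟩
        rw [← hb]
        exact Fin.cons_self_tail ρ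
      · right
        refine ⟨fun i => ρ i.succ, by rwa [hb] at h, ?_⟩
        rw [← hb]
        exact Fin.cons_self_tail ρ
    · rintro (⟨ρ', h, rfl⟩ | ⟨ρ', h, rfl⟩)
      · rw [List.ofFn_succ]; exact h
      · rw [List.ofFn_succ]; exact h
  rw [e, Finset.card_union_of_disjoint, Finset.card_map, Finset.card_map]
  rw [Finset.disjoint_left]
  intro ρ h1 h2
  rw [Finset.mem_map] at h1 h2
  obtain ⟨ρ1, -, h1⟩ := h1
  obtain ⟨ρ2, -, h2⟩ := h2
  have h3 := congrFun h1 0
  have h4 := congrFun h2 0
  simp only [Function.Embedding.coeFn_mk, Fin.cons_zero] at h3 h4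
  rw [← h3] at h4
  exact Bool.noConfusion h4

open Classical in
/-- Probabilities of a coin tree are frequencies of coin strings. -/
theorem card_path {T τ : ℕ} {t : Rnd State} (h : Timed τ t) (hT : t.All (fun s => s.time ≤ T))
    (p : State → Prop) : ∀ m : ℕ, T ≤ m + τ →
    ((Finset.univ.filter fun ρ : Fin m → Bool => p (path t (List.ofFn ρ)).1).card : ℝ) =
      t.prob p * 2 ^ m := by
  induction t generalizing τ with
  | leaf s =>
    intro m _
    unfold Rnd.prob
    by_cases hp : p s
    · have e : (Finset.univ.filter fun ρ : Fin m → Bool => p (path (.leaf s) (List.ofFn ρ)).1) =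
          Finset.univ := Finset.filter_true_of_mem fun ρ _ => hp
      rw [e, if_pos hp]
      simp
    · have e : (Finset.univ.filter fun ρ : Fin m → Bool => p (path (.leaf s) (List.ofFn ρ)).1) =
          ∅ := Finset.filter_false_of_mem fun ρ _ => hp
      rw [e, if_neg hp]
      simp
  | flip t u iht ihu =>
    intro m hm
    have h1 : τ + 1 ≤ T := h.1.le hT.1
    obtain ⟨m, rfl⟩ : ∃ m', m = m' + 1 := ⟨m - 1, by omega⟩
    rw [card_split m (fun l => p (path (.flip t u) l).1)]
    have e1 := iht h.1 hT.1 m (by omega)
    have e2 := ihu h.2 hT.2 m (by omega)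
    show (((Finset.univ.filter fun ρ : Fin m → Bool => p (path t (List.ofFn ρ)).1).card +
      (Finset.univ.filter fun ρ : Fin m → Bool => p (path u (List.ofFn ρ)).1).card : ℕ) : ℝ) = _
    rw [Nat.cast_add, e1, e2, Rnd.prob]
    rw [pow_succ]
    ring

/-! ### History -/

/-- The answers received so far, after at most `k` questions. -/
def answers (next : List Bool → Query) (o : Bool → List Bool → Bool) : ℕ → List Bool
  | 0 => []
  | k + 1 => match next (answers next o k) with
    | none => answers next o k
    | some (i, w) => answers next o k ++ [o i w]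

theorem exec_take {β : Type} {o : Bool → List Bool → Bool} {t : Tree β} (h : AskAll t) :
    ∀ k, (k < (answ o t).length → ∃ i w, t.exec ((answ o t).take k) = (none, some (i, w)) ∧
        (answ o t)[k]? = some (o i w)) ∧
      ((answ o t).length ≤ k → t.exec ((answ o t).take k) = (some (evalT o t, []), none)) := by
  induction t with
  | ret b =>
    intro k
    refine ⟨fun hk => ?_, fun _ => ?_⟩
    · have : (answ o (Tree.ret b)).length = 0 := rfl
      omega
    · show (Tree.ret b).exec (List.take k []) = _
      rw [List.take_nil]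
      rfl
  | ask q kk ih =>
    obtain ⟨h0, h1⟩ := h
    rcases q with _ | ⟨i, w⟩
    · exact absurd rfl h0
    · intro k
      have e : answ o (Tree.ask (some (i, w)) kk) = o i w :: answ o (kk (o i w)) := rfl
      have e' : evalT o (Tree.ask (some (i, w)) kk) = evalT o (kk (o i w)) := rfl
      rw [e, e']
      cases k with
      | zero =>
        refine ⟨fun _ => ⟨i, w, rfl, rfl⟩, fun hk => ?_⟩
        simp at hk
      | succ k =>
        obtain ⟨h2, h3⟩ := ih (o i w) (h1 _) k
        rw [List.length_cons, List.take_succ_cons, List.getElem?_cons_succ]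
        exact ⟨fun hk => h2 (by omega), fun hk => h3 (by omega)⟩

theorem answers_eq {β : Type} {o : Bool → List Bool → Bool} {t : Tree β} (h : AskAll t) (k : ℕ) :
    answers (fun l => (t.exec l).2) o k = (answ o t).take k := by
  induction k with
  | zero => rfl
  | succ k ih =>
    have e : answers (fun l => (t.exec l).2) o (k + 1) =
        match (t.exec (answers (fun l => (t.exec l).2) o k)).2 with
        | none => answers (fun l => (t.exec l).2) o k
        | some (i, w) => answers (fun l => (t.exec l).2) o k ++ [o i w] := rfl
    rw [e, ih]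
    obtain ⟨h1, h2⟩ := exec_take (o := o) h k
    by_cases hk : k < (answ o t).length
    · obtain ⟨i, w, h3, h4⟩ := h1 hk
      rw [h3]
      show List.take k (answ o t) ++ [o i w] = _
      rw [List.take_succ, h4]
      rfl
    · rw [h2 (by omega)]
      show List.take k (answ o t) = _
      rw [List.take_of_length_le (by omega), List.take_of_length_le (by omega)]

theorem exec_answers {β : Type} {o : Bool → List Bool → Bool} {t : Tree β} (h : AskAll t) {k : ℕ}
    (hk : (answ o t).length ≤ k) :
    t.exec (answers (fun l => (t.exec l).2) o k) = (some (evalT o t, []), none) := by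
  rw [answers_eq h]
  exact (exec_take h k).2 hk

end Vale.Agent.P317.T
end

section

/-!
Typed words for the second version of the P317 statement: the input of the next-action function is
`(n, e, l, coins, answers)` with `n, e, l` in unary, its output is an action.
-/

namespace Vale.Agent.P317.T

open Vale.Agent.Lib.PolyTime

/-- Input of the next-action function: number of elements, accuracy and confidence parameters,
coin string, answers of the oracles so far. -/
structure Input where
  n : ℕ
  e : ℕ
  l : ℕ
  coins : List Bool
  answers : List Bool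

/-- Code of an input; `pr` is the pairing of words. -/
def Input.code (x : Input) : List Bool :=
  pr (List.replicate x.n true) (pr (List.replicate x.e true)
    (pr (List.replicate x.l true) (pr x.coins x.answers)))

/-- Actions: a question to oracle `i` about the set with characteristic word `w`, or the output. -/
inductive Action
  | ask (i : Bool) (w : List Bool)
  | output (N : ℕ)

/-- Code of an action. -/
def Action.code : Action → List Bool
  | .ask i w => true :: i :: w
  | .output N => false :: N.bits

instance : Enc Input := ⟨Input.code⟩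
instance : Enc Action := ⟨Action.code⟩

variable {A : Set Word} {α : Type} [Enc α]

/-- first bit of a raw word -/
theorem PT.rawHd {f : α → Raw} (hf : PT A f) : PT A (fun a => hd (f a).w) := by
  obtain ⟨F, hF, hF'⟩ := hf
  refine ⟨_, hF.case3 (FP.const [false]) (FP.const [false]) (FP.const [true]), fun a => ?_⟩
  rw [hF', enc_raw]
  show case3 (f a).w [false] [false] [true] = [hd (f a).w]
  generalize (f a).w = w
  rcases w with _ | ⟨_ | _, w⟩ <;> rfl

/-- a raw word as a list of Booleans -/
theorem PT.listOfRaw {f : α → Raw} (hf : PT A f) : PT A (fun a => (f a).w) := by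
  have hb : PBd (fun a => (f a).w.length) := hf.pbd
  have h1 : PT A (fun p : α × ℕ => hd ((f p.1).w.drop p.2)) :=
    PT.rawHd (f := fun p : α × ℕ => Raw.mk ((f p.1).w.drop p.2))
      (PT.rawDrop (hf.comp PT.fst') PT.snd')
  refine (PT.map (l := fun a => List.range (f a).w.length)
    (f := fun a i => hd ((f a).w.drop i)) (PT.range (PT.rawLength hf) hb) h1).congr fun a => ?_
  refine List.ext_getElem (by simp) fun i h2 h3 => ?_
  rw [List.getElem_map, List.getElem_range]
  show (List.drop i (f a).w).headD false = _
  rw [List.headD_eq_head?_getD, List.head?_drop, List.getElem?_eq_getElem h3]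
  rfl

/-- prepend a bit -/
theorem PT.rawCons (b : Bool) {f : α → Raw} (hf : PT A f) :
    PT A (fun a => Raw.mk (b :: (f a).w)) := by
  obtain ⟨F, hF, hF'⟩ := hf
  exact ⟨_, (FP.cons b).comp hF, fun a => by rw [hF']; rfl⟩

/-- the components of an input as typed data -/
theorem PT.input : PT A (fun x : Input =>
    ((Un.mk x.n, Un.mk x.e, Un.mk x.l, x.coins, x.answers) :
      Un × Un × Un × List Bool × List Bool)) := by
  have h : PT A (fun x : Input => ((Un.mk x.n, Un.mk x.e, Un.mk x.l, Raw.mk x.coins,
      Raw.mk x.answers) : Un × Un × Un × Raw × Raw)) := ⟨_, FP.id, fun x => rfl⟩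
  exact h.fst.pair (h.snd.fst.pair (h.snd.snd.fst.pair
    ((PT.listOfRaw h.snd.snd.snd.fst).pair (PT.listOfRaw h.snd.snd.snd.snd))))

/-- the action `ask` -/
theorem PT.ask {i : α → Bool} {w : α → List Bool} (hi : PT A i) (hw : PT A w) :
    PT A (fun a => Action.ask (i a) (w a)) := by
  have h1 : ∀ b : Bool, PT A (fun a => Action.ask b (w a)) := by
    intro b
    obtain ⟨F, hF, hF'⟩ := PT.rawCons true (PT.rawCons b (PT.rawOfList hw))
    exact ⟨F, hF, fun a => by rw [hF']; rfl⟩
  refine (PT.cond hi (h1 true) (h1 false)).congr fun a => ?_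
  cases i a <;> rfl

/-- the action `output` -/
theorem PT.output {N : α → ℕ} (hN : PT A N) : PT A (fun a => Action.output (N a)) := by
  obtain ⟨F, hF, hF'⟩ := hN
  exact ⟨_, (FP.cons false).comp hF, fun a => by rw [hF']; rfl⟩

/-- The final step: a typed polynomial-time next-action function is computed by a Turing machine in
polynomial time, in the sense of Mathlib. -/
theorem exists_machine {F : Un × Un × Un × List Bool × List Bool → Action} (hF : PT ∅ F) :
    ∃ M : Turing.TM2ComputableInPolyTime Input.code Action.code
      (fun x : Input => F (Un.mk x.n, Un.mk x.e, Un.mk x.l, x.coins, x.answers)),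
      ∀ k, Finite (M.tm.Γ k) :=
  PT.exists_tm2 (hF.comp PT.input)

end Vale.Agent.P317.T
end
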