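import Vale.Agent.P317.MathlibUsed
import Vale.Agent.P317.Bdl.B1

/-!
# Simulation of the main loops of the compiled program
-/

set_option linter.unusedSimpArgs false
set_option linter.unusedVariables false
set_option linter.unnecessarySeqFocus false
set_option linter.unreachableTactic false
set_option linter.unusedTactic false

namespace Vale.Agent.P317.Alg

open Rnd

variable {P : Par} {K : ℕ}

/-! ### single writes -/

theorem ex_add {o : Bool → Finset ℕ → Bool} {x y z : ℕ} {d : Cmd} {s : State} {Q : State → Prop}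
    (h : Ex (run o d (s.putNum x (s.num y + s.num z))) Q) :
    Ex (run o (.seq (.add x y z) d) s) Q := h

theorem ex_sub {o : Bool → Finset ℕ → Bool} {x y z : ℕ} {d : Cmd} {s : State} {Q : State → Prop}
    (h : Ex (run o d (s.putNum x (s.num y - s.num z))) Q) :
    Ex (run o (.seq (.sub x y z) d) s) Q := h

theorem ex_const {o : Bool → Finset ℕ → Bool} {x c : ℕ} {d : Cmd} {s : State} {Q : State → Prop}
    (h : Ex (run o d (s.putNum x c)) Q) :
    Ex (run o (.seq (.const x c) d) s) Q := h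

/-- conditional insertion of register 21 -/
theorem ex_condIns {o : Bool → Finset ℕ → Bool} {x y X : ℕ} {s : State} :
    Ex (run o (.cond x y (.insert X 21) skp) s) (fun s' =>
      (∀ r < 25, s'.num r = s.num r) ∧
      (s'.set X = if s.num x < s.num y then insert (s.num 21) (s.set X) else s.set X) ∧
      (∀ Y, Y ≠ X → s'.set Y = s.set Y) ∧ s'.time ≤ s.time + 2) := by
  by_cases h : s.num x < s.num y
  · unfold Ex
    simp only [run, if_pos h]
    refine ⟨_, rfl, ?_, ?_, ?_, ?_⟩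
    · intro r _; rfl
    · simp [State.putSet, State.tick]
    · intro Y hY
      simp [State.putSet, State.tick, hY]
    · simp only [State.putSet, State.tick]; omega
  · unfold Ex
    simp only [run, if_neg h, skp]
    refine ⟨_, rfl, ?_, ?_, ?_, ?_⟩
    · intro r hr
      have : r ≠ 25 := by omega
      simp [State.putNum, State.tick, this]
    · simp [State.putNum, State.tick]
    · intro Y _; rfl
    · simp only [State.putNum, State.tick]; omega

/-! ### update of the history -/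

theorem run_upd {s : State} {q : Q} (h : Rl P K s q) :
    Ex (run P.o updCode s) (fun s' => Rl P K s' { q with
      I := (P.upd q.k q.i q.j (q.I, q.D) (q.x, q.y)).1
      D := (P.upd q.k q.i q.j (q.I, q.D) (q.x, q.y)).2 } ∧
      s'.time ≤ s.time + (2 * q.i + 2 * q.k + 14)) := by
  unfold updCode
  refine (run_prod (z := 21) (x := 12) (y := 0) (by norm_num) (by norm_num) s).seq ?_
  rintro s₁ ⟨hz, h21⟩
  refine ex_add ?_
  set s₂ := s₁.putNum 21 (s₁.num 21 + s₁.num 13) with hs₂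
  refine (run_prod (z := 22) (x := 11) (y := 17) (by norm_num) (by norm_num) s₂).seq ?_
  rintro s₃ ⟨hz3, h22⟩
  refine ex_add (ex_add (ex_add ?_))
  -- values
  have r2 : ∀ r, r ≠ 21 → s₂.num r = s.num r := by
    intro r hr
    simp [hs₂, State.putNum, hr, hz.num r hr]
  have r3 : ∀ r, r ≠ 21 → r ≠ 22 → s₃.num r = s.num r := by
    intro r h1 h2
    rw [hz3.num r h2, r2 r h1]
  have set3 : s₃.set = s.set := by rw [hz3.set]; simp [hs₂, State.putNum, hz.set]
  have v21 : s₃.num 21 = q.i * P.n + q.j := by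
    rw [hz3.num 21 (by norm_num)]
    simp [hs₂, State.putNum, h21, hz.num 13 (by norm_num), h.i, h.j, h.cf.n]
  have v22 : s₃.num 22 = q.k * (P.n * P.n) := by
    rw [h22, r2 11 (by norm_num), r2 17 (by norm_num), h.k, h.cf.nn]
  have t3 : s₃.time ≤ s.time + (2 * q.i + 2 * q.k + 5) := by
    have a1 := hz.time
    have a2 := hz3.time
    rw [r2 11 (by norm_num), h.k] at a2
    rw [h.i] at a1
    have a3 : s₂.time = s₁.time + 1 := rfl
    omega
  set s₄ := s₃.putNum 21 (s₃.num 21 + s₃.num 22) with hs₄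
  set s₅ := s₄.putNum 23 (s₄.num 14 + s₄.num 14) with hs₅
  set s₆ := s₅.putNum 23 (s₅.num 23 + s₅.num 14) with hs₆
  have r6 : ∀ r, r ≠ 21 → r ≠ 22 → r ≠ 23 → s₆.num r = s.num r := by
    intro r h1 h2 h3
    simp [hs₆, hs₅, hs₄, State.putNum, h1, h2, h3, r3 r h1 h2]
  have set6 : s₆.set = s.set := by simp [hs₆, hs₅, hs₄, State.putNum, set3]
  have v21' : s₆.num 21 = code P.n q.k q.i q.j := by
    simp only [hs₆, State.putNum, hs₅, hs₄, v21, v22, ne_eq, Nat.reduceEqDiff, not_false_eq_true, Function.update_of_ne, Function.update_self, Function.update_idem, code]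
    ring
  have v23 : s₆.num 23 = 3 * q.x := by
    simp [hs₆, hs₅, hs₄, State.putNum, r3 14 (by norm_num) (by norm_num), h.x]
    ring
  have t6 : s₆.time ≤ s.time + (2 * q.i + 2 * q.k + 8) := by
    simp only [hs₆, hs₅, hs₄, State.putNum]; omega
  refine (ex_condIns (o := P.o) (x := 23) (y := 15) (X := 1) (s := s₆)).seq ?_
  rintro s₇ ⟨a1, a2, a3, a4⟩
  refine ex_add (ex_add ?_)
  set s₈ := s₇.putNum 23 (s₇.num 15 + s₇.num 15) with hs₈
  set s₉ := s₈.putNum 23 (s₈.num 23 + s₈.num 15) with hs₉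
  have r9 : ∀ r < 20, s₉.num r = s.num r := by
    intro r hr
    have h1 : r ≠ 23 := by omega
    simp [hs₉, hs₈, State.putNum, h1, a1 r (by omega), r6 r (by omega) (by omega) (by omega)]
  have v21'' : s₉.num 21 = code P.n q.k q.i q.j := by
    simp [hs₉, hs₈, State.putNum, a1 21 (by norm_num), v21']
  have v23' : s₉.num 23 = 3 * q.y := by
    simp only [hs₉, State.putNum, hs₈, a1 15 (by norm_num), r6 15 (by norm_num) (by norm_num) (by norm_num), h.y, Function.update_self, ne_eq, Nat.reduceEqDiff, not_false_eq_true, Function.update_of_ne, Function.update_idem]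
    ring
  have set9 : s₉.set = s₇.set := by simp [hs₉, hs₈, State.putNum]
  have t9 : s₉.time ≤ s.time + (2 * q.i + 2 * q.k + 12) := by
    simp only [hs₉, hs₈, State.putNum]; omega
  refine (ex_condIns (o := P.o) (x := 23) (y := 14) (X := 2) (s := s₉)).mono ?_
  rintro s' ⟨b1, b2, b3, b4⟩
  have hx9 : s₉.num 14 = q.x := by rw [r9 14 (by norm_num), h.x]
  have hy6 : s₆.num 15 = q.y := by
    rw [r6 15 (by norm_num) (by norm_num) (by norm_num), h.y]
  have I' : s'.set 1 = (P.upd q.k q.i q.j (q.I, q.D) (q.x, q.y)).1 := by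
    rw [b3 1 (by norm_num), set9, a2, v23, hy6, v21', set6, h.I]
    rfl
  have D' : s'.set 2 = (P.upd q.k q.i q.j (q.I, q.D) (q.x, q.y)).2 := by
    rw [b2, v23', hx9, v21'', set9, a3 2 (by norm_num), set6, h.D]
    rfl
  have S' : s'.set 0 = s.set 0 := by
    rw [b3 0 (by norm_num), set9, a3 0 (by norm_num), set6]
  have hnum : ∀ r < 20, s'.num r = s.num r := fun r hr => by rw [b1 r (by omega), r9 r hr]
  refine ⟨?_, by omega⟩
  obtain ⟨⟨h0, h5, h9, h17, h18⟩, h6, h8, h16, h19, h3, h4, h10, h11, h12, h13, h14, h15, z0, z1,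
    z2⟩ := h
  exact ⟨⟨by rw [hnum 0 (by norm_num)]; exact h0, by rw [hnum 5 (by norm_num)]; exact h5,
    by rw [hnum 9 (by norm_num)]; exact h9, by rw [hnum 17 (by norm_num)]; exact h17,
    by rw [hnum 18 (by norm_num)]; exact h18⟩, by rw [hnum 6 (by norm_num)]; exact h6,
    by rw [hnum 8 (by norm_num)]; exact h8, by rw [hnum 16 (by norm_num)]; exact h16,
    by rw [hnum 19 (by norm_num)]; exact h19, by rw [hnum 3 (by norm_num)]; exact h3,
    by rw [hnum 4 (by norm_num)]; exact h4, by rw [hnum 10 (by norm_num)]; exact h10,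
    by rw [hnum 11 (by norm_num)]; exact h11, by rw [hnum 12 (by norm_num)]; exact h12,
    by rw [hnum 13 (by norm_num)]; exact h13, by rw [hnum 14 (by norm_num)]; exact h14,
    by rw [hnum 15 (by norm_num)]; exact h15, by rw [S']; exact z0, I', D'⟩

/-! ### the relation for the loops over the types -/

/-- contents during the loops over the types; `x`, `y`, `S`, `κ` are junk -/
def Rv (P : Par) (K : ℕ) (u v k i j : ℕ) (s : State) (H : Finset ℕ × Finset ℕ) : Prop :=
  ∃ (x y κ : ℕ) (S : Finset ℕ), Rl P K s ⟨u, v, κ, k, i, j, x, y, S, H.1, H.2⟩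

variable {u v k i j : ℕ} {s : State} {H : Finset ℕ × Finset ℕ}

theorem Rv.tick (h : Rv P K u v k i j s H) : Rv P K u v k i j s.tick H := by
  obtain ⟨x, y, κ, S, h⟩ := h
  exact ⟨x, y, κ, S, h.tick⟩

theorem Rv.scr (h : Rv P K u v k i j s H) {r w : ℕ} (hr : 20 ≤ r) :
    Rv P K u v k i j (s.putNum r w) H := by
  obtain ⟨x, y, κ, S, h⟩ := h
  exact ⟨x, y, κ, S, h.scr hr⟩

theorem Rl.setJ {q : Q} (h : Rl P K s q) (w : ℕ) : Rl P K (s.putNum 13 w) { q with j := w } := by
  obtain ⟨⟨h0, h5, h9, h17, h18⟩, h6, h8, h16, h19, h3, h4, h10, h11, h12, h13, h14, h15, z0, z1,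
    z2⟩ := h
  constructor <;> first | (constructor <;> simp [State.putNum, *]) | simp [State.putNum, *]

theorem Rl.setI' {q : Q} (h : Rl P K s q) (w : ℕ) : Rl P K (s.putNum 12 w) { q with i := w } := by
  obtain ⟨⟨h0, h5, h9, h17, h18⟩, h6, h8, h16, h19, h3, h4, h10, h11, h12, h13, h14, h15, z0, z1,
    z2⟩ := h
  constructor <;> first | (constructor <;> simp [State.putNum, *]) | simp [State.putNum, *]

theorem Rl.setK {q : Q} (h : Rl P K s q) (w : ℕ) : Rl P K (s.putNum 11 w) { q with k := w } := by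
  obtain ⟨⟨h0, h5, h9, h17, h18⟩, h6, h8, h16, h19, h3, h4, h10, h11, h12, h13, h14, h15, z0, z1,
    z2⟩ := h
  constructor <;> first | (constructor <;> simp [State.putNum, *]) | simp [State.putNum, *]

theorem Rl.setU {q : Q} (h : Rl P K s q) (w : ℕ) : Rl P K (s.putNum 3 w) { q with u := w } := by
  obtain ⟨⟨h0, h5, h9, h17, h18⟩, h6, h8, h16, h19, h3, h4, h10, h11, h12, h13, h14, h15, z0, z1,
    z2⟩ := h
  constructor <;> first | (constructor <;> simp [State.putNum, *]) | simp [State.putNum, *]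

theorem Rl.setV {q : Q} (h : Rl P K s q) (w : ℕ) : Rl P K (s.putNum 4 w) { q with v := w } := by
  obtain ⟨⟨h0, h5, h9, h17, h18⟩, h6, h8, h16, h19, h3, h4, h10, h11, h12, h13, h14, h15, z0, z1,
    z2⟩ := h
  constructor <;> first | (constructor <;> simp [State.putNum, *]) | simp [State.putNum, *]

/-- the two facts on the experiments (proved in `ThreadSim`) -/
structure Hyp (P : Par) (K : ℕ) : Prop where
  pair : ∀ (s : State) (q : Q), Rt P K s q → q.k < K →
    Sim (fun s' c => Rt P K s' { q with x := c.1, y := c.2 } ∧ s'.time ≤ s.time + τX P K ∧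
      c.1 ≤ P.L ∧ c.2 ≤ P.L) (run P.o (exptCode evPair) s)
      (Par.expt (P.thread q.I q.D q.k) (P.typ q.i q.j) P.col P.L (0, 0))
  drop : ∀ (s : State) (q : Q), Rt P K s q → q.k < K →
    Sim (fun s' c => Rt P K s' { q with x := c.1, y := c.2 } ∧ s'.time ≤ s.time + τX P K ∧
      c.1 ≤ P.L ∧ c.2 ≤ P.L) (run P.o (exptCode evDrop) s)
      (Par.expt (P.thread q.I q.D q.k) (P.drop q.k) P.col P.L (0, 0))

theorem sim_pairE (hyp : Hyp P K) (hk : k < K) (h : Rv P K u v k i j s H) :
    Sim (fun s' H' => Rv P K u v k i j s' H' ∧ s'.time ≤ s.time + (τX P K + (2 * i + 2 * k + 14)))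
      (run P.o pairE s)
      ((Par.expt (P.thread H.1 H.2 k) (P.typ i j) P.col P.L (0, 0)).bind fun c =>
        .leaf (P.upd k i j H c)) := by
  obtain ⟨x, y, κ, S, h⟩ := h
  have := hyp.pair s ⟨u, v, κ, k, i, j, x, y, S, H.1, H.2⟩ ⟨S, κ, h⟩ hk
  unfold pairE
  simp only [run]
  refine this.bind ?_
  rintro s₁ c ⟨⟨S₁, κ₁, hR⟩, ht, -, -⟩
  have hu := run_upd hR
  refine hu.leaf ?_
  rintro s₂ ⟨hR2, ht2⟩
  refine ⟨⟨c.1, c.2, κ₁, S₁, hR2⟩, ?_⟩
  simp only at ht2
  (clear * - ht ht2; omega)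

theorem sim_pair (hyp : Hyp P K) (hk : k < K) (hi : i < P.n) (h : Rv P K u v k i j s H) :
    Sim (fun s' H' => Rv P K u v k i j s' H' ∧ s'.time ≤ s.time + τP P K)
      (run P.o pairCode s) (P.pair k i j H) := by
  have e12 : s.num 12 = i := by obtain ⟨x, y, κ, S, h⟩ := h; exact h.i
  have e13 : s.num 13 = j := by obtain ⟨x, y, κ, S, h⟩ := h; exact h.j
  unfold pairCode Par.pair
  rcases lt_trichotomy i j with hij | hij | hij
  · rw [if_neg (by omega)]
    have e : run P.o (.cond 12 13 pairE (.cond 13 12 pairE skp)) s = run P.o pairE s.tick := by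
      simp only [run, e12, e13, if_pos hij]
    rw [e]
    refine (sim_pairE hyp hk h.tick).mono ?_
    rintro s' H' ⟨h1, h2⟩
    refine ⟨h1, ?_⟩
    simp only [State.tick] at h2
    unfold τP
    omega
  · rw [if_pos hij]
    have e : run P.o (.cond 12 13 pairE (.cond 13 12 pairE skp)) s =
        .leaf (s.tick.tick.putNum 25 0) := by
      have h1 : ¬ i < j := by omega
      have h2 : ¬ j < i := by omega
      simp only [run, e12, e13, if_neg h1, State.tick, if_neg h2, skp]
    rw [e]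
    refine ⟨h.tick.tick.scr (by norm_num), ?_⟩
    simp only [State.tick, State.putNum]
    unfold τP
    omega
  · rw [if_neg (by omega)]
    have e : run P.o (.cond 12 13 pairE (.cond 13 12 pairE skp)) s =
        run P.o pairE s.tick.tick := by
      have h1 : ¬ i < j := by omega
      simp only [run, e12, e13, if_neg h1, State.tick, if_pos hij]
    rw [e]
    refine (sim_pairE hyp hk h.tick.tick).mono ?_
    rintro s' H' ⟨h1, h2⟩
    refine ⟨h1, ?_⟩
    simp only [State.tick] at h2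
    unfold τP
    omega

theorem sim_rowLoop (hyp : Hyp P K) (hk : k < K) (hi : i < P.n) (T : ℕ) (m : ℕ) :
    ∀ (j : ℕ) (s : State) (H : Finset ℕ × Finset ℕ), Rv P K u v k i j s H → s.time ≤ T →
    Sim (fun s' H' => Rv P K u v k i (j + m) s' H' ∧ s'.time ≤ T + m * (τP P K + 2))
      (iter (run P.o (.seq pairCode (.add 13 13 5))) m s) (P.row k i m j H) := by
  induction m generalizing T with
  | zero =>
    intro j s H h ht
    exact ⟨h, by omega⟩
  | succ m ih =>
    intro j s H h ht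
    rw [iter_succ, Par.row]
    simp only [run]
    rw [Rnd.bind_assoc]
    refine (sim_pair hyp hk hi h.tick).bind ?_
    rintro s₁ H₁ ⟨h1, ht1⟩
    simp only [bind_leaf]
    have e13 : s₁.num 13 = j := by obtain ⟨x, y, κ, S, h⟩ := h1; exact h.j
    have e5 : s₁.num 5 = 1 := by obtain ⟨x, y, κ, S, h⟩ := h1; exact h.cf.one
    rw [e13, e5]
    have h2 : Rv P K u v k i (j + 1) (s₁.putNum 13 (j + 1)) H₁ := by
      obtain ⟨x, y, κ, S, h⟩ := h1
      exact ⟨x, y, κ, S, h.setJ (j + 1)⟩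
    have := ih (T + (τP P K + 2)) (j + 1) _ H₁ h2 (by
      simp only [State.tick, State.putNum] at ht1 ⊢
      omega)
    refine this.mono ?_
    rintro s' H' ⟨g1, g2⟩
    have e : j + 1 + m = j + (m + 1) := by ring
    rw [e] at g1
    refine ⟨g1, g2.trans (le_of_eq ?_)⟩
    ring

theorem sim_row (hyp : Hyp P K) (hk : k < K) (hi : i < P.n) (h : Rv P K u v k i j s H) :
    Sim (fun s' H' => Rv P K u v k i P.n s' H' ∧ s'.time ≤ s.time + (P.n * (τP P K + 2) + 2))
      (run P.o rowCode s) (P.row k i P.n 0 H) := by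
  have e0 : (s.putNum 13 0).num 0 = P.n := by
    obtain ⟨x, y, κ, S, h⟩ := h
    simp [State.putNum, h.cf.n]
  have e : run P.o rowCode s =
      iter (run P.o (.seq pairCode (.add 13 13 5))) P.n (s.putNum 13 0).tick := by
    rw [← e0]; rfl
  rw [e]
  have h2 : Rv P K u v k i 0 (s.putNum 13 0).tick H := by
    obtain ⟨x, y, κ, S, h⟩ := h
    exact ⟨x, y, κ, S, (h.setJ 0).tick⟩
  refine (sim_rowLoop hyp hk hi (s.time + 2) P.n 0 _ H h2 (by
    simp only [State.tick, State.putNum]; omega)).mono ?_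
  rintro s' H' ⟨g1, g2⟩
  rw [Nat.zero_add] at g1
  exact ⟨g1, by omega⟩

theorem sim_rowsLoop (hyp : Hyp P K) (hk : k < K) (T : ℕ) (m : ℕ) :
    ∀ (i j : ℕ) (s : State) (H : Finset ℕ × Finset ℕ), i + m = P.n → Rv P K u v k i j s H →
    s.time ≤ T →
    Sim (fun s' H' => (∃ j, Rv P K u v k P.n j s' H') ∧
        s'.time ≤ T + m * (P.n * (τP P K + 2) + 4))
      (iter (run P.o (.seq rowCode (.add 12 12 5))) m s) (P.rows k m i H) := by
  induction m generalizing T with
  | zero =>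
    intro i j s H hi h ht
    have : i = P.n := by omega
    exact ⟨⟨j, this ▸ h⟩, by (clear * - ht; omega)⟩
  | succ m ih =>
    intro i j s H hi h ht
    rw [iter_succ, Par.rows]
    simp only [run]
    rw [Rnd.bind_assoc]
    refine (sim_row hyp hk (by omega) h.tick).bind ?_
    rintro s₁ H₁ ⟨h1, ht1⟩
    simp only [bind_leaf]
    have e12 : s₁.num 12 = i := by obtain ⟨x, y, κ, S, h⟩ := h1; exact h.i
    have e5 : s₁.num 5 = 1 := by obtain ⟨x, y, κ, S, h⟩ := h1; exact h.cf.one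
    rw [e12, e5]
    have h2 : Rv P K u v k (i + 1) P.n (s₁.putNum 12 (i + 1)) H₁ := by
      obtain ⟨x, y, κ, S, h⟩ := h1
      exact ⟨x, y, κ, S, h.setI' (i + 1)⟩
    have := ih (T + (P.n * (τP P K + 2) + 4)) (i + 1) P.n _ H₁ (by omega) h2 (by
      simp only [State.tick, State.putNum] at ht1 ⊢
      omega)
    refine this.mono ?_
    rintro s' H' ⟨g1, g2⟩
    refine ⟨g1, g2.trans (le_of_eq ?_)⟩
    ring

theorem sim_rows (hyp : Hyp P K) (hk : k < K) (h : Rv P K u v k i j s H) :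
    Sim (fun s' H' => (∃ i j, Rv P K u v k i j s' H') ∧
        s'.time ≤ s.time + (P.n * (P.n * (τP P K + 2) + 4) + 2))
      (run P.o rowsCode s) (P.rows k P.n 0 H) := by
  have e0 : (s.putNum 12 0).num 0 = P.n := by
    obtain ⟨x, y, κ, S, h⟩ := h
    simp [State.putNum, h.cf.n]
  have e : run P.o rowsCode s =
      iter (run P.o (.seq rowCode (.add 12 12 5))) P.n (s.putNum 12 0).tick := by
    rw [← e0]; rfl
  rw [e]
  have h2 : Rv P K u v k 0 j (s.putNum 12 0).tick H := by
    obtain ⟨x, y, κ, S, h⟩ := h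
    exact ⟨x, y, κ, S, (h.setI' 0).tick⟩
  refine (sim_rowsLoop hyp hk (s.time + 2) P.n 0 j _ H (by omega) h2 (by
    simp only [State.tick, State.putNum]; omega)).mono ?_
  rintro s' H' ⟨⟨j', g1⟩, g2⟩
  exact ⟨⟨P.n, j', g1⟩, by omega⟩

/-! ### the fraction -/

theorem run_frac {q : Q} (h : Rl P K s q) :
    Ex (run P.o fracCode s) (fun s' => Rl P K s' { q with
      u := q.u * (2 * q.y - q.x)
      v := q.v * (2 * q.y) } ∧
      s'.time ≤ s.time + (8 * q.y + 8)) := by
  unfold fracCode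
  refine ex_add (ex_sub ?_)
  set s₁ := s.putNum 21 (s.num 15 + s.num 15) with hs₁
  set s₂ := s₁.putNum 22 (s₁.num 21 - s₁.num 14) with hs₂
  have h2 : Rl P K s₂ q := (h.scr (by norm_num)).scr (by norm_num)
  have v21 : s₂.num 21 = 2 * q.y := by
    simp only [hs₂, State.putNum, hs₁, h.y, Function.update_self, ne_eq, Nat.reduceEqDiff, not_false_eq_true, Function.update_of_ne]; ring
  have v22 : s₂.num 22 = 2 * q.y - q.x := by
    simp only [hs₂, State.putNum, hs₁, h.y, Function.update_self, ne_eq, Nat.reduceEqDiff, not_false_eq_true, Function.update_of_ne, h.x]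
    congr 1; ring
  refine (run_prod (z := 23) (x := 22) (y := 3) (by norm_num) (by norm_num) s₂).seq ?_
  rintro s₃ ⟨hz, h23⟩
  have h3 : Rl P K s₃ q := h2.fr (hz.fr (hi := 24) (by norm_num) (by norm_num))
  refine ex_add ?_
  set s₄ := s₃.putNum 3 (s₃.num 23 + s₃.num 18) with hs₄
  have e3 : s₃.num 23 + s₃.num 18 = q.u * (2 * q.y - q.x) := by
    rw [h23, v22, h2.u, h3.cf.zero]; ring
  have h4 : Rl P K s₄ { q with u := q.u * (2 * q.y - q.x) } := by
    rw [hs₄, e3]
    exact h3.setU _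
  have v21' : s₄.num 21 = 2 * q.y := by
    simp [hs₄, State.putNum, hz.num 21 (by norm_num), v21]
  refine (run_prod (z := 23) (x := 21) (y := 4) (by norm_num) (by norm_num) s₄).seq ?_
  rintro s₅ ⟨hz5, h23'⟩
  have h5 : Rl P K s₅ { q with u := q.u * (2 * q.y - q.x) } :=
    h4.fr (hz5.fr (hi := 24) (by norm_num) (by norm_num))
  have e5 : s₅.num 23 + s₅.num 18 = q.v * (2 * q.y) := by
    rw [h23', v21', h4.v, h5.cf.zero]; ring
  refine ⟨_, rfl, ?_, ?_⟩
  · rw [e5]
    exact h5.setV _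
  · have t1 := hz.time
    have t2 := hz5.time
    rw [v22] at t1
    rw [v21'] at t2
    simp only [hs₂, hs₁, hs₄, State.putNum] at t1 t2 ⊢
    (clear * - v21 t1 t2; omega)

/-! ### one stage -/

/-- contents between the stages -/
def Rw (P : Par) (K : ℕ) (k : ℕ) (s : State) (r : (Finset ℕ × Finset ℕ) × (ℕ × ℕ)) : Prop :=
  ∃ i j, Rv P K r.2.1 r.2.2 k i j s r.1

theorem Rw.tick {k : ℕ} {s : State} {r : (Finset ℕ × Finset ℕ) × (ℕ × ℕ)} (h : Rw P K k s r) :
    Rw P K k s.tick r := by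
  obtain ⟨i, j, h⟩ := h
  exact ⟨i, j, h.tick⟩

theorem sim_stage (hyp : Hyp P K) (hk : k < K) {r : (Finset ℕ × Finset ℕ) × (ℕ × ℕ)}
    (h : Rw P K k s r) :
    Sim (fun s' r' => Rw P K k s' r' ∧ s'.time ≤ s.time + τG P K)
      (run P.o stageCode s) (P.stage k r.1 r.2) := by
  obtain ⟨i, j, h⟩ := h
  unfold stageCode Par.stage
  simp only [run]
  refine (sim_rows hyp hk h).bind ?_
  rintro s₁ H₁ ⟨⟨i₁, j₁, x₁, y₁, κ₁, S₁, h1⟩, t1⟩
  refine (hyp.drop s₁ ⟨r.2.1, r.2.2, κ₁, k, i₁, j₁, x₁, y₁, S₁, H₁.1, H₁.2⟩ ⟨S₁, κ₁, h1⟩ hk).bind ?_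
  rintro s₂ c ⟨⟨S₂, κ₂, h2⟩, t2, c1, c2⟩
  refine (run_frac h2).leaf ?_
  rintro s₃ ⟨h3, t3⟩
  refine ⟨⟨i₁, j₁, c.1, c.2, κ₂, S₂, h3⟩, ?_⟩
  simp only at t3
  have e : P.n * (P.n * (τP P K + 2) + 4) + 2 ≤ (P.n + 2) * ((P.n + 2) * (τP P K + 5)) := by
    nlinarith only []
  unfold τG
  omega

theorem sim_mainLoop (hyp : Hyp P K) (T : ℕ) (m : ℕ) :
    ∀ (k : ℕ) (s : State) (r : (Finset ℕ × Finset ℕ) × (ℕ × ℕ)), k + m = K → Rw P K k s r →
    s.time ≤ T →
    Sim (fun s' r' => Rw P K K s' r' ∧ s'.time ≤ T + m * (τG P K + 2))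
      (iter (run P.o (.seq stageCode (.add 11 11 5))) m s) (P.main m k r.1 r.2) := by
  induction m generalizing T with
  | zero =>
    intro k s r hk h ht
    have : k = K := by omega
    subst this
    exact ⟨h, by omega⟩
  | succ m ih =>
    intro k s r hk h ht
    rw [iter_succ, Par.main]
    simp only [run]
    rw [Rnd.bind_assoc]
    refine (sim_stage hyp (by omega) h.tick).bind ?_
    rintro s₁ r₁ ⟨h1, ht1⟩
    simp only [bind_leaf]
    have e11 : s₁.num 11 = k := by obtain ⟨i, j, x, y, κ, S, h⟩ := h1; exact h.k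
    have e5 : s₁.num 5 = 1 := by obtain ⟨i, j, x, y, κ, S, h⟩ := h1; exact h.cf.one
    rw [e11, e5]
    have h2 : Rw P K (k + 1) (s₁.putNum 11 (k + 1)) r₁ := by
      obtain ⟨i, j, x, y, κ, S, h⟩ := h1
      exact ⟨i, j, x, y, κ, S, h.setK (k + 1)⟩
    have := ih (T + (τG P K + 2)) (k + 1) _ r₁ (by omega) h2 (by
      simp only [State.tick, State.putNum] at ht1 ⊢
      omega)
    refine this.mono ?_
    rintro s' H' ⟨g1, g2⟩
    refine ⟨g1, g2.trans (le_of_eq ?_)⟩
    ring

/-- the compiled main program computes the output fraction -/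
theorem sim_output' (hyp : Hyp P K) {q : Q} (h : Rt P K s q) (hu : q.u = 2 ^ P.n) (hv : q.v = 1)
    (hI : q.I = ∅) (hD : q.D = ∅) :
    Sim (fun s' f => s'.num 3 = f.1 ∧ s'.num 4 = f.2 ∧ s'.time ≤ s.time + τM P K)
      (run P.o (.seq mainCode outCode) s) (P.output K) := by
  obtain ⟨S, κ, h⟩ := h
  have h0 : Rw P K 0 (s.putNum 11 0).tick ((∅, ∅), (2 ^ P.n, 1)) := by
    refine ⟨q.i, q.j, q.x, q.y, κ, S, ?_⟩
    have := (h.setK 0).tick
    simp only [hu, hv, hI, hD] at this
    exact this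
  have e16 : (s.putNum 11 0).num 16 = K := by simp [State.putNum, h.K]
  have e : run P.o (.seq mainCode outCode) s =
      (iter (run P.o (.seq stageCode (.add 11 11 5))) K (s.putNum 11 0).tick).bind
        (run P.o outCode) := by
    have : run P.o mainCode s = iter (run P.o (.seq stageCode (.add 11 11 5)))
        ((s.putNum 11 0).num 16) (s.putNum 11 0).tick := rfl
    rw [e16] at this
    rw [← this]
    rfl
  rw [e]
  unfold Par.output
  refine (sim_mainLoop hyp (s.time + 2) K 0 _ _ (by omega) h0 (by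
    simp only [State.tick, State.putNum]; omega)).bind ?_
  rintro s₁ r₁ ⟨⟨i, j, x, y, κ', S', h1⟩, t1⟩
  have e3 : s₁.num 3 = r₁.2.1 := h1.u
  have e4 : s₁.num 4 = r₁.2.2 := h1.v
  have tb : ∀ d, d ≤ 3 → s₁.time + d ≤ s.time + τM P K := by
    intro d hd
    unfold τM
    linarith
  by_cases hc : 2 * r₁.2.1 < r₁.2.2
  · have hc' : r₁.2.1 + r₁.2.1 < r₁.2.2 := by omega
    rw [if_pos hc]
    simp only [outCode, run, State.putNum, e3, State.tick, bind_leaf, Function.update_self, ne_eq, Nat.reduceEqDiff, not_false_eq_true, Function.update_of_ne, e4, hc', ↓reduceIte, Sim, Nat.succ_ne_self, Order.add_one_le_iff, true_and, gt_iff_lt]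
    have := tb 3 le_rfl
    omega
  · have hc' : ¬ r₁.2.1 + r₁.2.1 < r₁.2.2 := by omega
    rw [if_neg hc]
    simp only [outCode, skp, run, State.putNum, e3, State.tick, bind_leaf, Function.update_self, ne_eq, Nat.reduceEqDiff, not_false_eq_true, Function.update_of_ne, e4, hc', ↓reduceIte, Prod.mk.eta, Sim, Order.add_one_le_iff, true_and, gt_iff_lt]
    have := tb 3 le_rfl
    omega

theorem Hyp.of (hn : 0 < P.n ∨ K = 0) (hr : P.r ≤ P.n)
    (h1 : ∀ (s : State) (q : Q), Rt P K s q → 0 < P.n → P.r ≤ P.n → q.k < K →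
      Sim (fun s' c => Rt P K s' { q with x := c.1, y := c.2 } ∧ s'.time ≤ s.time + τX P K ∧
        c.1 ≤ P.L ∧ c.2 ≤ P.L) (run P.o (exptCode evPair) s)
        (Par.expt (P.thread q.I q.D q.k) (P.typ q.i q.j) P.col P.L (0, 0)))
    (h2 : ∀ (s : State) (q : Q), Rt P K s q → 0 < P.n → P.r ≤ P.n → q.k < K →
      Sim (fun s' c => Rt P K s' { q with x := c.1, y := c.2 } ∧ s'.time ≤ s.time + τX P K ∧
        c.1 ≤ P.L ∧ c.2 ≤ P.L) (run P.o (exptCode evDrop) s)
        (Par.expt (P.thread q.I q.D q.k) (P.drop q.k) P.col P.L (0, 0))) : Hyp P K := by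
  rcases hn with hn | rfl
  · exact ⟨fun s q h hk => h1 s q h hn hr hk, fun s q h hk => h2 s q h hn hr hk⟩
  · exact ⟨fun s q _ hk => absurd hk (Nat.not_lt_zero _), fun s q _ hk =>
      absurd hk (Nat.not_lt_zero _)⟩

end Vale.Agent.P317.Alg
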