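import Vale.Agent.P317.MathlibUsed
import Vale.Agent.P317.Prog
import Vale.Agent.P317.Bdl.B1
import Vale.Agent.P317.Bdl.B2
import Vale.Agent.P317.Bdl.K_TopSim
import Vale.Agent.P317.Bdl.B3
import Vale.Agent.P317.Bdl.B6
import Vale.Agent.P317.Bdl.B7
import Vale.Agent.P317.T.Mach
import Vale.Agent.Lib.PolyTime.NatArith2

section

/-!
Translation from the first form of the language.
-/

namespace Vale.Agent.P317.Small

/-- states -/
def cvS (s : P317.State) : State := ⟨s.num, s.set, s.time⟩

/-- trees -/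
def cvR {α β : Type} (f : α → β) : P317.Rnd α → Rnd β
  | .leaf a => .leaf (f a)
  | .flip t u => .flip (cvR f t) (cvR f u)

/-- programs -/
def cvC : P317.Cmd → Prog
  | .const x c => .op (.const x c)
  | .add x y z => .op (.add x y z)
  | .sub x y z => .op (.sub x y z)
  | .coin x => .op (.coin x)
  | .clear S => .op (.clear S)
  | .copy S T => .op (.copy S T)
  | .insert S x => .op (.insert S x)
  | .erase S x => .op (.erase S x)
  | .mem x y S => .op (.mem x y S)
  | .ask i x S => .op (.ask i x S)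
  | .seq c d => .seq (cvC c) (cvC d)
  | .cond x y c d => .cond x y (cvC c) (cvC d)
  | .loop x c => .loop x (cvC c)

theorem cvR_bind {α β γ δ : Type} (f : α → β) (f' : γ → δ) (t : P317.Rnd α)
    (g : α → P317.Rnd γ) (g' : β → Rnd δ) (h : ∀ a, cvR f' (g a) = g' (f a)) :
    cvR f' (t.bind g) = (cvR f t).bind g' := by
  induction t with
  | leaf a => exact h a
  | flip t u iht ihu =>
    show Rnd.flip (cvR f' (t.bind g)) (cvR f' (u.bind g)) = _
    rw [iht, ihu]
    rfl

theorem cv_iter {g : P317.State → P317.Rnd P317.State} {g' : State → Rnd State}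
    (h : ∀ s, cvR cvS (g s) = g' (cvS s)) (m : ℕ) : ∀ s,
    cvR cvS (P317.iter g m s) = iter g' m (cvS s) := by
  induction m with
  | zero => intro s; rfl
  | succ m ih =>
    intro s
    show cvR cvS ((g s.tick).bind (P317.iter g m)) = (g' (cvS s).tick).bind (iter g' m)
    rw [cvR_bind cvS cvS (g s.tick) (P317.iter g m) (iter g' m) ih, h]
    rfl

theorem cv_run (o : Bool → Finset ℕ → Bool) (c : P317.Cmd) : ∀ s,
    cvR cvS (P317.run o c s) = run o (cvC c) (cvS s) := by
  induction c with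
  | const x c => intro s; rfl
  | add x y z => intro s; rfl
  | sub x y z => intro s; rfl
  | coin x => intro s; rfl
  | clear S => intro s; rfl
  | copy S S' => intro s; rfl
  | insert S x => intro s; rfl
  | erase S x => intro s; rfl
  | mem x y S => intro s; rfl
  | ask i x S => intro s; rfl
  | seq c d ihc ihd =>
    intro s
    show cvR cvS ((P317.run o c s).bind (P317.run o d)) = _
    rw [cvR_bind cvS cvS _ (P317.run o d) (run o (cvC d)) ihd, ihc]
    rfl
  | cond x y c d ihc ihd =>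
    intro s
    show cvR cvS (if s.num x < s.num y then P317.run o c s.tick else P317.run o d s.tick) =
      if s.num x < s.num y then run o (cvC c) (cvS s).tick else run o (cvC d) (cvS s).tick
    by_cases h : s.num x < s.num y
    · rw [if_pos h, if_pos h]; exact ihc _
    · rw [if_neg h, if_neg h]; exact ihd _
  | loop x c ih =>
    intro s
    exact cv_iter ih (s.num x) s.tick

theorem prob_cv {α β : Type} {f : α → β} {p : α → Prop} {q : β → Prop}
    (h : ∀ a, p a → q (f a)) (t : P317.Rnd α) : t.prob p ≤ (cvR f t).prob q := by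
  induction t with
  | leaf a =>
    unfold P317.Rnd.prob cvR Rnd.prob
    by_cases hp : p a
    · rw [if_pos hp, if_pos (h a hp)]
    · rw [if_neg hp]
      split_ifs
      · exact zero_le_one
      · exact le_rfl
  | flip t u iht ihu =>
    unfold P317.Rnd.prob cvR Rnd.prob
    linarith

theorem prob_cv_one {α β : Type} {f : α → β} {p : α → Prop} {q : β → Prop}
    (h : ∀ a, p a → q (f a)) {t : P317.Rnd α} (ht : t.All p) : (cvR f t).prob q = 1 := by
  induction t with
  | leaf a =>
    unfold cvR Rnd.prob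
    exact if_pos (h a ht)
  | flip t u iht ihu =>
    unfold cvR Rnd.prob
    rw [iht ht.1, ihu ht.2]
    norm_num

end Vale.Agent.P317.Small
end

section

/-!
# The program and its properties
-/

namespace Vale.Agent.P317.Alg

open Rnd Finset

/-- the program -/
def prog : Cmd := .seq preCode (.seq mainCode outCode)

theorem prob_eq_of_sim {α β : Type} {R : α → β → Prop} {t : Rnd α} {u : Rnd β} (h : Sim R t u)
    {p : α → Prop} {q : β → Prop} (hpq : ∀ a b, R a b → (p a ↔ q b)) : prob p t = prob q u := by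
  induction t generalizing u with
  | leaf a => cases u with
    | leaf b =>
      unfold prob
      by_cases hp : p a
      · rw [if_pos hp, if_pos ((hpq a b h).1 hp)]
      · rw [if_neg hp, if_neg (fun hq => hp ((hpq a b h).2 hq))]
    | flip _ _ => exact h.elim
  | flip t u iht ihu => cases u with
    | leaf b => exact h.elim
    | flip t' u' =>
      unfold prob
      rw [iht h.1, ihu h.2]

theorem all_of_sim {α β : Type} {R : α → β → Prop} {t : Rnd α} {u : Rnd β} (h : Sim R t u)
    {p : α → Prop} (hp : ∀ a b, R a b → p a) : All p t := by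
  induction t generalizing u with
  | leaf a => cases u with
    | leaf b => exact hp a b h
    | flip _ _ => exact h.elim
  | flip t u iht ihu => cases u with
    | leaf b => exact h.elim
    | flip t' u' => exact ⟨iht h.1, ihu h.2⟩

theorem rkM_univ_eq {n : ℕ} {M₁ M₂ : Matroid (Fin n)} (hr : M₁.eRank = M₂.eRank) :
    rkM M₁ univ = rkM M₂ univ := by
  have h1 : (rkM M₁ univ : ℕ∞) = rkM M₂ univ := by
    rw [coe_rkM, coe_rkM, Finset.coe_univ, M₁.eRk_univ_eq, M₂.eRk_univ_eq, hr]
  exact_mod_cast h1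

theorem card_comBases_eq {n : ℕ} (M₁ M₂ : Matroid (Fin n)) :
    Nat.card {B : Set (Fin n) // M₁.IsBase B ∧ M₂.IsBase B} = (comBases M₁ M₂).card := by
  classical
  have e : Nat.card {B : Finset (Fin n) // M₁.IsBase (B : Set (Fin n)) ∧
      M₂.IsBase (B : Set (Fin n))} = (comBases M₁ M₂).card :=
    Nat.subtype_card _ fun B => by unfold comBases; simp
  rw [← e]
  refine Nat.card_congr ⟨fun B => ⟨B.1.toFinset, by simpa using B.2⟩,
    fun B => ⟨(B.1 : Set (Fin n)), B.2⟩, fun B => ?_, fun B => ?_⟩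
  · exact Subtype.ext (by simp)
  · exact Subtype.ext (by simp)

theorem time_arith {n e l : ℕ} (he : 0 < e) {t : ℕ}
    (ht : t ≤ 68 * (n + e + l + 16) + 23 * n + 169 + 20000 * (n + e + l + 16) ^ 77) :
    t ≤ (n + e + l + 2) ^ 241 := by
  set x := n + e + l + 2 with hx
  have hx3 : 3 ≤ x := by omega
  have hu : n + e + l + 16 = x + 14 := by omega
  rw [hu] at ht
  have h1 : x + 14 ≤ x ^ 3 := by nlinarith [Nat.pow_le_pow_left hx3 2, sq_nonneg x]
  have h2 : (x + 14) ^ 77 ≤ x ^ 231 := by
    calc (x + 14) ^ 77 ≤ (x ^ 3) ^ 77 := Nat.pow_le_pow_left h1 77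
      _ = x ^ 231 := by rw [← pow_mul]
  have h3 : x + 14 ≤ (x + 14) ^ 77 := by
    calc x + 14 = (x + 14) ^ 1 := (pow_one _).symm
      _ ≤ (x + 14) ^ 77 := Nat.pow_le_pow_right (by omega) (by norm_num)
  have h4 : n ≤ (x + 14) ^ 77 := by omega
  have h5 : t ≤ 20260 * (x + 14) ^ 77 := by omega
  have h6 : 20260 ≤ x ^ 10 :=
    calc 20260 ≤ 3 ^ 10 := by norm_num
      _ ≤ x ^ 10 := Nat.pow_le_pow_left hx3 10
  calc t ≤ 20260 * (x + 14) ^ 77 := h5
    _ ≤ x ^ 10 * x ^ 231 := Nat.mul_le_mul h6 h2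
    _ = x ^ 241 := by rw [← pow_add]

/-- The program is an approximation scheme with polynomially many steps. -/
theorem prog_spec (n : ℕ) (M₁ M₂ : Matroid (Fin n)) (hr : M₁.eRank = M₂.eRank) (e l : ℕ)
    (he : 0 < e) :
    (run (oracles M₁ M₂) prog (input n e l)).All (fun s => s.time ≤ (n + e + l + 2) ^ 241) ∧
    1 - (1 / 2) ^ l ≤ (run (oracles M₁ M₂) prog (input n e l)).prob (fun s => 0 < s.num 4 ∧
      |(s.num 3 : ℝ) / s.num 4 - (Nat.card {B : Set (Fin n) // M₁.IsBase B ∧ M₂.IsBase B} : ℕ)| ≤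
        (Nat.card {B : Set (Fin n) // M₁.IsBase B ∧ M₂.IsBase B} : ℕ) / e) := by
  obtain ⟨s', hs', a, ha, h2n, h4n, hRl, htime⟩ := ex_pre (o := oracles M₁ M₂) n e l
  rw [greedy_rank_univ, rkM_univ_eq hr] at hRl
  set u := n + e + l + 16 with hu
  have hrun : run (oracles M₁ M₂) prog (input n e l) =
      run (oracles M₁ M₂) (.seq mainCode outCode) s' := by
    have : run (oracles M₁ M₂) prog (input n e l) =
      (run (oracles M₁ M₂) preCode (input n e l)).bind
        (run (oracles M₁ M₂) (.seq mainCode outCode)) := rfl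
    rw [this, hs']
    rfl
  have hhyp : Hyp (PP M₁ M₂ (rkM M₂ univ) a (u ^ 34)) (n * u) := by
    refine Hyp.of ?_ (rkM_univ_le M₂) ?_ ?_
    · rcases Nat.eq_zero_or_pos n with hn | hn
      · right; rw [hn, zero_mul]
      · left; exact hn
    · intro s q h1 h2 h3 h4
      exact sim_exptPair h1 h2 h3 h4
    · intro s q h1 h2 h3 h4
      exact sim_exptDrop h1 h2 h3 h4
  have hsim := sim_output' hhyp (s := s') (q := q0 n) ⟨_, _, hRl⟩ rfl rfl rfl rfl
  rw [hrun, card_comBases_eq]
  constructor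
  · refine all_of_sim hsim ?_
    rintro s f ⟨-, -, ht⟩
    have h1 := tM_le (P := PP M₁ M₂ (rkM M₂ univ) a (u ^ 34)) (u := u) (by omega)
      (by show n ≤ u; omega) rfl (by show a ≤ 4 * u; omega)
    exact time_arith he (by
      have h2 : s.time ≤ s'.time + τM (PP M₁ M₂ (rkM M₂ univ) a (u ^ 34)) (n * u) := ht
      have h3 : τM (PP M₁ M₂ (rkM M₂ univ) a (u ^ 34)) (n * u) ≤
        20000 * (n + e + l + 16) ^ 77 := h1
      omega)
  · have hacc := accuracy (M₁ := M₁) (M₂ := M₂) (r := rkM M₂ univ) (a := a) rfl hr (e := e)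
      (l := l) (u := u) he rfl h2n h4n
    refine hacc.trans (le_of_eq ?_)
    refine (prob_eq_of_sim hsim ?_).symm
    rintro s f ⟨h3, h4, -⟩
    rw [h3, h4]

end Vale.Agent.P317.Alg
end

section

/-!
From a program with a step count to a Turing machine.
-/

namespace Vale.Agent.P317.T

open Vale.Agent.Lib.PolyTime

/-! ### The next action function -/

theorem pair_eq (x y : List Bool) : TM.pair x y = pr x y := by
  induction x with
  | nil => rfl
  | cons b x ih => show true :: b :: TM.pair x y = true :: b :: pr x y; rw [ih]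

/-- convert an action -/
def cvA : Action → TM.Action
  | .ask i w => .ask i w
  | .output N => .output N

theorem cvA_code (a : Action) : (cvA a).code = a.code := by cases a <;> rfl

instance : Enc TM.Input := ⟨TM.Input.code⟩
instance : Enc TM.Action := ⟨TM.Action.code⟩

theorem PT.input' : PT ∅ (fun x : TM.Input =>
    ((Un.mk x.n, Un.mk x.e, Un.mk x.l, x.coins, x.answers) :
      Un × Un × Un × List Bool × List Bool)) := by
  have h : PT ∅ (fun x : TM.Input => (⟨x.n, x.e, x.l, x.coins, x.answers⟩ : Input)) :=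
    ⟨_, FP.id, fun x => by
      show TM.Input.code x = Input.code _
      unfold TM.Input.code Input.code
      rw [pair_eq, pair_eq, pair_eq, pair_eq]⟩
  exact PT.comp (g := fun x : Input => ((Un.mk x.n, Un.mk x.e, Un.mk x.l, x.coins, x.answers) :
      Un × Un × Un × List Bool × List Bool)) PT.input h

theorem PT.cvA : PT ∅ T.cvA := ⟨_, FP.id, fun a => (cvA_code a).symm⟩

theorem exists_tm {F : Un × Un × Un × List Bool × List Bool → Action} (hF : PT ∅ F) :
    ∃ M : Turing.TM2ComputableInPolyTime TM.Input.code TM.Action.code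
      (fun x : TM.Input => cvA (F (Un.mk x.n, Un.mk x.e, Un.mk x.l, x.coins, x.answers))),
      ∀ k, Finite (M.tm.Γ k) :=
  PT.exists_tm2 (PT.comp PT.cvA (hF.comp PT.input'))

/-- initial memory -/
def st0 (n e l : ℕ) (ρ : List Bool) : St := (⟨n⟩, ⟨ρ.length⟩, ρ, [n, 2 * e, l], [])

/-- the output -/
def outp (σ : St) : ℕ := (2 * getN σ 3 + getN σ 4) / (2 * getN σ 4)

/-- the action after a replay -/
def act (r : Option (St × List Bool) × Query) : Action :=
  match r.1 with
  | some p => .output (outp p.1)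
  | none => match r.2 with
    | some q => .ask q.1 q.2
    | none => .output 0

/-- the next action function of a program -/
def nxt (c : Cmd) (x : Un × Un × Un × List Bool × List Bool) : Action :=
  act ((trF c (st0 x.1.v x.2.1.v x.2.2.1.v x.2.2.2.1)).exec x.2.2.2.2)

theorem PT.outp {α : Type} [Enc α] {s : α → St} (hs : PT ∅ s) : PT ∅ (fun a => outp (s a)) :=
  PT.div (PT.add (PT.double (PT.getN 3 hs)) (PT.getN 4 hs)) (PT.double (PT.getN 4 hs))

theorem PT.act {α : Type} [Enc α] {r : α → Option (St × List Bool) × Query} (hr : PT ∅ r) :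
    PT ∅ (fun a => act (r a)) := by
  have h1 : PT ∅ (fun a => match (r a).2 with
      | none => Action.output 0
      | some q => Action.ask q.1 q.2) :=
    (PT.optCase (o := fun a => (r a).2) (f := fun _ => Action.output 0)
      (g := fun _ q => Action.ask q.1 q.2) hr.snd (PT.const _)
      (PT.ask PT.snd'.fst PT.snd'.snd)).congr fun a => by rcases (r a).2 with _ | q <;> rfl
  have h2 := PT.optCase (o := fun a => (r a).1) (f := fun a => match (r a).2 with
      | none => Action.output 0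
      | some q => Action.ask q.1 q.2) (g := fun _ p => Action.output (T.outp p.1)) hr.fst h1
      (PT.output (PT.outp PT.snd'.fst))
  refine h2.congr fun a => ?_
  unfold T.act
  rcases r a with ⟨_ | p, _ | q⟩ <;> rfl

theorem PT.nxt (c : Cmd) : PT ∅ (nxt c) := by
  have hρ : PT ∅ (fun x : Un × Un × Un × List Bool × List Bool => x.2.2.2.1) :=
    PT.snd'.snd.snd.fst
  have h0 : PT ∅ (fun x : Un × Un × Un × List Bool × List Bool =>
      st0 x.1.v x.2.1.v x.2.2.1.v x.2.2.2.1) :=
    PT.fst'.pair ((PT.mkUn (PT.length hρ) (PBd.length hρ)).pair (hρ.pair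
      ((PT.cons (PT.unVal PT.fst') (PT.cons (PT.double (PT.unVal PT.snd'.fst))
        (PT.cons (PT.unVal PT.snd'.snd.fst) (PT.const [])))).pair (PT.const []))))
  have h1 : PT ∅ (fun x : Un × Un × Un × List Bool × List Bool =>
      (trF c (st0 x.1.v x.2.1.v x.2.2.1.v x.2.2.2.1)).exec x.2.2.2.2) :=
    PT.comp (g := fun p : St × List Bool => (trF c p.1).exec p.2) (qt_trF c)
      (h0.pair PT.snd'.snd.snd.snd)
  exact PT.act h1

/-- The Turing machine algorithm of a program. -/
def algo (c : Cmd) (x : TM.Input) : TM.Action :=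
  cvA (nxt c (Un.mk x.n, Un.mk x.e, Un.mk x.l, x.coins, x.answers))

theorem algo_tm (c : Cmd) :
    ∃ M : Turing.TM2ComputableInPolyTime TM.Input.code TM.Action.code (algo c),
      ∀ k, Finite (M.tm.Γ k) :=
  exists_tm (PT.nxt c)

/-! ### Runs -/

variable {n : ℕ} (M₁ M₂ : Matroid (Fin n))

/-- the oracles on words -/
noncomputable def oW (i : Bool) (w : List Bool) : Bool := TM.oracle (if i then M₂ else M₁) w

theorem oW_word (i : Bool) (l : List ℕ) : oW M₁ M₂ i (word n l) = oracles M₁ M₂ i l.toFinset := by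
  unfold oW TM.oracle oracles
  have e : {x : Fin n | (word n l).getD x false = true} = {x : Fin n | (x : ℕ) ∈ l.toFinset} := by
    ext x
    simp [word, List.getD_eq_getElem?_getD, x.isLt]
  rw [e]

variable {M₁ M₂} in
theorem answers_algo (c : Cmd) (e l : ℕ) (ρ : List Bool) (k : ℕ) :
    TM.answers (algo c) M₁ M₂ e l ρ k =
      answers (fun h => ((trF c (st0 n e l ρ)).exec h).2) (oW M₁ M₂) k := by
  induction k with
  | zero => rfl
  | succ k ih =>
    unfold TM.answers answers
    rw [ih]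
    generalize answers (fun h => ((trF c (st0 n e l ρ)).exec h).2) (oW M₁ M₂) k = h
    have e1 : algo c ⟨n, e, l, ρ, h⟩ = cvA (act ((trF c (st0 n e l ρ)).exec h)) := rfl
    rw [e1]
    rcases e2 : (trF c (st0 n e l ρ)).exec h with ⟨_ | ⟨σ, h'⟩, _ | ⟨i, w⟩⟩
    · rfl
    · rfl
    · rfl
    · obtain ⟨-, h3⟩ := Tree.exec_suffix e2
      simp at h3

variable {M₁ M₂} in
/-- The run of the Turing machine algorithm is the run of the program. -/
theorem outputs_algo {c : Cmd} {e l T : ℕ} {ρ : List Bool} (hρ : ρ.length = T)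
    (hT : (run (oracles M₁ M₂) c (input n (2 * e) l)).All (fun s => s.time ≤ T)) :
    TM.Outputs (algo c) M₁ M₂ e l ρ T
      ((2 * (path (run (oracles M₁ M₂) c (input n (2 * e) l)) ρ).1.num 3 +
        (path (run (oracles M₁ M₂) c (input n (2 * e) l)) ρ).1.num 4) /
        (2 * (path (run (oracles M₁ M₂) c (input n (2 * e) l)) ρ).1.num 4)) := by
  have hR : RelT T n (input n (2 * e) l) (st0 n e l ρ) := by
    refine ⟨rfl, ?_, ?_, ?_⟩
    · show 0 + ρ.length = T
      omega
    · intro x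
      show [n, 2 * e, l].getD x 0 = if x = 0 then n else if x = 1 then 2 * e else
        if x = 2 then l else 0
      rcases x with _ | _ | _ | x
      · rfl
      · rfl
      · rfl
      · simp
    · intro S
      show (([] : List (List ℕ)).getD S []).toFinset = ∅
      simp
  obtain ⟨h1, h2⟩ := sim (oW_word M₁ M₂) c hR hT
  have h3 : coins (st0 n e l ρ) = ρ := rfl
  rw [h3] at h1
  unfold TM.Outputs
  rw [answers_algo]
  have h4 : (answ (oW M₁ M₂) (trF c (st0 n e l ρ))).length ≤ T := by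
    have := answ_le (oW M₁ M₂) c (st0 n e l ρ)
    have h5 : fuel (st0 n e l ρ) = ρ.length := rfl
    omega
  have e1 : ∀ h, algo c ⟨n, e, l, ρ, h⟩ = cvA (act ((trF c (st0 n e l ρ)).exec h)) :=
    fun _ => rfl
  rw [e1, exec_answers (askAll_trF c _) h4]
  show TM.Action.output (outp (evalT (oW M₁ M₂) (trF c (st0 n e l ρ)))) = _
  unfold outp
  rw [h1.hnum, h1.hnum]

/-! ### Rounding -/

theorem round_ok {u v N e : ℕ} (hv : 0 < v) (he : 0 < e)
    (h : |(u : ℝ) / v - N| ≤ N / ((2 * e : ℕ) : ℝ)) :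
    |(((2 * u + v) / (2 * v) : ℕ) : ℝ) - N| ≤ N / e := by
  have hv' : (0 : ℝ) < v := by exact_mod_cast hv
  have he' : (0 : ℝ) < e := by exact_mod_cast he
  set q := (2 * u + v) / (2 * v) with hq
  have h1 : q * (2 * v) ≤ 2 * u + v := Nat.div_mul_le_self _ _
  have h2 : 2 * u + v < (q + 1) * (2 * v) := by
    have h3 := Nat.div_add_mod (2 * u + v) (2 * v)
    have h4 := Nat.mod_lt (2 * u + v) (show 2 * v > 0 by omega)
    rw [← hq] at h3
    have h5 : (q + 1) * (2 * v) = 2 * v * q + 2 * v := by ring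
    omega
  have h1' : (q : ℝ) ≤ (u : ℝ) / v + 1 / 2 := by
    have : (q : ℝ) * (2 * v) ≤ 2 * u + v := by exact_mod_cast h1
    rw [div_add_div _ _ hv'.ne' two_ne_zero, le_div_iff₀ (by positivity)]
    linarith
  have h2' : (u : ℝ) / v + 1 / 2 < q + 1 := by
    have : (2 * u + v : ℝ) < (q + 1) * (2 * v) := by exact_mod_cast h2
    rw [div_add_div _ _ hv'.ne' two_ne_zero, div_lt_iff₀ (by positivity)]
    linarith
  rw [abs_le] at h ⊢
  obtain ⟨h3, h4⟩ := h
  have e1 : (N : ℝ) / ((2 * e : ℕ) : ℝ) = N / e / 2 := by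
    rw [Nat.cast_mul, Nat.cast_ofNat, div_div, mul_comm]
  rw [e1] at h3 h4
  rcases lt_or_ge N e with hN | hN
  · have h5 : (N : ℝ) / e < 1 := by
      rw [div_lt_one he']
      exact_mod_cast hN
    have h6 : (q : ℝ) < N + 1 := by linarith
    have h7 : (N : ℝ) < q + 1 := by linarith
    have h8 : q = N := by
      have h6' : q < N + 1 := by exact_mod_cast h6
      have h7' : N < q + 1 := by exact_mod_cast h7
      omega
    rw [h8, sub_self]
    have : (0 : ℝ) ≤ (N : ℝ) / e := by positivity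
    exact ⟨by linarith, this⟩
  · have h5 : 1 ≤ (N : ℝ) / e := by
      rw [one_le_div he']
      exact_mod_cast hN
    exact ⟨by linarith, by linarith⟩

/-! ### Final assembly -/

/-- The number of common bases. -/
noncomputable def numCommon {n : ℕ} (M₁ M₂ : Matroid (Fin n)) : ℕ :=
  Nat.card {B : Set (Fin n) // M₁.IsBase B ∧ M₂.IsBase B}

theorem two_pow_log {δ : ℝ} (h0 : 0 < δ) (l : ℕ) (hl : Real.logb 2 (1 / δ) ≤ l) :
    (1 / 2 : ℝ) ^ l ≤ δ := by
  have h1 : (2 : ℝ) ^ Real.logb 2 (1 / δ) = 1 / δ :=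
    Real.rpow_logb (by norm_num) (by norm_num) (by positivity)
  have h2 : (1 / δ : ℝ) ≤ 2 ^ l := by
    rw [← h1, ← Real.rpow_natCast]
    exact Real.rpow_le_rpow_of_exponent_le (by norm_num) hl
  rw [div_le_iff₀ h0] at h2
  rw [one_div, inv_pow, inv_le_iff_one_le_mul₀ (by positivity)]
  linarith

theorem natCard_path {T τ : ℕ} {t : Rnd State} (h : Timed τ t)
    (hT : t.All (fun s => s.time ≤ T)) (p : State → Prop) (m : ℕ) (hm : T ≤ m + τ) :
    (Nat.card {ρ : Fin m → Bool // p (path t (List.ofFn ρ)).1} : ℝ) = t.prob p * 2 ^ m := by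
  classical
  rw [← card_path h hT p m hm]
  exact congrArg _ (Nat.subtype_card _ fun ρ => by simp)

/-- A program with polynomially many steps yields a Turing machine algorithm. -/
theorem machine_of_program (c : Cmd) (k : ℕ)
    (H : ∀ (n : ℕ) (M₁ M₂ : Matroid (Fin n)), M₁.E = Set.univ → M₂.E = Set.univ →
      M₁.eRank = M₂.eRank → ∀ e l : ℕ, 0 < e →
      (run (oracles M₁ M₂) c (input n e l)).All (fun s => s.time ≤ (n + e + l + 2) ^ k) ∧
      1 - (1 / 2) ^ l ≤ (run (oracles M₁ M₂) c (input n e l)).prob (fun s => 0 < s.num 4 ∧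
        |(s.num 3 : ℝ) / s.num 4 - numCommon M₁ M₂| ≤ numCommon M₁ M₂ / e)) :
    ∃ A : TM.Input → TM.Action,
      (∃ M : Turing.TM2ComputableInPolyTime TM.Input.code TM.Action.code A,
        ∀ k, Finite (M.tm.Γ k)) ∧
      ∃ d : ℕ, ∀ (n : ℕ) (M₁ M₂ : Matroid (Fin n)), M₁.E = Set.univ → M₂.E = Set.univ →
        M₁.eRank = M₂.eRank → ∀ ε δ : ℝ, 0 < ε → ε < 1 → 0 < δ → δ < 1 →
        ∀ e l T : ℕ, e = ⌈1 / ε⌉₊ → l = ⌈Real.logb 2 (1 / δ)⌉₊ → T = (n + e + l + 2) ^ d →
          (∀ ρ : Fin T → Bool, ∃ a, TM.Outputs A M₁ M₂ e l (List.ofFn ρ) T a) ∧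
          (1 - δ) * 2 ^ T ≤ Nat.card {ρ : Fin T → Bool //
            ∃ a : ℕ, TM.Outputs A M₁ M₂ e l (List.ofFn ρ) T a ∧
              (1 - ε) * numCommon M₁ M₂ ≤ a ∧ a ≤ (1 + ε) * numCommon M₁ M₂} := by
  classical
  refine ⟨algo c, algo_tm c, 2 * k, ?_⟩
  intro n M₁ M₂ h1 h2 h12 ε δ hε hε1 hδ hδ1 e l T he hl hT
  have he0 : 0 < e := by
    rw [he]
    exact Nat.ceil_pos.2 (by positivity)
  obtain ⟨H1, H2⟩ := H n M₁ M₂ h1 h2 h12 (2 * e) l (by omega)
  have hle : (n + 2 * e + l + 2) ^ k ≤ T := by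
    rw [hT, pow_mul]
    refine Nat.pow_le_pow_left ?_ k
    nlinarith
  have H3 : (run (oracles M₁ M₂) c (input n (2 * e) l)).All (fun s => s.time ≤ T) :=
    All_mono' H1 fun s hs => hs.trans hle
  refine ⟨fun ρ => ⟨_, outputs_algo (List.length_ofFn) H3⟩, ?_⟩
  have H4 := natCard_path (timed_run (oracles M₁ M₂) c (input n (2 * e) l)) H3
      (fun s => 0 < s.num 4 ∧
        |(s.num 3 : ℝ) / s.num 4 - numCommon M₁ M₂| ≤ numCommon M₁ M₂ / ((2 * e : ℕ) : ℝ)) T
      (Nat.le_add_right _ _)
  have h5 : (1 / 2 : ℝ) ^ l ≤ δ := two_pow_log hδ l (by rw [hl]; exact Nat.le_ceil _)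
  have h6 : (1 - δ) * 2 ^ T ≤ (run (oracles M₁ M₂) c (input n (2 * e) l)).prob (fun s =>
      0 < s.num 4 ∧
        |(s.num 3 : ℝ) / s.num 4 - numCommon M₁ M₂| ≤ numCommon M₁ M₂ / ((2 * e : ℕ) : ℝ)) * 2 ^ T :=
    mul_le_mul_of_nonneg_right (by linarith) (by positivity)
  rw [← H4] at h6
  refine h6.trans (Nat.cast_le.2 ?_)
  refine Nat.card_le_card_of_injective (Subtype.map id fun ρ hρ => ?_)
    (Subtype.map_injective _ Function.injective_id)
  refine ⟨_, outputs_algo (List.length_ofFn) H3, ?_⟩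
  obtain ⟨h7, h8⟩ := hρ
  have h9 := round_ok h7 he0 h8
  have h10 : (numCommon M₁ M₂ : ℝ) / e ≤ ε * numCommon M₁ M₂ := by
    have he' : (0 : ℝ) < e := by exact_mod_cast he0
    have h11 : 1 / ε ≤ e := by rw [he]; exact Nat.le_ceil _
    rw [div_le_iff₀ hε] at h11
    rw [div_le_iff₀ he']
    have : (0 : ℝ) ≤ numCommon M₁ M₂ := Nat.cast_nonneg _
    nlinarith
  rw [abs_le] at h9
  constructor
  · have := h9.1
    simp only [id] at *
    linarith
  · have := h9.2
    simp only [id] at *
    linarith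

end Vale.Agent.P317.T
end
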